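import Vale.Agent.P260Z.L3.AEGA

/-!
# P260, layer 3: the glued space is an absolute extensor
-/

noncomputable section

namespace Vale.Agent.P260Z.L3

open Set Topology Filter

namespace Aeg

variable {T : TG}

/-- the core with the address `l` -/
def core (T : TG) (l : List Port) : Set T.X := T.pt (val l) (ty true l) '' T.C (ty true l)

/-- the wall in front of the piece with the address `l ++ [p]` -/
def wall (T : TG) (l : List Port) (p : Port) : Set T.X :=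
  T.pt (val (l ++ [p])) p.2.tgt '' T.S p.2.bar

theorem S_W {e : Ed} {y : R4} (h : y ∈ T.S e) : y ∈ T.W e := ⟨T.C_sub _ h.1, h.2.1⟩

theorem th_S {e : Ed} {y : R4} (h : y ∈ T.S e) : T.θ e y ∈ T.S e.bar := by
  refine ⟨?_, (T.θ_maps e (S_W h)).2, ?_⟩
  · rw [e.src_bar]
    exact h.2.2
  · rw [T.θ_θ e y (S_W h), e.tgt_bar]
    exact h.1

theorem S_sub (h1 : T.Api1) (g : GG) (e : Ed) :
    T.pt g e.src '' T.S e ⊆ T.pt (g * e.s) e.tgt '' T.S e.bar := by
  rintro _ ⟨y, hy, rfl⟩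
  exact ⟨_, th_S hy, h1.pt_edge g (S_W hy)⟩

theorem S_eq (h1 : T.Api1) (g : GG) (e : Ed) :
    T.pt (g * e.s) e.tgt '' T.S e.bar = T.pt g e.src '' T.S e := by
  refine subset_antisymm ?_ (S_sub h1 g e)
  have := S_sub h1 (g * e.s) e.bar
  rwa [e.src_bar, e.tgt_bar, e.bar_bar, e.s_bar, mul_inv_cancel_right] at this

theorem wall_act (h1 : T.Api1) {l : List Port} {p : Port} (h : Red true (l ++ [p])) :
    wall T l p = T.pt (val l) p.2.src '' (act p.2.src p.1 '' T.S p.2) := by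
  obtain ⟨-, h2, h3, -⟩ := (red_app l p true).1 h
  rw [wall, val_app, S_eq h1, image_image]
  exact image_congr fun y hy => h1.pt_lam _ (h2 ▸ h3) (S_W hy).1

theorem wall_sub (h1 : T.Api1) {l : List Port} {p : Port} (h : Red true (l ++ [p])) :
    wall T l p ⊆ core T l := by
  obtain ⟨-, h2, h3, -⟩ := (red_app l p true).1 h
  rw [wall_act h1 h, core, ← h2]
  refine image_mono ?_
  rintro _ ⟨y, hy, rfl⟩
  exact T.C_act _ _ (h2 ▸ h3) hy.1

theorem wall_sub' (l : List Port) (p : Port) : wall T l p ⊆ core T (l ++ [p]) := by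
  rw [core, ty_app]
  exact image_mono fun y hy => p.2.src_bar ▸ hy.1

theorem meet (ht : Tree) (hn : Nb) (h1 : T.Api1) {l l' : List Port} (hl : Red true l)
    (hl' : Red true l') {x : T.X} (hx : x ∈ core T l) (hx' : x ∈ core T l') :
    l = l' ∨ (∃ p, l' = l ++ [p] ∧ x ∈ wall T l p) ∨ ∃ p, l = l' ++ [p] ∧ x ∈ wall T l' p := by
  obtain ⟨y, hy, rfl⟩ := hx
  obtain ⟨y', hy', e⟩ := hx'
  rcases (h1.pt_eq (T.C_sub _ hy) (T.C_sub _ hy')).1 e.symm with
    ⟨e1, e2, -⟩ | ⟨d, a, ha, a', ha', e1, e2, e3, e4, e5⟩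
  · exact Or.inl (ht.uniq true l l' hl hl' e1 e2)
  · have hz : act (ty true l) a y ∈ T.S d := by
      refine ⟨e1 ▸ T.C_act _ _ ha hy, e3, ?_⟩
      rw [← e5, e2]
      exact T.C_act _ _ ha' hy'
    rcases hn true l l' d a⁻¹ a'⁻¹ hl hl' e1.symm e2.symm (e1 ▸ inv_mem ha) (e2 ▸ inv_mem ha') e4
      with ⟨e6, e7⟩ | ⟨e6, e7⟩
    · refine Or.inr (Or.inl ⟨_, e7, y', ?_, ?_⟩)
      · rw [inv_eq_one.1 e6, act_one] at e5
        rw [e5]
        exact th_S hz
      · rw [← e7, ← e, ← e2]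
    · refine Or.inr (Or.inr ⟨_, e7, y, ?_, ?_⟩)
      · rw [inv_eq_one.1 e6, act_one] at hz
        rwa [d.bar_bar]
      · rw [← e7, ← e1, d.tgt_bar]

theorem ae_pt (h1 : T.Api1) (a1 : AE1) (g : GG) (i : Bool) {F : Set R4} (hF : F ⊆ T.P i)
    (h : AE F) : AE (T.pt g i '' F) := by
  refine a1.ret (T.pt g i) (T.crd g i) h ((h1.cont g i).mono hF) (mapsTo_image _ _)
    ((h1.crd_cont g i).mono (image_mono hF)) ?_ ?_
  · rintro _ ⟨y, hy, rfl⟩
    rwa [h1.crd_pt g (hF hy)]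
  · rintro _ ⟨y, hy, rfl⟩
    rw [h1.crd_pt g (hF hy)]

theorem core_tow (h1 : T.Api1) (h2 : T.Api2) (a1 : AE1) (hI : T.AEIn) {l : List Port}
    (h : ty true l = true) : IsClosed (core T l) ∧ AE (core T l) := by
  rw [core, h]
  exact ⟨h2.closed _ _ (T.closed_C _) subset_rfl, ae_pt h1 a1 _ _ (T.C_sub _) hI.aeU⟩

/-- bounded letters -/
def Bl (n : ℕ) (a : GG) : Prop := hc (kj a) ∈ sq n

/-- closed extensors which are spread over a family of addresses -/
structure Adm (T : TG) (n : ℕ) (F : Set (List Port)) (Y : Set T.X) : Prop where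
  red : ∀ l ∈ F, Red true l
  nil : [] ∈ F
  pre : ∀ l p, l ++ [p] ∈ F → l ∈ F
  hole : ∀ l ∈ F, ∀ a, Red true (l ++ [(a, Ed.L)]) → Bl n a → l ++ [(a, Ed.L)] ∈ F
  cl : IsClosed Y
  ae : AE Y
  sub : ∀ x ∈ Y, ∃ l ∈ F, x ∈ core T l
  tow : ∀ l ∈ F, ty true l = true → core T l ⊆ Y
  kle : ∀ l ∈ F, ty true l = false → T.pt (val l) false '' (CH ∩ box n) ⊆ Y

variable {n : ℕ} {F : Set (List Port)} {Y : Set T.X} {l : List Port}

theorem not_red_L {a : GG} (h : ty true l = true) : ¬ Red true (l ++ [(a, Ed.L)]) := fun h' => by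
  have := ((red_app _ _ _).1 h').2.1
  rw [h] at this
  exact Bool.noConfusion this

theorem Adm.inter (A : Adm T n F Y) (ht : Tree) (hn : Nb) (h1 : T.Api1) {p : Port} (hl : l ∈ F)
    (hty : ty true l = true) (hr : Red true (l ++ [p])) (hF : l ++ [p] ∉ F) :
    Y ∩ core T (l ++ [p]) = wall T l p := by
  refine subset_antisymm ?_ (subset_inter ((wall_sub h1 hr).trans (A.tow l hl hty)) (wall_sub' l p))
  rintro x ⟨hx, hx'⟩
  obtain ⟨l', hl', e⟩ := A.sub x hx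
  rcases meet ht hn h1 (A.red l' hl') hr e hx' with rfl | ⟨q, e1, e2⟩ | ⟨q, rfl, -⟩
  · exact absurd hl' hF
  · obtain ⟨rfl, rfl⟩ := List.append_singleton_inj.1 e1
    exact e2
  · exact absurd (A.pre _ _ hl') hF

theorem Adm.plumb (A : Adm T n F Y) (ht : Tree) (hn : Nb) (h1 : T.Api1) (h2 : T.Api2) (a1 : AE1)
    (a2 : AE2) (hI : T.AEIn) {p : Port} (hl : l ∈ F) (hty : ty true l = true)
    (hr : Red true (l ++ [p])) (hF : l ++ [p] ∉ F) (hp : p.2 = .A ∨ p.2 = .B) :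
    Adm T n (insert (l ++ [p]) F) (Y ∪ core T (l ++ [p])) := by
  have h3 : ty true (l ++ [p]) = true := by
    rw [ty_app]
    rcases hp with h | h <;> rw [h] <;> rfl
  obtain ⟨h4, h5⟩ := core_tow h1 h2 a1 hI h3
  have h6 : ∀ g, AE (T.pt g true '' T.S .A) := fun g =>
    ae_pt h1 a1 g true (fun y hy => (S_W hy).1) hI.aeA
  refine ⟨?_, Or.inr A.nil, ?_, ?_, A.cl.union h4, a2.union A.cl h4 A.ae h5 ?_, ?_, ?_, ?_⟩
  · rintro _ (rfl | h)
    exacts [hr, A.red _ h]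
  · rintro l' q (h | h)
    · exact Or.inr ((List.append_singleton_inj.1 h).1 ▸ hl)
    · exact Or.inr (A.pre _ _ h)
  · rintro _ (rfl | h) a ha hb
    · exact absurd ha (not_red_L h3)
    · exact Or.inr (A.hole _ h a ha hb)
  · rw [A.inter ht hn h1 hl hty hr hF, wall]
    rcases hp with h | h
    · rw [val_app, S_eq h1, h]
      exact h6 _
    · rw [h]
      exact h6 _
  · rintro x (h | h)
    · obtain ⟨l', e1, e2⟩ := A.sub x h
      exact ⟨l', Or.inr e1, e2⟩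
    · exact ⟨_, Or.inl rfl, h⟩
  · rintro _ (rfl | h) e
    exacts [subset_union_right, (A.tow _ h e).trans subset_union_left]
  · rintro _ (rfl | h) e
    · rw [h3] at e
      exact Bool.noConfusion e
    · exact (A.kle _ h e).trans subset_union_left

theorem jj_inj : Function.Injective jj := fun a b h => by rw [← kj_jj a, h, kj_jj]

theorem Adm.klein (A : Adm T n F Y) (ht : Tree) (hn : Nb) (h1 : T.Api1) (h2 : T.Api2) (a1 : AE1)
    (hg : Grid) (hI : T.AEIn) {a : GG} (hl : l ∈ F) (hty : ty true l = true)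
    (hr : Red true (l ++ [(a, Ed.K)])) (hF : l ++ [(a, Ed.K)] ∉ F) :
    ∃ F' Y', Adm T n F' Y' ∧ F ⊆ F' ∧ l ++ [(a, Ed.K)] ∈ F' := by
  classical
  have := h2.nice.t2
  have hw := A.inter ht hn h1 hl hty hr hF
  rw [wall] at hw
  obtain ⟨k, hk⟩ : ∃ k, k = l ++ [(a, Ed.K)] := ⟨_, rfl⟩
  have hk1 : ty true k = false := by rw [hk, ty_app]; rfl
  have hk2 : ∀ c, Red true (k ++ [(c, Ed.L)]) ↔ ∃ b, b ≠ 1 ∧ jj b = c := fun c => by
    rw [red_app, hk1, hk]
    simp only [hr, true_and, List.getLast?_concat, Option.mem_def, Option.some.injEq, forall_eq']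
    constructor
    · rintro ⟨-, ⟨b, rfl⟩, h⟩
      exact ⟨b, fun e => h (by rw [e, map_one]; rfl), rfl⟩
    · rintro ⟨b, h, rfl⟩
      exact ⟨rfl, ⟨b, rfl⟩, fun e => h (jj_inj ((congrArg Prod.fst e).trans (map_one jj).symm))⟩
  have hk3 : ∀ l' p, k = l' ++ [p] → l' ∈ F := fun l' p e =>
    (List.append_singleton_inj.1 (hk.symm.trans e)).1 ▸ hl
  rw [← hk] at hw hr hF ⊢
  have hc0 : core T k = T.pt (val k) false '' CH := by rw [core, hk1, hI.C_f]
  have hP : CH ⊆ T.P false := hI.C_f ▸ T.C_sub false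
  have hch : ∀ b, ty true (k ++ [(jj b, Ed.L)]) = true := fun b => ty_app _ _ _
  obtain ⟨Y', e1, e2, e3, e4, e5⟩ := grid2 hg a1 ((h1.cont (val k) false).mono hP)
    ((h1.inj (val k) false).mono hP) (fun b => if b = 1 then Y else core T (k ++ [(jj b, Ed.L)]))
    (fun b => by
      split_ifs
      exacts [⟨A.cl, A.ae⟩, core_tow h1 h2 a1 hI (hch b)])
    (fun b => by
      rw [← hc0, ← wall_eq, ← hI.S_L]
      split_ifs with hb
      · rw [hw, hb, show kl 1 = id from funext kl_one, image_id]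
        rfl
      · have hb' := (hk2 _).2 ⟨b, hb, rfl⟩
        have h3 := wall_act h1 hb'
        simp only [Ed.src, act, kj_jj] at h3
        rw [← h3]
        refine subset_antisymm ?_ (subset_inter (wall_sub' _ _) (wall_sub h1 hb'))
        rintro x ⟨hx, hx'⟩
        rcases meet ht hn h1 hr hb' hx' hx with h | ⟨q, h, h'⟩ | ⟨q, h, -⟩
        · exact absurd h (ne_app _ _)
        · rwa [← (List.append_singleton_inj.1 h).2] at h'
        · exact absurd h (ne_app2 _ _ _))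
    (by
      have key : ∀ b, b ≠ 1 → ∀ x ∈ Y, x ∉ core T (k ++ [(jj b, Ed.L)]) := fun b hb x hx hx' => by
        obtain ⟨l', hl', e⟩ := A.sub x hx
        rcases meet ht hn h1 (A.red l' hl') ((hk2 _).2 ⟨b, hb, rfl⟩) e hx' with
          rfl | ⟨q, h, -⟩ | ⟨q, rfl, -⟩
        · exact hF (A.pre _ _ hl')
        · exact hF ((List.append_singleton_inj.1 h).1 ▸ hl')
        · exact hF (A.pre _ _ (A.pre _ _ hl'))
      intro b b' hne x hx hx'
      split_ifs at hx hx' with hb hb' hb'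
      · exact hne (hb.trans hb'.symm)
      · exact key b' hb' x hx hx'
      · exact key b hb x hx' hx
      · rcases meet ht hn h1 ((hk2 _).2 ⟨b, hb, rfl⟩) ((hk2 _).2 ⟨b', hb', rfl⟩) hx hx' with
          h | ⟨q, h, -⟩ | ⟨q, h, -⟩
        · exact hne (jj_inj (congrArg Prod.fst (List.append_singleton_inj.1 h).2))
        · exact ne_app3 _ _ _ _ h
        · exact ne_app3 _ _ _ _ h) n
  have e6 : Y ⊆ Y' := by
    have := e4 1 (by simp [hc])
    rwa [if_pos rfl] at this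
  refine ⟨F ∪ insert k {l' | ∃ b, b ≠ 1 ∧ hc b ∈ sq n ∧ l' = k ++ [(jj b, Ed.L)]}, Y',
    ⟨?_, Or.inl A.nil, ?_, ?_, e1, e2, ?_, ?_, ?_⟩, subset_union_left, Or.inr (Or.inl rfl)⟩
  · rintro _ (h | rfl | ⟨b, hb, -, rfl⟩)
    exacts [A.red _ h, hr, (hk2 _).2 ⟨b, hb, rfl⟩]
  · rintro l' q (h | h | ⟨b, -, -, h⟩)
    · exact Or.inl (A.pre _ _ h)
    · exact Or.inl (hk3 _ _ h.symm)
    · exact Or.inr (Or.inl (List.append_singleton_inj.1 h).1)
  · rintro _ (h | rfl | ⟨b, -, -, rfl⟩) c h3 h4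
    · exact Or.inl (A.hole _ h c h3 h4)
    · obtain ⟨b, hb, rfl⟩ := (hk2 c).1 h3
      rw [Bl, kj_jj] at h4
      exact Or.inr (Or.inr ⟨b, hb, h4, rfl⟩)
    · exact absurd h3 (not_red_L (hch b))
  · intro x hx
    rcases e3 x hx with h | ⟨b, hb, h⟩
    · exact ⟨k, Or.inr (Or.inl rfl), hc0 ▸ h⟩
    · split_ifs at h with hb'
      · obtain ⟨l', h3, h4⟩ := A.sub x h
        exact ⟨l', Or.inl h3, h4⟩
      · exact ⟨_, Or.inr (Or.inr ⟨b, hb', hb, rfl⟩), h⟩
  · rintro _ (h | rfl | ⟨b, hb, hb', rfl⟩) e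
    · exact (A.tow _ h e).trans e6
    · rw [hk1] at e
      exact Bool.noConfusion e
    · have := e4 b hb'
      rwa [if_neg hb] at this
  · rintro _ (h | rfl | ⟨b, -, -, rfl⟩) e
    · exact (A.kle _ h e).trans e6
    · exact e5
    · rw [hch] at e
      exact Bool.noConfusion e

theorem Adm.step (A : Adm T n F Y) (ht : Tree) (hn : Nb) (h1 : T.Api1) (h2 : T.Api2) (a1 : AE1)
    (a2 : AE2) (hg : Grid) (hI : T.AEIn) (l : List Port) (hr : Red true l)
    (hb : ∀ p ∈ l, Bl n p.1) : ∃ F' Y', Adm T n F' Y' ∧ F ⊆ F' ∧ l ∈ F' := by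
  induction l using List.reverseRecOn with
  | nil => exact ⟨F, Y, A, subset_rfl, A.nil⟩
  | append_singleton l p ih =>
    obtain ⟨h3, h4, -⟩ := (red_app l p true).1 hr
    obtain ⟨F', Y', A', e1, e2⟩ := ih h3 fun q hq => hb q (List.mem_append_left _ hq)
    by_cases hF : l ++ [p] ∈ F'
    · exact ⟨F', Y', A', e1, hF⟩
    obtain ⟨a, e⟩ := p
    cases e
    · exact ⟨_, _, A'.plumb ht hn h1 h2 a1 a2 hI e2 h4.symm hr hF (Or.inl rfl),
        e1.trans (subset_insert _ _), Or.inl rfl⟩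
    · exact ⟨_, _, A'.plumb ht hn h1 h2 a1 a2 hI e2 h4.symm hr hF (Or.inr rfl),
        e1.trans (subset_insert _ _), Or.inl rfl⟩
    · obtain ⟨F'', Y'', A'', e3, e4⟩ := A'.klein ht hn h1 h2 a1 hg hI e2 h4.symm hr hF
      exact ⟨F'', Y'', A'', e1.trans e3, e4⟩
    · exact absurd (A'.hole l e2 a hr (hb (a, .L) (by simp))) hF

theorem ev_Bl (a : GG) : ∀ᶠ n : ℕ in atTop, Bl n a := by
  filter_upwards [eventually_ge_atTop ((hc (kj a)).1.natAbs + (hc (kj a)).2.natAbs)] with n hn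
  simp only [Bl, mem_Icc, Prod.le_def]
  omega

theorem ev_box {B : Set R4} (hB : IsCompact B) : ∀ᶠ n : ℕ in atTop, B ⊆ box n := by
  obtain ⟨R, hR⟩ := isBounded_iff_forall_norm_le.1 hB.isBounded
  filter_upwards [tendsto_natCast_atTop_atTop.eventually_ge_atTop R] with n hn y hy
  exact ⟨(norm_le_pi_norm y 0).trans ((hR y hy).trans hn),
    (norm_le_pi_norm y 1).trans ((hR y hy).trans hn)⟩

end Aeg

open Aeg in
theorem TG.aeG (T : TG) (ht : Tree) (hn : Nb) (h1 : T.Api1) (h2 : T.Api2) (a1 : AE1) (a2 : AE2)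
    (hg : Grid) : T.AEG := by
  intro hI
  refine a1.dir fun K _ hK => ?_
  obtain ⟨Φ, hΦ, B, hB, hKB⟩ := h2.fin hK
  choose ad r1 r2 r3 using fun p : GG × Bool => ht.ex true p.1 p.2
  have h3 : ∀ᶠ n : ℕ in atTop, ∀ p ∈ Φ, (∀ q ∈ {q | q ∈ ad p}, Bl n q.1) ∧
      act p.2 ((val (ad p))⁻¹ * p.1) '' B ⊆ box n :=
    (eventually_all_finite hΦ).2 fun p _ =>
      ((eventually_all_finite (ad p).finite_toSet).2 fun q _ => ev_Bl q.1).and
        (ev_box (hB.image (continuous_act _ _)))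
  obtain ⟨n, hn'⟩ := h3.exists
  have h4 : ∀ Ψ : Set (GG × Bool), Ψ.Finite → Ψ ⊆ Φ →
      ∃ F Y, Adm T n F Y ∧ ∀ p ∈ Ψ, ad p ∈ F := by
    intro Ψ hΨ
    induction Ψ, hΨ using Set.Finite.induction_on with
    | empty =>
      obtain ⟨e1, e2⟩ := core_tow (l := []) h1 h2 a1 hI rfl
      refine fun _ => ⟨{[]}, core T [], ⟨?_, rfl, ?_, ?_, e1, e2, fun x hx => ⟨[], rfl, hx⟩, ?_, ?_⟩,
        fun _ h => h.elim⟩
      · rintro _ rfl
        trivial
      · intro l p h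
        simp at h
      · rintro _ rfl a ha
        exact absurd ha (not_red_L rfl)
      · rintro _ rfl _
        exact subset_rfl
      · rintro _ rfl e
        exact Bool.noConfusion e
    | @insert p Ψ _ _ ih =>
      intro hs
      obtain ⟨F, Y, A, e⟩ := ih ((subset_insert _ _).trans hs)
      obtain ⟨F', Y', A', e1, e2⟩ := A.step ht hn h1 h2 a1 a2 hg hI (ad p) (r1 p)
        (hn' p (hs (mem_insert _ _))).1
      refine ⟨F', Y', A', ?_⟩
      rintro q (rfl | h)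
      exacts [e2, e1 (e q h)]
  obtain ⟨F, Y, A, e⟩ := h4 Φ hΦ subset_rfl
  refine ⟨Y, fun x hx => ?_, subset_univ _, A.ae⟩
  obtain ⟨p, hp, y, ⟨e1, e2⟩, rfl⟩ := hKB x hx
  have e3 := h1.pt_lam (val (ad p)) (r3 p) (T.C_sub _ e2)
  have e4 := T.C_act _ _ (r3 p) e2
  have e5 := (hn' p hp).2 (mem_image_of_mem _ e1)
  rw [mul_inv_cancel_left] at e3
  rw [e3]
  have e6 := r2 p
  obtain ⟨g, i⟩ := p
  cases i
  · exact A.kle _ (e _ hp) e6 ⟨_, ⟨hI.C_f ▸ e4, e5⟩, rfl⟩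
  · refine A.tow _ (e _ hp) e6 ?_
    rw [core, e6]
    exact ⟨_, e4, rfl⟩

end Vale.Agent.P260Z.L3
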