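import Vale.Agent.P260Z.L3.Sk

/-!
# P260, layer 3: addresses and cells for the proof that the glued space is an absolute extensor
-/

noncomputable section

namespace Vale.Agent.P260Z.L3.Aeg

open Set Topology Filter

/-! ### addresses -/

theorem val_app (l : List Port) (p : Port) : val (l ++ [p]) = val l * p.1 * p.2.s := by
  induction l with
  | nil => simp [val]
  | cons q l ih => simp only [List.cons_append, val, ih, mul_assoc]

theorem ty_app (l : List Port) (p : Port) : ∀ i, ty i (l ++ [p]) = p.2.tgt := by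
  induction l with
  | nil => exact fun _ => rfl
  | cons q l ih => exact fun _ => ih _

theorem red_app (l : List Port) (p : Port) : ∀ i, Red i (l ++ [p]) ↔
    Red i l ∧ p.2.src = ty i l ∧ p.1 ∈ Lam (ty i l) ∧ ∀ q ∈ l.getLast?, p ≠ (1, q.2.bar) := by
  induction l with
  | nil => exact fun i => by simp [Red, ty]
  | cons q l ih =>
    intro i
    simp only [List.cons_append, Red, ty, ih]
    cases l with
    | nil => simp [Red, and_assoc]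
    | cons r l =>
      simp only [List.cons_append, List.head?_cons, List.getLast?_cons_cons]
      tauto

theorem ne_app (l : List Port) (p : Port) : l ≠ l ++ [p] := fun h => by
  simpa using congrArg List.length h

theorem ne_app2 (l : List Port) (p q : Port) : l ≠ l ++ [p] ++ [q] := fun h => by
  have := congrArg List.length h
  simp only [List.length_append, List.length_singleton] at this
  omega

theorem ne_app3 (l : List Port) (p q r : Port) : l ++ [r] ≠ l ++ [p] ++ [q] := fun h =>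
  ne_app l p (List.append_singleton_inj.1 h).1

/-! ### cells -/

/-- a cell of the grid times the fibre -/
def cell (c : ℤ × ℤ) : Set R4 := {y | gg y ≤ 1 ∧ n2 (y 0 - 20 * c.1) (y 1 - 20 * c.2) ≤ 10}

/-- the cell of a hole -/
def hc (b : KJ) : ℤ × ℤ := (2 * b.m, 2 * b.n)

/-- a box -/
def box (n : ℕ) : Set R4 := {y | |y 0| ≤ n ∧ |y 1| ≤ n}

/-- the cells of a square -/
abbrev sq (n : ℕ) : Set (ℤ × ℤ) := Icc (-(n : ℤ), -(n : ℤ)) ((n : ℤ), (n : ℤ))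

theorem hc_inj : Function.Injective hc := fun b b' h => by
  simp only [hc, Prod.mk.injEq] at h
  ext <;> omega

theorem abs_sg (n : ℤ) (t : ℝ) : |(sg n : ℝ) * t| = |t| := by
  rcases Int.units_eq_one_or (Int.negOnePow n) with h | h <;> simp [sg, h]

theorem gg_kl (a : KJ) (y : R4) : gg (kl a y) = gg y := by simp [gg, kl]

theorem tH_inv (b : KJ) (y : R4) :
    tH (kl b⁻¹ y) = n2 (y 0 - 20 * (hc b).1) (y 1 - 20 * (hc b).2) := by
  have h1 : kl b⁻¹ y 0 = sg b.n * (y 0 - 20 * (hc b).1) := by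
    simp [kl, hc, sg_neg]; ring
  have h2 : kl b⁻¹ y 1 = y 1 - 20 * (hc b).2 := by
    simp [kl, hc]; ring
  rw [tH, h1, h2, n2, n2, abs_sg]

theorem far1 {t : ℝ} {a a' : ℤ} (h : |t - 20 * a| ≤ 10) (hne : a ≠ a') : 10 ≤ |t - 20 * a'| := by
  obtain ⟨h1, h2⟩ := abs_le.1 h
  rcases lt_or_gt_of_ne hne with h3 | h3
  · have h4 : (a : ℝ) + 1 ≤ a' := by exact_mod_cast h3
    exact le_abs.2 (Or.inr (by linarith))
  · have h4 : (a' : ℝ) + 1 ≤ a := by exact_mod_cast h3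
    exact le_abs.2 (Or.inl (by linarith))

theorem far {y : R4} {c c' : ℤ × ℤ} (h : y ∈ cell c) (hne : c ≠ c') :
    10 ≤ n2 (y 0 - 20 * c'.1) (y 1 - 20 * c'.2) := by
  obtain ⟨h1, h2⟩ := max_le_iff.1 h.2
  by_cases h3 : c.1 = c'.1
  · exact le_max_of_le_right (far1 h2 fun h4 => hne (Prod.ext h3 h4))
  · exact le_max_of_le_left (far1 h1 h3)

theorem mem_CH {y : R4} (h : gg y ≤ 1) (h' : ∀ b, ∃ c, y ∈ cell c ∧ c ≠ hc b) : y ∈ CH := by
  refine ⟨h, fun a => ?_⟩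
  obtain ⟨c, h1, h2⟩ := h' a⁻¹
  have h3 := tH_inv a⁻¹ y
  rw [inv_inv] at h3
  rw [h3]
  exact far h1 h2

theorem plain_sub {c : ℤ × ℤ} (h : c ∉ range hc) : cell c ⊆ CH := fun _ hy =>
  mem_CH hy.1 fun b => ⟨c, hy, fun e => h ⟨b, e.symm⟩⟩

theorem inter_sub {c c' : ℤ × ℤ} (h : c ≠ c') : cell c ∩ cell c' ⊆ CH := fun _ hy =>
  mem_CH hy.1.1 fun b => by
    by_cases e : c = hc b
    · exact ⟨c', hy.2, fun e' => h (e.trans e'.symm)⟩
    · exact ⟨c, hy.1, e⟩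

theorem wall_eq (b : KJ) : kl b '' {y | tH y = 10 ∧ gg y ≤ 1} = cell (hc b) ∩ CH := by
  ext y
  constructor
  · rintro ⟨z, ⟨h1, h2⟩, rfl⟩
    have h3 := tH_inv b (kl b z)
    rw [← kl_mul, inv_mul_cancel, kl_one, h1] at h3
    have h4 : kl b z ∈ cell (hc b) := ⟨by rwa [gg_kl], h3.ge⟩
    refine ⟨h4, h4.1, fun a => ?_⟩
    have h5 := tH_inv a⁻¹ (kl b z)
    rw [inv_inv] at h5
    rw [h5]
    by_cases e : hc b = hc a⁻¹
    · rw [← e, ← h3]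
    · exact far h4 e
  · rintro ⟨h1, h2⟩
    refine ⟨kl b⁻¹ y, ⟨le_antisymm ?_ (h2.2 _), by rw [gg_kl]; exact h1.1⟩, ?_⟩
    · rw [tH_inv]
      exact h1.2
    · rw [← kl_mul, mul_inv_cancel, kl_one]

theorem cell_eq (c : ℤ × ℤ) : cell c = Set.pi univ fun j =>
    Icc ((![20 * c.1 - 10, 20 * c.2 - 10, -7, 5] : R4) j)
      ((![20 * c.1 + 10, 20 * c.2 + 10, -5, 7] : R4) j) := by
  ext y
  simp only [cell, gg, n2, mem_ofPred_eq, max_le_iff, abs_le, Set.mem_pi, mem_univ, true_imp_iff,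
    Fin.forall_fin_succ, mem_Icc, IsEmpty.forall_iff, and_true, Matrix.cons_val_zero,
    Matrix.cons_val_succ, Fin.succ_zero_eq_one, Fin.succ_one_eq_two, Fin.reduceSucc]
  constructor
  · rintro ⟨⟨⟨h1, h2⟩, h3, h4⟩, ⟨h5, h6⟩, h7, h8⟩
    refine ⟨⟨?_, ?_⟩, ⟨?_, ?_⟩, ⟨?_, ?_⟩, ?_, ?_⟩ <;> linarith
  · rintro ⟨⟨h1, h2⟩, ⟨h3, h4⟩, ⟨h5, h6⟩, h7, h8⟩
    refine ⟨⟨⟨?_, ?_⟩, ?_, ?_⟩, ⟨?_, ?_⟩, ?_, ?_⟩ <;> linarith

theorem cell_cpt (c : ℤ × ℤ) : IsCompact (cell c) := by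
  rw [cell_eq]
  exact isCompact_univ_pi fun _ => isCompact_Icc

theorem cell_ae (a1 : AE1) (c : ℤ × ℤ) : AE (cell c) := by
  rw [cell_eq]
  refine a1.pi fun j => a1.icc ?_
  fin_cases j <;> simp <;> linarith

theorem near1 {t : ℝ} {n : ℕ} (h : |t| ≤ n) : ∃ a : ℤ, (-(n : ℤ) ≤ a ∧ a ≤ n) ∧ |t - 20 * a| ≤ 10 := by
  obtain ⟨h1, h2⟩ := abs_le.1 (abs_sub_round (t / 20))
  obtain ⟨h3, h4⟩ := abs_le.1 h
  have h5 : (0 : ℝ) ≤ n := n.cast_nonneg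
  refine ⟨round (t / 20), ⟨Int.le_of_lt_add_one ?_, Int.le_of_lt_add_one ?_⟩,
    abs_le.2 ⟨by linarith, by linarith⟩⟩
  · have : (-(n : ℝ)) < round (t / 20) + 1 := by linarith
    exact_mod_cast this
  · have : (round (t / 20) : ℝ) < n + 1 := by linarith
    exact_mod_cast this

theorem near {y : R4} {n : ℕ} (h : y ∈ box n) (h' : gg y ≤ 1) : ∃ c ∈ sq n, y ∈ cell c := by
  obtain ⟨a, h1, h2⟩ := near1 h.1
  obtain ⟨b, h3, h4⟩ := near1 h.2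
  exact ⟨(a, b), ⟨⟨h1.1, h3.1⟩, h1.2, h3.2⟩, h', max_le h2 h4⟩

/-- the grid lemma with filled holes -/
theorem grid2 (hg : Grid) (a1 : AE1) {X : Type} [TopologicalSpace X] [T2Space X] {φ : R4 → X}
    (hφ : ContinuousOn φ CH) (hi : InjOn φ CH) (Z : KJ → Set X)
    (hZ : ∀ b, IsClosed (Z b) ∧ AE (Z b)) (hw : ∀ b, Z b ∩ φ '' CH = φ '' (cell (hc b) ∩ CH))
    (hd : ∀ b b', b ≠ b' → ∀ x ∈ Z b, x ∉ Z b') (n : ℕ) :
    ∃ Y, IsClosed Y ∧ AE Y ∧ (∀ x ∈ Y, x ∈ φ '' CH ∨ ∃ b, hc b ∈ sq n ∧ x ∈ Z b) ∧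
      (∀ b, hc b ∈ sq n → Z b ⊆ Y) ∧ φ '' (CH ∩ box n) ⊆ Y := by
  have h0 : ∀ c, ∃ Y : Set X, (∀ b, c = hc b → Y = Z b) ∧ (c ∉ range hc → Y = φ '' cell c) := by
    intro c
    by_cases h : c ∈ range hc
    · obtain ⟨b, rfl⟩ := h
      exact ⟨Z b, fun b' e => congrArg Z (hc_inj e), fun h => absurd ⟨b, rfl⟩ h⟩
    · exact ⟨_, fun b e => absurd ⟨b, e.symm⟩ h, fun _ => rfl⟩
  choose Y hY1 hY2 using h0
  have h1 : ∀ c, IsClosed (Y c) ∧ AE (Y c) := fun c => by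
    by_cases h : c ∈ range hc
    · obtain ⟨b, rfl⟩ := h
      rw [hY1 _ b rfl]
      exact hZ b
    · rw [hY2 c h]
      exact ⟨((cell_cpt c).image_of_continuousOn (hφ.mono (plain_sub h))).isClosed,
        a1.cpt (cell_cpt c) (hφ.mono (plain_sub h)) (hi.mono (plain_sub h)) (cell_ae a1 c)⟩
  have h2 : ∀ c, Y c ∩ φ '' CH = φ '' (cell c ∩ CH) := fun c => by
    by_cases h : c ∈ range hc
    · obtain ⟨b, rfl⟩ := h
      rw [hY1 _ b rfl, hw]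
    · rw [hY2 c h, inter_eq_left.2 (plain_sub h), inter_eq_left.2 (image_mono (plain_sub h))]
  have h3 : ∀ c, ∀ x ∈ Y c, x ∈ φ '' CH ∨ ∃ b, c = hc b ∧ x ∈ Z b := fun c x hx => by
    by_cases h : c ∈ range hc
    · obtain ⟨b, rfl⟩ := h
      exact Or.inr ⟨b, rfl, hY1 _ b rfl ▸ hx⟩
    · exact Or.inl (image_mono (plain_sub h) (hY2 c h ▸ hx))
  refine ⟨_, (finite_Icc _ _).isClosed_biUnion fun c _ => (h1 c).1, hg φ Y hφ hi h1 ?_ n, ?_, ?_, ?_⟩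
  · intro c c' hne
    ext x
    constructor
    · rintro ⟨hx, hx'⟩
      have h4 : x ∈ φ '' CH := by
        rcases h3 c x hx with h | ⟨b, rfl, h⟩
        · exact h
        · rcases h3 c' x hx' with h' | ⟨b', rfl, h'⟩
          · exact h'
          · exact absurd h' (hd b b' (fun e => hne (congrArg hc e)) x h)
      obtain ⟨y, hy, rfl⟩ := (h2 c).subset ⟨hx, h4⟩
      obtain ⟨y', hy', e⟩ := (h2 c').subset ⟨hx', h4⟩
      obtain rfl := hi hy'.2 hy.2 e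
      exact ⟨y', ⟨hy.1.1, hy.1.2, hy'.1.2⟩, rfl⟩
    · rintro ⟨y, ⟨e1, e2, e3⟩, rfl⟩
      have h4 : y ∈ CH := inter_sub hne ⟨⟨e1, e2⟩, e1, e3⟩
      exact ⟨((h2 c).symm.subset ⟨y, ⟨⟨e1, e2⟩, h4⟩, rfl⟩).1,
        ((h2 c').symm.subset ⟨y, ⟨⟨e1, e3⟩, h4⟩, rfl⟩).1⟩
  · intro x hx
    obtain ⟨c, e1, e2⟩ := mem_iUnion₂.1 hx
    exact (h3 c x e2).imp_right fun ⟨b, e3, e4⟩ => ⟨b, e3 ▸ e1, e4⟩
  · intro b hb x hx
    exact mem_iUnion₂.2 ⟨hc b, hb, (hY1 _ b rfl).symm ▸ hx⟩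
  · rintro _ ⟨y, ⟨e1, e2⟩, rfl⟩
    obtain ⟨c, e3, e4⟩ := near e2 e1.1
    exact mem_iUnion₂.2 ⟨c, e3, ((h2 c).symm.subset ⟨y, ⟨e4, e1⟩, rfl⟩).1⟩

end Vale.Agent.P260Z.L3.Aeg
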