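import Vale.Agent.P260Z.L3.AEUA

/-!
# P260, layer 3: the tower and the inverted complement are absolute extensors
-/

set_option linter.all false

noncomputable section

namespace Vale.Agent.P260Z.L3

open Set Topology

namespace AEUx

/-- the part of a closed cave in the tube -/
def tb (c : Bx) : B4 := ⟨max c.x 1, min c.x' 67, max c.y 1, min c.y' 67, c.z, c.z', 1, 11⟩

/-- the cells of an open cave -/
def op (c : Bx) : B4 :=
  ⟨2 * c.x + 1, 2 * c.x' - 1, 2 * c.y + 1, 2 * c.y' - 1, 2 * c.z + 1, 2 * c.z' - 1, 2 * 1, 2 * 11⟩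

/-- the cells of the open tube near the level `0` -/
def tO : B4 := ⟨2 * 1 + 1, 2 * 67 - 1, 2 * 1 + 1, 2 * 67 - 1, 2 * -61, 2 * 57, 2 * 1 + 1, 2 * 11 - 1⟩

def tr : List B4 := cav.map tb

/-- the wall of the closed tree of caves -/
def wl : List Bx :=
  [⟨31, 37, 37, 67, -55, -55⟩, ⟨31, 37, 37, 37, -55, -11⟩, ⟨31, 37, 37, 44, -11, -11⟩,
    ⟨24, 44, 44, 44, -11, -1⟩, ⟨24, 31, 24, 44, -1, -1⟩, ⟨31, 37, 24, 31, -1, -1⟩,
    ⟨31, 37, 31, 31, -1, 3⟩, ⟨31, 37, 11, 31, 3, 3⟩, ⟨31, 37, 11, 11, 3, 19⟩,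
    ⟨31, 37, 3, 11, 19, 19⟩, ⟨37, 43, 3, 17, 19, 19⟩, ⟨43, 65, 3, 65, 19, 19⟩,
    ⟨3, 65, 65, 65, 19, 57⟩, ⟨3, 65, 39, 65, 57, 57⟩, ⟨43, 65, 29, 39, 57, 57⟩,
    ⟨3, 65, 3, 29, 57, 57⟩, ⟨3, 31, 3, 17, 19, 19⟩, ⟨3, 43, 39, 65, 19, 19⟩,
    ⟨31, 37, 37, 44, -1, -1⟩, ⟨31, 37, 37, 37, -1, 9⟩, ⟨31, 37, 17, 37, 9, 9⟩,
    ⟨24, 31, 24, 44, -11, -11⟩, ⟨31, 37, 24, 31, -11, -11⟩, ⟨31, 37, 31, 67, -61, -61⟩,
    ⟨31, 31, 31, 37, -55, -11⟩, ⟨31, 31, 31, 67, -61, -55⟩, ⟨31, 37, 31, 31, -61, -11⟩,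
    ⟨37, 37, 31, 67, -61, -55⟩, ⟨37, 37, 31, 37, -55, -11⟩, ⟨37, 44, 24, 44, -11, -11⟩,
    ⟨24, 24, 24, 44, -11, -1⟩, ⟨24, 44, 24, 24, -11, -1⟩, ⟨44, 44, 24, 44, -11, -1⟩,
    ⟨37, 44, 24, 44, -1, -1⟩, ⟨31, 37, 17, 17, 9, 19⟩, ⟨37, 37, 31, 37, -1, 3⟩,
    ⟨37, 37, 11, 37, 3, 9⟩, ⟨37, 37, 11, 17, 9, 19⟩, ⟨31, 31, 31, 37, -1, 3⟩,
    ⟨31, 31, 11, 37, 3, 9⟩, ⟨31, 31, 11, 17, 9, 19⟩, ⟨3, 43, 17, 29, 19, 19⟩,
    ⟨3, 3, 39, 65, 19, 57⟩, ⟨3, 43, 39, 39, 19, 57⟩, ⟨43, 43, 29, 39, 19, 57⟩,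
    ⟨3, 43, 29, 29, 19, 57⟩, ⟨65, 65, 3, 65, 19, 57⟩, ⟨3, 65, 3, 3, 19, 57⟩,
    ⟨3, 3, 3, 29, 19, 57⟩]

/-- the part of the closed tree of caves in the boundary of the tube -/
def wc : List B4 :=
  (tr.map fun b => { b with t := 11 }).reverse ++
    ⟨31, 37, 67, 67, -61, -55, 1, 11⟩ :: (tr.map fun b => { b with t' := 1 }).reverse

/-- the translate of a box -/
def dn (b : B4) : B4 := { b with z := b.z - 72, z' := b.z' - 72 }

theorem ok_tr : ok 10 tr.reverse = true := by decide +kernel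
theorem ok_wl : ok 60 (wl.map tb) = true := by decide +kernel
theorem ok_wc : ok 20 wc = true := by decide +kernel
theorem chk_wl : chk tr (cav.map op) (wl.map tb) = true := by decide +kernel
theorem chk_wc : chk tr [tO] wc = true := by decide +kernel
theorem chk_z : chk tr [⟨0, 200, 0, 200, 2 * -61, 2 * 57, 0, 200⟩] [] = true := by decide +kernel
theorem chk_dn : (tr.all fun b => tr.all fun c => !(b.cap (dn c)).ne) = true := by decide +kernel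

theorem mem_tb (c : Bx) (p : R4) : p ∈ (tb c).s ↔ p ∈ tube ∧ p ∈ c.cl := by
  simp only [tb, B4.s, tube, Bx.cl, mem_setOf_eq, Int.cast_max, Int.cast_min, max_le_iff,
    le_min_iff, Int.cast_one, Int.cast_ofNat]
  tauto

theorem op_M (c : Bx) {p : R4} (hp : p ∈ tube) : (op c).M (io p) ↔ p ∈ c.op := by
  obtain ⟨-, -, h1, h2⟩ := hp
  simp only [op, B4.M, io, lt_ce, ce_lt, le_ce, ce_le, Bx.op, mem_setOf_eq, Int.cast_one,
    Int.cast_ofNat, h1, h2, and_true]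

/-- the closed tree of caves -/
def D0 : Set R4 := un tr

theorem mem_D0 {p : R4} : p ∈ D0 ↔ p ∈ tube ∧ ∃ c ∈ cav, p ∈ c.cl := by
  simp only [D0, un, tr, List.mem_map, mem_setOf_eq]
  constructor
  · rintro ⟨_, ⟨c, hc, rfl⟩, h⟩
    exact ⟨((mem_tb c p).1 h).1, c, hc, ((mem_tb c p).1 h).2⟩
  · rintro ⟨h, c, hc, h'⟩
    exact ⟨_, ⟨c, hc, rfl⟩, (mem_tb c p).2 ⟨h, h'⟩⟩

theorem D0_z {p : R4} (h : p ∈ D0) : -61 ≤ p 2 ∧ p 2 ≤ 57 := by
  have h1 := (chk_ok chk_z p).not.1 (by simp [un_nil])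
  have h2 : (⟨0, 200, 0, 200, 2 * -61, 2 * 57, 0, 200⟩ : B4).M (io p) := by
    by_contra hn
    exact h1 ⟨h, by simpa using hn⟩
  obtain ⟨-, -, ⟨h3, h4⟩, -⟩ := h2
  exact ⟨by exact_mod_cast (le_ce _ _).1 h3, by exact_mod_cast (ce_le _ _).1 h4⟩

theorem sh_two (n : ℤ) (p : R4) : sh n p 2 = p 2 + 72 * n := by simp [sh]

theorem sh_tube (n : ℤ) (p : R4) : sh n p ∈ tube ↔ p ∈ tube := by simp [sh, tube]

theorem sh_sh (n : ℤ) (p : R4) : sh (-n) (sh n p) = p := by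
  rw [← sh_add, neg_add_cancel, sh_zero]

theorem sh_sh' (n : ℤ) (p : R4) : sh n (sh (-n) p) = p := by
  rw [← sh_add, add_neg_cancel, sh_zero]

theorem D0_one {p : R4} (h : p ∈ D0) (h' : sh 1 p ∈ D0) : False := by
  obtain ⟨b, hb, hp⟩ := h
  obtain ⟨c, hc, hq⟩ := h'
  have h1 : p ∈ (dn c).s := by
    obtain ⟨q0, q1, ⟨q2, q2'⟩, q3⟩ := hq
    rw [sh_two] at q2 q2'
    refine ⟨by simpa [sh, dn] using q0, by simpa [sh, dn] using q1, ⟨?_, ?_⟩,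
      by simpa [sh, dn] using q3⟩
    · simp only [dn]; push_cast at *; linarith
    · simp only [dn]; push_cast at *; linarith
  have h2 := List.all_eq_true.1 (List.all_eq_true.1 chk_dn b hb) c hc
  rw [B4.ne_of_mem (B4.mem_cap.2 ⟨hp, h1⟩)] at h2
  exact absurd h2 (by simp)

theorem D0_disj {p : R4} {n m : ℤ} (h : sh n p ∈ D0) (h' : sh m p ∈ D0) : n = m := by
  have h1 := D0_z h
  have h2 := D0_z h'
  rw [sh_two] at h1 h2
  have h3 : ((72 * (n - m) : ℤ) : ℝ) ≤ (118 : ℤ) := by push_cast; linarith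
  have h4 : ((-118 : ℤ) : ℝ) ≤ (72 * (n - m) : ℤ) := by push_cast; linarith
  rw [Int.cast_le] at h3 h4
  have h5 : n = m ∨ n = 1 + m ∨ m = 1 + n := by omega
  rcases h5 with h5 | rfl | rfl
  · exact h5
  · exact (D0_one h' (by rwa [← sh_add])).elim
  · exact (D0_one h (by rwa [← sh_add])).elim

theorem D0_bd {p : R4} {n : ℤ} {N : ℕ} (h : sh n p ∈ D0) (hN : |p 2| ≤ N) :
    n ∈ Finset.Icc (-(N + 1 : ℤ)) (N + 1) := by
  have h1 := D0_z h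
  rw [sh_two] at h1
  obtain ⟨h2, h2'⟩ := abs_le.1 hN
  have h3 : ((72 * n : ℤ) : ℝ) ≤ (N + 57 : ℤ) := by push_cast; linarith
  have h4 : ((-61 - N : ℤ) : ℝ) ≤ (72 * n : ℤ) := by push_cast; linarith
  rw [Int.cast_le] at h3 h4
  rw [Finset.mem_Icc]
  omega

theorem op_cl (c : Bx) : c.op ⊆ c.cl := fun _ h =>
  ⟨⟨h.1.1.le, h.1.2.le⟩, ⟨h.2.1.1.le, h.2.1.2.le⟩, h.2.2.1.le, h.2.2.2.le⟩

theorem wl_eq : un (wl.map tb) = D0 ∩ UU := by
  ext p
  rw [chk_ok chk_wl]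
  refine and_congr_right fun hp => ?_
  have ht := (mem_D0.1 hp).1
  constructor
  · intro h
    refine ⟨ht, fun n c hc hn => ?_⟩
    have h0 : n = 0 := D0_disj (mem_D0.2 ⟨(sh_tube n p).2 ht, c, hc, op_cl c hn⟩)
      (by rwa [sh_zero])
    rw [h0, sh_zero] at hn
    exact h _ (List.mem_map_of_mem hc) ((op_M c ht).2 hn)
  · intro h o ho hm
    obtain ⟨c, hc, rfl⟩ := List.mem_map.1 ho
    exact h.2 0 c hc (by rw [sh_zero]; exact (op_M c ht).1 hm)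

theorem wc_eq : un wc = D0 \ tubeO := by
  ext p
  rw [chk_ok chk_wc]
  refine and_congr_right fun hp => ?_
  obtain ⟨h1, h2⟩ := D0_z hp
  simp only [List.mem_singleton, forall_eq, tO, B4.M, io, lt_ce, ce_lt, le_ce, ce_le, tubeO,
    mem_setOf_eq, Int.cast_one, Int.cast_ofNat, Int.cast_neg, h1, h2, true_and]

theorem D0_cpt : IsCompact D0 := un_cpt _

theorem ae_D0 (a1 : AE1) (a2 : AE2) : AE D0 := by
  have e : un tr.reverse = D0 := by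
    ext p
    simp only [D0, un, List.mem_reverse]
  exact e ▸ ok_ae a1 a2 _ _ ok_tr

theorem tube_eq : tube = Set.pi univ (![Icc 1 67, Icc 1 67, univ, Icc 1 11] : Fin 4 → Set ℝ) := by
  ext p
  simp only [tube, mem_setOf_eq, mem_univ_pi, Fin.forall_fin_succ]
  simp

theorem ae_tube (a1 : AE1) : AE tube := by
  rw [tube_eq]
  refine a1.pi fun i => ?_
  fin_cases i
  · exact a1.icc (by norm_num)
  · exact a1.icc (by norm_num)
  · exact a1.real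
  · exact a1.icc (by norm_num)

theorem lf : LocallyFinite fun n : ℤ => sh n ⁻¹' D0 := by
  intro y
  obtain ⟨N, hN⟩ := exists_nat_gt |y 2|
  refine ⟨{z | |z 2| < N}, (isOpen_lt (by fun_prop) continuous_const).mem_nhds hN, ?_⟩
  refine (Finset.Icc (-(N + 1 : ℤ)) (N + 1)).finite_toSet.subset ?_
  rintro n ⟨z, h1, h2⟩
  exact D0_bd h1 (le_of_lt h2)

open Classical in
/-- the retraction of the tube -/
def rt (g : R4 → R4) (y : R4) : R4 :=
  if h : ∃ n, sh n y ∈ D0 then sh (-h.choose) (g (sh h.choose y)) else y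

theorem rt_eq (g : R4 → R4) {y : R4} {n : ℤ} (h : sh n y ∈ D0) :
    rt g y = sh (-n) (g (sh n y)) := by
  have h' : ∃ n, sh n y ∈ D0 := ⟨n, h⟩
  rw [rt, dif_pos h', D0_disj h'.choose_spec h]

/-- an inverted closed tree -/
def E (n : ℤ) (A : Set R4) : Set R4 := (fun z => iot (sh (-n) z)) '' A

theorem mem_E (hi : Iot) {n : ℤ} {A : Set R4} {y : R4} : y ∈ E n A ↔ sh n (iot y) ∈ A := by
  constructor
  · rintro ⟨z, hz, rfl⟩
    rwa [hi.iot_iot, sh_sh']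
  · intro h
    exact ⟨_, h, by simp only [sh_sh, hi.iot_iot]⟩

theorem gam_D0 (hi : Iot) {y : R4} (h : y ∈ D0) : gam y ≠ 0 := by
  obtain ⟨-, c, hc, h'⟩ := mem_D0.1 h
  have := hi.low y (Or.inl (Or.inr ⟨0, c, hc, by rwa [sh_zero]⟩))
  intro h0
  rw [h0] at this
  norm_num at this

theorem E_cont (hi : Iot) (n : ℤ) : ContinuousOn (fun z => iot (sh (-n) z)) D0 :=
  hi.cont.comp (continuous_sh _).continuousOn fun z hz => by
    change gam (sh (-n) z) ≠ 0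
    rw [hi.gam_sh]
    exact gam_D0 hi hz

theorem ae_E (hi : Iot) (a1 : AE1) (n : ℤ) {A : Set R4} (h : IsCompact A) (h' : A ⊆ D0)
    (hA : AE A) : AE (E n A) :=
  a1.cpt h ((E_cont hi n).mono h') (fun z _ z' _ e => by
    have := congrArg (fun w => sh n (iot w)) e
    simpa only [hi.iot_iot, sh_sh'] using this) hA

theorem iot_tube (hi : Iot) {y : R4} (h : gam y ≠ 0) : iot y ∈ tube ↔ y ∉ tubeO := by
  rw [(hi.tube_iff _).1, (hi.tube_iff _).2, hi.gam_iot y h, not_lt,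
    inv_le_one₀ (lt_of_le_of_ne (hi.gam_nonneg y) h.symm)]

theorem tube_E (hi : Iot) (n : ℤ) : tube ∩ E n D0 = E n (un wc) := by
  ext y
  rw [wc_eq, mem_inter_iff, mem_E hi, mem_E hi, mem_diff, and_comm]
  refine and_congr_right fun h => ?_
  rw [← iot_tube hi (gam_D0 hi h), hi.sh_iot, hi.iot_iot, sh_tube]

theorem inv_eq (hi : Iot) {y : R4} : y ∈ inv UC ↔ y ∈ tube ∨ ∃ n, y ∈ E n D0 := by
  by_cases h0 : gam y = 0
  · exact ⟨fun _ => Or.inl ((hi.tube_iff y).1.2 (by rw [h0]; norm_num)), fun _ => Or.inl h0⟩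
  have h1 : gam (iot y) ≠ 0 := by
    rw [hi.gam_iot y h0]
    exact inv_ne_zero h0
  have h2 : y ∈ tube ↔ iot y ∉ tubeO := by rw [← iot_tube hi h1, hi.iot_iot]
  constructor
  · rintro (h | h | ⟨n, c, hc, h⟩)
    · exact absurd h h0
    · exact Or.inl (h2.2 h)
    · by_cases ht : iot y ∈ tubeO
      · refine Or.inr ⟨n, (mem_E hi).2 (mem_D0.2 ⟨(sh_tube _ _).2 ?_, c, hc, h⟩)⟩
        exact (hi.tube_iff _).1.2 ((hi.tube_iff _).2.1 ht).le
      · exact Or.inl (h2.2 ht)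
  · rintro (h | ⟨n, h⟩)
    · exact Or.inr (Or.inl (h2.1 h))
    · obtain ⟨-, c, hc, h'⟩ := mem_D0.1 ((mem_E hi).1 h)
      exact Or.inr (Or.inr ⟨n, c, hc, h'⟩)

theorem ae_fin (hi : Iot) (a1 : AE1) (a2 : AE2) (F : Finset ℤ) :
    IsClosed {y | y ∈ tube ∨ ∃ n ∈ F, y ∈ E n D0} ∧ AE {y | y ∈ tube ∨ ∃ n ∈ F, y ∈ E n D0} := by
  induction F using Finset.induction_on with
  | empty =>
    have e : {y | y ∈ tube ∨ ∃ n ∈ (∅ : Finset ℤ), y ∈ E n D0} = tube := by simp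
    rw [e]
    refine ⟨?_, ae_tube a1⟩
    have e' : tube = {y | gam y ≤ 1} := Set.ext fun y => (hi.tube_iff y).1
    rw [e']
    exact isClosed_le hi.gam_cont continuous_const
  | insert n F hn ih =>
    have e : {y | y ∈ tube ∨ ∃ m ∈ insert n F, y ∈ E m D0} =
        {y | y ∈ tube ∨ ∃ m ∈ F, y ∈ E m D0} ∪ E n D0 := by
      ext y
      simp only [Finset.mem_insert, exists_eq_or_imp, mem_setOf_eq, mem_union]
      rw [or_assoc, or_comm (a := y ∈ E n D0)]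
    have c : IsClosed (E n D0) := (D0_cpt.image_of_continuousOn (E_cont hi n)).isClosed
    rw [e]
    refine ⟨ih.1.union c, a2.union ih.1 c ih.2 (ae_E hi a1 n D0_cpt Subset.rfl (ae_D0 a1 a2)) ?_⟩
    have e' : {y | y ∈ tube ∨ ∃ m ∈ F, y ∈ E m D0} ∩ E n D0 = tube ∩ E n D0 := by
      ext y
      refine and_congr_left fun h => ⟨?_, Or.inl⟩
      rintro (h' | ⟨m, hm, h'⟩)
      · exact h'
      · exact absurd (D0_disj ((mem_E hi).1 h) ((mem_E hi).1 h') ▸ hm) hn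
    rw [e', tube_E hi]
    exact ae_E hi a1 n (un_cpt _) (wc_eq ▸ diff_subset) (ok_ae a1 a2 _ _ ok_wc)

end AEUx

open AEUx

theorem aeU (h : Pos) (a1 : AE1) (a2 : AE2) : AEU := by
  have hW : AE (D0 ∩ UU) := wl_eq ▸ ok_ae a1 a2 _ _ ok_wl
  obtain ⟨g, g1, g2, g3⟩ := hW.2 R4 D0 (D0 ∩ UU) id D0_cpt (D0_cpt.isClosed.inter h.closed_UU)
    inter_subset_left continuousOn_id (mapsTo_id _)
  have hU : ∀ y ∈ UU, rt g y = y := by
    intro y hy
    by_cases hn : ∃ n, sh n y ∈ D0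
    · obtain ⟨n, hn⟩ := hn
      rw [rt_eq g hn, g3 ⟨hn, (h.sh_UU n y).2 hy⟩, id, sh_sh]
    · rw [rt, dif_neg hn]
  have hc : ∀ y ∈ tube, y ∈ UU ∨ ∃ n, sh n y ∈ D0 := by
    intro y hy
    by_cases hn : ∃ n, sh n y ∈ D0
    · exact Or.inr hn
    · exact Or.inl ⟨hy, fun n c hc h' =>
        hn ⟨n, mem_D0.2 ⟨(sh_tube n y).2 hy, c, hc, op_cl c h'⟩⟩⟩
  have cl : ∀ n : ℤ, IsClosed (sh n ⁻¹' D0) := fun n =>
    D0_cpt.isClosed.preimage (continuous_sh n)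
  refine a1.ret (rt g) id (ae_tube a1) ?_ ?_ continuousOn_id (fun y hy => hy.1) hU
  · refine ContinuousOn.mono (s := UU ∪ ⋃ n : ℤ, sh n ⁻¹' D0) ?_ fun y hy => by
      simpa using hc y hy
    refine ContinuousOn.union_of_isClosed (continuousOn_id.congr hU)
      (lf.continuousOn_iUnion cl fun n => ?_) h.closed_UU (lf.isClosed_iUnion cl)
    exact ((continuous_sh (-n)).comp_continuousOn
      (g1.comp (continuous_sh n).continuousOn fun y hy => hy)).congr fun y hy => rt_eq g hy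
  · intro y hy
    rcases hc y hy with h1 | ⟨n, hn⟩
    · rwa [hU y h1]
    · rw [rt_eq g hn, h.sh_UU]
      exact (g2 hn).2

theorem aeC (h : Pos) (hi : Iot) (a1 : AE1) (a2 : AE2) : AEC := by
  refine a1.dir fun K hK hc => ?_
  obtain ⟨B, hB⟩ := hc.exists_bound_of_continuousOn (f := fun y : R4 => y 2)
    (continuous_apply 2).continuousOn
  obtain ⟨N, hN⟩ := exists_nat_ge B
  refine ⟨_, fun y hy => ?_, fun y hy => ?_,
    (ae_fin hi a1 a2 (Finset.Icc (-(N + 1 : ℤ)) (N + 1))).2⟩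
  · rcases (inv_eq hi).1 (hK hy) with h1 | ⟨n, hn⟩
    · exact Or.inl h1
    · refine Or.inr ⟨n, D0_bd ((mem_E hi).1 hn) ?_, hn⟩
      rw [hi.two]
      exact (hB y hy).trans hN
  · rcases hy with h1 | ⟨n, -, hn⟩
    · exact (inv_eq hi).2 (Or.inl h1)
    · exact (inv_eq hi).2 (Or.inr ⟨n, hn⟩)

end Vale.Agent.P260Z.L3
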