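import Vale.Agent.P260Z.L3.Sk

/-!
# P260, layer 3: finite unions of boxes which are absolute extensors
-/

set_option linter.all false

noncomputable section

namespace Vale.Agent.P260Z.L3

open Set Topology

namespace AEUx

/-- a box with integer bounds -/
structure B4 where
  /-- lower bound of `X` -/
  x : ℤ
  /-- upper bound of `X` -/
  x' : ℤ
  /-- lower bound of `Y` -/
  y : ℤ
  /-- upper bound of `Y` -/
  y' : ℤ
  /-- lower bound of `Z` -/
  z : ℤ
  /-- upper bound of `Z` -/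
  z' : ℤ
  /-- lower bound of `T` -/
  t : ℤ
  /-- upper bound of `T` -/
  t' : ℤ

namespace B4

/-- the closed box -/
def s (b : B4) : Set R4 :=
  {p | (b.x ≤ p 0 ∧ p 0 ≤ b.x') ∧ (b.y ≤ p 1 ∧ p 1 ≤ b.y') ∧ (b.z ≤ p 2 ∧ p 2 ≤ b.z') ∧
    (b.t ≤ p 3 ∧ p 3 ≤ b.t')}

/-- the integer points -/
def M (b : B4) (a : Fin 4 → ℤ) : Prop :=
  (b.x ≤ a 0 ∧ a 0 ≤ b.x') ∧ (b.y ≤ a 1 ∧ a 1 ≤ b.y') ∧ (b.z ≤ a 2 ∧ a 2 ≤ b.z') ∧
    (b.t ≤ a 3 ∧ a 3 ≤ b.t')

def ne (b : B4) : Bool :=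
  decide (b.x ≤ b.x') && decide (b.y ≤ b.y') && decide (b.z ≤ b.z') && decide (b.t ≤ b.t')

def cap (a b : B4) : B4 :=
  ⟨max a.x b.x, min a.x' b.x', max a.y b.y, min a.y' b.y', max a.z b.z, min a.z' b.z',
    max a.t b.t, min a.t' b.t'⟩

def dbl (b : B4) : B4 :=
  ⟨2 * b.x, 2 * b.x', 2 * b.y, 2 * b.y', 2 * b.z, 2 * b.z', 2 * b.t, 2 * b.t'⟩

def lo (b : B4) : R4 := ![b.x, b.y, b.z, b.t]
def hi (b : B4) : R4 := ![b.x', b.y', b.z', b.t']

theorem s_eq (b : B4) : b.s = Set.pi univ fun i => Icc (b.lo i) (b.hi i) := by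
  ext p
  simp only [s, lo, hi, mem_setOf_eq, mem_univ_pi, mem_Icc, Fin.forall_fin_succ]
  simp

theorem cpt (b : B4) : IsCompact b.s := by
  rw [s_eq]
  exact isCompact_univ_pi fun _ => isCompact_Icc

theorem ne_iff (b : B4) :
    b.ne = true ↔ b.x ≤ b.x' ∧ b.y ≤ b.y' ∧ b.z ≤ b.z' ∧ b.t ≤ b.t' := by
  simp [ne, and_assoc]

theorem ae (a1 : AE1) {b : B4} (h : b.ne = true) : AE b.s := by
  rw [s_eq]
  obtain ⟨h0, h1, h2, h3⟩ := b.ne_iff.1 h
  refine a1.pi fun i => a1.icc ?_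
  fin_cases i <;> simp [lo, hi, *]

theorem ne_of_mem {b : B4} {p : R4} (h : p ∈ b.s) : b.ne = true := by
  obtain ⟨⟨h0, h0'⟩, ⟨h1, h1'⟩, ⟨h2, h2'⟩, h3, h3'⟩ := h
  refine b.ne_iff.2 ⟨?_, ?_, ?_, ?_⟩
  · exact_mod_cast h0.trans h0'
  · exact_mod_cast h1.trans h1'
  · exact_mod_cast h2.trans h2'
  · exact_mod_cast h3.trans h3'

theorem ne_of_M {b : B4} {a : Fin 4 → ℤ} (h : b.M a) : b.ne = true := by
  rw [ne_iff]
  unfold M at h
  omega

theorem mem_cap {a b : B4} {p : R4} : p ∈ (a.cap b).s ↔ p ∈ a.s ∧ p ∈ b.s := by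
  simp only [s, cap, mem_setOf_eq, Int.cast_max, Int.cast_min, max_le_iff, le_min_iff]
  tauto

theorem M_cap {a b : B4} {v : Fin 4 → ℤ} : (a.cap b).M v ↔ a.M v ∧ b.M v := by
  simp only [M, cap, max_le_iff, le_min_iff]
  tauto

end B4

/-- the cell of a real number: even for integers, odd for the open intervals -/
def ce (x : ℝ) : ℤ := ⌊x⌋ + ⌈x⌉

theorem le_ce (a : ℤ) (x : ℝ) : 2 * a ≤ ce x ↔ (a : ℝ) ≤ x := by
  have h1 := Int.floor_le_ceil x
  have h2 := Int.ceil_le_floor_add_one x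
  rw [← Int.le_floor, ce]
  omega

theorem ce_le (a : ℤ) (x : ℝ) : ce x ≤ 2 * a ↔ x ≤ (a : ℝ) := by
  have h1 := Int.floor_le_ceil x
  have h2 := Int.ceil_le_floor_add_one x
  rw [← Int.ceil_le, ce]
  omega

theorem lt_ce (a : ℤ) (x : ℝ) : 2 * a + 1 ≤ ce x ↔ (a : ℝ) < x := by
  rw [← not_le, ← ce_le]
  omega

theorem ce_lt (a : ℤ) (x : ℝ) : ce x ≤ 2 * a - 1 ↔ x < (a : ℝ) := by
  rw [← not_le, ← le_ce]
  omega

/-- the cell of a point -/
def io (p : R4) : Fin 4 → ℤ := fun j => ce (p j)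

theorem dbl_M (b : B4) (p : R4) : b.dbl.M (io p) ↔ p ∈ b.s := by
  simp only [B4.M, B4.dbl, io, le_ce, ce_le, B4.s, mem_setOf_eq]

/-- the union of a list of boxes -/
def un (L : List B4) : Set R4 := {p | ∃ b ∈ L, p ∈ b.s}

theorem un_cons (b : B4) (L : List B4) : un (b :: L) = b.s ∪ un L := by
  ext p
  simp [un]

theorem un_nil : un [] = ∅ := by
  ext p
  simp [un]

theorem un_cpt (L : List B4) : IsCompact (un L) := by
  induction L with
  | nil => rw [un_nil]; exact isCompact_empty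
  | cons b L ih => rw [un_cons]; exact b.cpt.union ih

/-- the traces of a list on a box -/
def cut (b : B4) (L : List B4) : List B4 := (L.map b.cap).filter B4.ne

theorem un_cut (b : B4) (L : List B4) : un (cut b L) = b.s ∩ un L := by
  ext p
  simp only [un, cut, List.mem_filter, List.mem_map, mem_setOf_eq, mem_inter_iff]
  constructor
  · rintro ⟨_, ⟨⟨c, hc, rfl⟩, _⟩, hp⟩
    exact ⟨(B4.mem_cap.1 hp).1, c, hc, (B4.mem_cap.1 hp).2⟩
  · rintro ⟨h1, c, hc, h2⟩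
    have := B4.mem_cap.2 ⟨h1, h2⟩
    exact ⟨_, ⟨⟨c, hc, rfl⟩, B4.ne_of_mem this⟩, this⟩

/-- some element of the second list passes the test, with the other elements as the rest -/
def tryAll (q : B4 → List B4 → Bool) : List B4 → List B4 → Bool
  | _, [] => false
  | pre, b :: r => q b (pre ++ r) || tryAll q (b :: pre) r

theorem tryAll_ok (q : B4 → List B4 → Bool) (L : List B4) : ∀ pre, tryAll q pre L = true →
    ∃ b r, q b r = true ∧ un (pre ++ L) = un (b :: r) := by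
  induction L with
  | nil => intro pre h; simp [tryAll] at h
  | cons b L ih =>
    intro pre h
    have e : un (pre ++ b :: L) = un (b :: (pre ++ L)) := by
      ext p
      simp only [un, List.mem_append, List.mem_cons, mem_setOf_eq, or_left_comm]
    rw [tryAll, Bool.or_eq_true] at h
    rcases h with h | h
    · exact ⟨b, _, h, e⟩
    · obtain ⟨c, r, h1, h2⟩ := ih _ h
      exact ⟨c, r, h1, e.trans h2⟩

/-- the test for a union of boxes -/
def ok : ℕ → List B4 → Bool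
  | 0, _ => false
  | f + 1, L => tryAll (fun b r => b.ne && (r.isEmpty || (ok f (cut b r) && ok f r))) [] L

theorem ok_ae (a1 : AE1) (a2 : AE2) (f : ℕ) : ∀ L, ok f L = true → AE (un L) := by
  induction f with
  | zero => intro L h; simp [ok] at h
  | succ f ih =>
    intro L h
    rw [ok] at h
    obtain ⟨b, r, h1, h2⟩ := tryAll_ok _ _ _ h
    rw [List.nil_append] at h2
    simp only [Bool.and_eq_true, Bool.or_eq_true, List.isEmpty_iff] at h1
    rw [h2, un_cons]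
    rcases h1 with ⟨h0, rfl | ⟨h3, h4⟩⟩
    · rw [un_nil, union_empty]
      exact B4.ae a1 h0
    · refine a2.union b.cpt.isClosed (un_cpt r).isClosed (B4.ae a1 h0) (ih _ h4) ?_
      rw [← un_cut]
      exact ih _ h3

/-- pieces which cover the difference of two integer boxes -/
def pcs (b c : B4) : List B4 :=
  let m := b.cap c
  [⟨b.x, c.x - 1, b.y, b.y', b.z, b.z', b.t, b.t'⟩, ⟨c.x' + 1, b.x', b.y, b.y', b.z, b.z', b.t, b.t'⟩,
    ⟨m.x, m.x', b.y, c.y - 1, b.z, b.z', b.t, b.t'⟩,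
    ⟨m.x, m.x', c.y' + 1, b.y', b.z, b.z', b.t, b.t'⟩,
    ⟨m.x, m.x', m.y, m.y', b.z, c.z - 1, b.t, b.t'⟩,
    ⟨m.x, m.x', m.y, m.y', c.z' + 1, b.z', b.t, b.t'⟩,
    ⟨m.x, m.x', m.y, m.y', m.z, m.z', b.t, c.t - 1⟩,
    ⟨m.x, m.x', m.y, m.y', m.z, m.z', c.t' + 1, b.t'⟩]

theorem pcs_ok {b c : B4} {a : Fin 4 → ℤ} (h : b.M a) (h' : ¬ c.M a) : ∃ q ∈ pcs b c, q.M a := by
  obtain ⟨⟨h0, h0'⟩, ⟨h1, h1'⟩, ⟨h2, h2'⟩, h3, h3'⟩ := h
  simp only [pcs, B4.cap, B4.M, List.mem_cons, List.not_mem_nil, or_false, exists_eq_or_imp,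
    exists_eq_left, max_le_iff, le_min_iff, h0, h0', h1, h1', h2, h2', h3, h3', true_and, and_true]
  by_cases c0 : c.x ≤ a 0
  swap
  · exact Or.inl (by omega)
  by_cases c0' : a 0 ≤ c.x'
  swap
  · exact Or.inr (Or.inl (by omega))
  refine Or.inr (Or.inr ?_)
  simp only [c0, c0', true_and]
  by_cases c1 : c.y ≤ a 1
  swap
  · exact Or.inl (by omega)
  by_cases c1' : a 1 ≤ c.y'
  swap
  · exact Or.inr (Or.inl (by omega))
  refine Or.inr (Or.inr ?_)
  simp only [c1, c1', true_and]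
  by_cases c2 : c.z ≤ a 2
  swap
  · exact Or.inl (by omega)
  by_cases c2' : a 2 ≤ c.z'
  swap
  · exact Or.inr (Or.inl (by omega))
  refine Or.inr (Or.inr ?_)
  simp only [c2, c2', true_and]
  simp only [B4.M, c0, c0', c1, c1', c2, c2', true_and] at h'
  omega

/-- the integer box is covered by the list -/
def cov : List B4 → B4 → Bool
  | [], b => !b.ne
  | c :: L, b => !b.ne || if (b.cap c).ne then (pcs b c).all (cov L) else cov L b

theorem cov_ok {a : Fin 4 → ℤ} (L : List B4) : ∀ b, cov L b = true → b.M a → ∃ c ∈ L, c.M a := by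
  induction L with
  | nil =>
    intro b h hb
    simp [cov, B4.ne_of_M hb] at h
  | cons c L ih =>
    intro b h hb
    rw [cov, B4.ne_of_M hb] at h
    by_cases hc : c.M a
    · exact ⟨c, List.mem_cons_self, hc⟩
    · have : ∃ q, cov L q = true ∧ q.M a := by
        by_cases hn : (b.cap c).ne = true
        · rw [if_pos hn] at h
          obtain ⟨q, hq, hq'⟩ := pcs_ok hb hc
          exact ⟨q, List.all_eq_true.1 (by simpa using h) q hq, hq'⟩
        · rw [if_neg hn] at h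
          exact ⟨b, by simpa using h, hb⟩
      obtain ⟨q, h1, h2⟩ := this
      obtain ⟨d, hd, hd'⟩ := ih q h1 h2
      exact ⟨d, List.mem_cons_of_mem _ hd, hd'⟩

/-- the test for `W = T \ O` -/
def chk (T O W : List B4) : Bool :=
  (T.all fun t => cov (O ++ W.map B4.dbl) t.dbl) &&
    W.all fun w => cov (T.map B4.dbl) w.dbl && O.all fun o => !(w.dbl.cap o).ne

theorem chk_ok {T O W : List B4} (h : chk T O W = true) (p : R4) :
    p ∈ un W ↔ p ∈ un T ∧ ∀ o ∈ O, ¬ o.M (io p) := by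
  simp only [chk, Bool.and_eq_true, List.all_eq_true, Bool.not_eq_true'] at h
  obtain ⟨h1, h2⟩ := h
  constructor
  · rintro ⟨w, hw, hp⟩
    have hp' := (dbl_M w p).2 hp
    obtain ⟨c, hc, hc'⟩ := cov_ok _ _ (h2 w hw).1 hp'
    obtain ⟨t, ht, rfl⟩ := List.mem_map.1 hc
    refine ⟨⟨t, ht, (dbl_M t p).1 hc'⟩, fun o ho hm => ?_⟩
    have := (h2 w hw).2 o ho
    rw [B4.ne_of_M (B4.M_cap.2 ⟨hp', hm⟩)] at this
    exact absurd this (by simp)
  · rintro ⟨⟨t, ht, hp⟩, hO⟩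
    obtain ⟨c, hc, hc'⟩ := cov_ok _ _ (h1 t ht) ((dbl_M t p).2 hp)
    rcases List.mem_append.1 hc with hc | hc
    · exact absurd hc' (hO c hc)
    · obtain ⟨w, hw, rfl⟩ := List.mem_map.1 hc
      exact ⟨w, hw, (dbl_M w p).1 hc'⟩

end AEUx

end Vale.Agent.P260Z.L3
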