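import Vale.Agent.P260Z.L3.Sk

/-!
# P260, layer 3: a radial adjustment in the neck
-/

noncomputable section

namespace Vale.Agent.P260Z.L3

open Set Topology

theorem n2_nonneg (a b : ℝ) : 0 ≤ n2 a b := le_max_of_le_left (abs_nonneg a)

theorem n2_mul {c : ℝ} (hc : 0 ≤ c) (a b : ℝ) : n2 (c * a) (c * b) = c * n2 a b := by
  simp only [n2, abs_mul, abs_of_nonneg hc]
  exact (mul_max_of_nonneg _ _ hc).symm

theorem continuous_rr : Continuous rr := by unfold rr n2; fun_prop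
theorem continuous_tH : Continuous tH := by unfold tH n2; fun_prop

/-- the tent function -/
def tent (a ρ : ℝ) : ℝ := max 0 (min (a * (ρ - 4)) ((9 - ρ) / 2))
/-- the cut off in the direction of the tower -/
def cut (z : ℝ) : ℝ := max 0 (min 1 (3 - |z + 6|))
/-- the radial factor -/
def fac (a : ℝ) (y : R4) : ℝ := 1 + cut (y 2) * tent a (rr y) / max (rr y) 1
/-- the adjustment -/
def adj (a : ℝ) (y : R4) : R4 :=
  ![34 + fac a y * (y 0 - 34), 34 + fac a y * (y 1 - 34), y 2, y 3]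

theorem tent_nonneg (a ρ : ℝ) : 0 ≤ tent a ρ := le_max_left _ _
theorem cut_nonneg (z : ℝ) : 0 ≤ cut z := le_max_left _ _
theorem cut_le (z : ℝ) : cut z ≤ 1 := max_le zero_le_one (min_le_left _ _)

theorem tent_eq_zero {a ρ : ℝ} (ha : 0 ≤ a) (h : ρ ≤ 4 ∨ 9 ≤ ρ) : tent a ρ = 0 := by
  refine max_eq_left ?_
  rcases h with h | h
  · exact min_le_of_left_le (mul_nonpos_of_nonneg_of_nonpos ha (by linarith))
  · exact min_le_of_right_le (by linarith)

theorem one_le_fac (a : ℝ) (y : R4) : 1 ≤ fac a y := by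
  have : 0 ≤ cut (y 2) * tent a (rr y) / max (rr y) 1 :=
    div_nonneg (mul_nonneg (cut_nonneg _) (tent_nonneg _ _)) (le_max_of_le_right zero_le_one)
  unfold fac
  linarith

theorem continuous_adj (a : ℝ) : Continuous (adj a) := by
  have h : Continuous (fac a) := by
    have h1 := continuous_rr
    unfold fac cut tent
    refine continuous_const.add (Continuous.div (by fun_prop) (by fun_prop) fun y => ?_)
    exact (lt_of_lt_of_le one_pos (le_max_right _ _)).ne'
  unfold adj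
  fun_prop

@[simp] theorem adj_two (a : ℝ) (y : R4) : adj a y 2 = y 2 := rfl
@[simp] theorem adj_three (a : ℝ) (y : R4) : adj a y 3 = y 3 := rfl

theorem rr_adj {a : ℝ} (ha : 0 ≤ a) (y : R4) :
    rr (adj a y) = rr y + cut (y 2) * tent a (rr y) := by
  have h : rr (adj a y) = fac a y * rr y := by
    rw [rr, rr, ← n2_mul (by linarith [one_le_fac a y])]
    simp [adj]
  rw [h, fac]
  by_cases h1 : rr y ≤ 1
  · rw [tent_eq_zero ha (Or.inl (by linarith))]
    simp
  · have h0 : rr y ≠ 0 := by linarith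
    rw [max_eq_left (by linarith)]
    field_simp

theorem tent_mono {a c ρ ρ' : ℝ} (ha : 0 ≤ a) (h0 : 0 ≤ c) (h1 : c ≤ 1) (h : ρ < ρ') :
    ρ + c * tent a ρ < ρ' + c * tent a ρ' := by
  have key : tent a ρ ≤ tent a ρ' + (ρ' - ρ) / 2 := by
    unfold tent
    have h2 : a * (ρ - 4) ≤ a * (ρ' - 4) := mul_le_mul_of_nonneg_left (by linarith) ha
    refine max_le (by linarith [le_max_left 0 (min (a * (ρ' - 4)) ((9 - ρ') / 2))]) ?_
    have h3 := le_max_right 0 (min (a * (ρ' - 4)) ((9 - ρ') / 2))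
    rcases min_cases (a * (ρ' - 4)) ((9 - ρ') / 2) with h4 | h4
    · linarith [min_le_left (a * (ρ - 4)) ((9 - ρ) / 2), h4.1]
    · linarith [min_le_right (a * (ρ - 4)) ((9 - ρ) / 2), h4.1]
  nlinarith [mul_le_mul_of_nonneg_left key h0]

theorem adj_inj {a : ℝ} (ha : 0 ≤ a) : Function.Injective (adj a) := by
  intro y y' h
  have h2 : y 2 = y' 2 := by simpa using congrFun h 2
  have h3 : y 3 = y' 3 := by simpa using congrFun h 3
  have hr : rr y = rr y' := by
    have e := congrArg rr h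
    rw [rr_adj ha, rr_adj ha, h2] at e
    rcases lt_trichotomy (rr y) (rr y') with l | l | l
    · exact absurd e (tent_mono ha (cut_nonneg _) (cut_le _) l).ne
    · exact l
    · exact absurd e (tent_mono ha (cut_nonneg _) (cut_le _) l).ne'
  have hf : fac a y = fac a y' := by rw [fac, fac, h2, hr]
  have hp : fac a y' ≠ 0 := by linarith [one_le_fac a y']
  have h0 := congrFun h 0
  have h1 := congrFun h 1
  simp only [adj, hf, Matrix.cons_val_zero, Matrix.cons_val_one, add_right_inj] at h0 h1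
  have h0' := mul_left_cancel₀ hp h0
  have h1' := mul_left_cancel₀ hp h1
  ext j
  fin_cases j
  · simpa using h0'
  · simpa using h1'
  · exact h2
  · exact h3

theorem adj_eq {a : ℝ} (ha : 0 ≤ a) {y : R4} (h : 9 ≤ rr y ∨ 3 ≤ |y 2 + 6|) : adj a y = y := by
  have hf : fac a y = 1 := by
    rcases h with h | h
    · simp [fac, tent_eq_zero ha (Or.inr h)]
    · have : cut (y 2) = 0 := max_eq_left (min_le_of_right_le (by linarith))
      simp [fac, this]
  ext j
  fin_cases j <;> simp [adj, hf]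

theorem le_rr_adj {a : ℝ} (ha : 0 ≤ a) (y : R4) : rr y ≤ rr (adj a y) := by
  rw [rr_adj ha]
  linarith [mul_nonneg (cut_nonneg (y 2)) (tent_nonneg a (rr y))]

theorem rr_adj_le {a : ℝ} (ha : 0 ≤ a) {y : R4} (h : rr y ≤ 9) : rr (adj a y) ≤ 9 := by
  rw [rr_adj ha]
  have h1 : tent a (rr y) ≤ (9 - rr y) / 2 := max_le (by linarith) (min_le_right _ _)
  nlinarith [cut_nonneg (y 2), cut_le (y 2), tent_nonneg a (rr y)]

theorem cut_eq_one {z : ℝ} (h : |z + 6| ≤ 2) : cut z = 1 := by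
  rw [cut, min_eq_left (by linarith), max_eq_right zero_le_one]

theorem six_le_rr_adj {a : ℝ} (ha : 0 ≤ a) {y : R4} (hz : |y 2 + 6| ≤ 2) (h4 : 4 ≤ rr y)
    (h : 2 ≤ a * (rr y - 4)) : 6 ≤ rr (adj a y) := by
  rw [rr_adj ha, cut_eq_one hz, one_mul]
  have h3 := le_max_right 0 (min (a * (rr y - 4)) ((9 - rr y) / 2))
  unfold tent
  rcases min_cases (a * (rr y - 4)) ((9 - rr y) / 2) with h4 | h4 <;> linarith [h4.1]

theorem rr_adj_lt {a : ℝ} (ha : 0 ≤ a) {y : R4} (h4 : 4 ≤ rr y)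
    (h : (1 + a) * (rr y - 4) < 2) : rr (adj a y) < 6 := by
  rw [rr_adj ha]
  have h1 : tent a (rr y) ≤ a * (rr y - 4) :=
    max_le (mul_nonneg ha (by linarith)) (min_le_left _ _)
  nlinarith [cut_nonneg (y 2), cut_le (y 2), tent_nonneg a (rr y)]

theorem adj_zero_sub (a : ℝ) (y : R4) : adj a y 0 - 34 = fac a y * (y 0 - 34) := by simp [adj]
theorem adj_one_sub (a : ℝ) (y : R4) : adj a y 1 - 34 = fac a y * (y 1 - 34) := by simp [adj]

theorem gg_lt {y : R4} {c : ℝ} : gg y < c ↔ |y 2 + 6| < c ∧ |y 3 - 6| < c := max_lt_iff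
theorem gg_le {y : R4} {c : ℝ} : gg y ≤ c ↔ |y 2 + 6| ≤ c ∧ |y 3 - 6| ≤ c := max_le_iff

theorem sh_two (n : ℤ) (y : R4) : sh n y 2 = y 2 + 72 * n := rfl
theorem rr_sh (n : ℤ) (y : R4) : rr (sh n y) = rr y := rfl
theorem sh_neg_sh (n : ℤ) (y : R4) : sh (-n) (sh n y) = y := by
  rw [← sh_add, neg_add_cancel, sh_zero]
theorem sh_sh_neg (n : ℤ) (y : R4) : sh n (sh (-n) y) = y := by
  rw [← sh_add, add_neg_cancel, sh_zero]

theorem int_zero {n : ℤ} (h1 : -72 < 72 * (n : ℝ)) (h2 : 72 * (n : ℝ) < 72) : n = 0 := by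
  have e1 : (n : ℝ) < 1 := by linarith
  have e2 : (-1 : ℝ) < n := by linarith
  have e3 : n < 1 := by exact_mod_cast e1
  have e4 : -1 < n := by exact_mod_cast e2
  omega

/-- the inside of the neck is free -/
theorem not_mem_PU {y : R4} (h : rr y ≤ 9) (hz : |y 2 + 6| < 3) : y ∉ PU := by
  rw [abs_lt] at hz
  have hr := h
  simp only [rr, n2, max_le_iff, abs_le] at hr
  rintro (hy | ⟨n, (hy | hy) | hy⟩)
  · refine hy.2 0 ⟨24, 44, 24, 44, -11, -1⟩ (by simp [cav]) ?_
    rw [sh_zero]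
    refine ⟨⟨?_, ?_⟩, ⟨?_, ?_⟩, ?_, ?_⟩ <;> push_cast <;> linarith
  · have h1 := hy.1
    simp only [aA, n2, max_le_iff, abs_le, sh, Matrix.cons_val_zero] at h1
    linarith [h1.1.2]
  · have h1 := hy.1
    simp only [aB, n2, max_le_iff, abs_le, sh, Matrix.cons_val_zero] at h1
    linarith [h1.1.2]
  · have h1 := hy.1
    rw [rr_sh] at h1
    linarith

theorem adj_PU {a : ℝ} (ha : 0 ≤ a) {y : R4} (hy : y ∈ PU) : adj a y = y := by
  refine adj_eq ha ?_
  by_contra hc
  push Not at hc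
  exact not_mem_PU hc.1.le hc.2 hy

theorem adj_mem {a : ℝ} (ha : 0 ≤ a) {y : R4} (hy : y ∈ PU ∪ per (Dr .K)) :
    adj a y ∈ PU ∪ per (Dr .K) := by
  rcases hy with hy | ⟨n, h1, h2, h3⟩
  · rw [adj_PU ha hy]
    exact Or.inl hy
  · rw [rr_sh] at h1 h2
    refine Or.inr ⟨n, ?_, ?_, h3⟩
    · rw [rr_sh]
      linarith [le_rr_adj ha y]
    · rw [rr_sh]
      exact rr_adj_le ha h2

end Vale.Agent.P260Z.L3
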