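import Vale.Agent.P260Z.L3.Defs

/-!
# P260, layer 3: the gluing relation is an equivalence relation
-/

noncomputable section

namespace Vale.Agent.P260Z.L3

open Set Topology Filter

namespace Ap

instance cntKJ : Countable KJ :=
  Function.Injective.countable (f := fun a : KJ => (a.m, a.n)) fun _ _ h =>
    KJ.ext (congrArg Prod.fst h) (congrArg Prod.snd h)

instance cntGG : Countable GG := Monoid.Coprod.mk_surjective.countable

/-- the number of plumbing letters -/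
def xvH : GG →* Multiplicative ℤ :=
  Monoid.Coprod.lift (FreeGroup.lift fun b => Multiplicative.ofAdd (if b then 0 else 1)) 1

theorem xvH_Lam {i : Bool} {l : GG} (h : l ∈ Lam i) : xvH l = 1 := by
  cases i
  · obtain ⟨a, rfl⟩ := h
    simp [xvH, jj]
  · obtain ⟨n, rfl⟩ := h
    simp [xvH, tt]

theorem xvH_xx : xvH xx = Multiplicative.ofAdd 1 := by simp [xvH, xx]

theorem s_not_mem {e : Ed} (h : e.src = e.tgt) (i : Bool) : e.s ∉ Lam i := by
  intro h'
  have h1 := xvH_Lam h'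
  cases e
  · simp [Ed.s, xvH_xx] at h1
  · simp [Ed.s, xvH_xx] at h1
  · simp [Ed.src, Ed.tgt] at h
  · simp [Ed.src, Ed.tgt] at h

theorem abs_sg (n : ℤ) : |(sg n : ℝ)| = 1 := by
  have h : ((sg n : ℝ)) * sg n = 1 := by exact_mod_cast sg_mul_self n
  have h2 : |(sg n : ℝ)| * |(sg n : ℝ)| = 1 := by rw [← abs_mul, h, abs_one]
  nlinarith [abs_nonneg (sg n : ℝ)]

/-- the stabilisers act freely -/
theorem act_free {i : Bool} {l : GG} (h : l ∈ Lam i) {y : R4} (hy : act i l y = y) : l = 1 := by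
  cases i
  · obtain ⟨a, rfl⟩ := h
    have h0 := congrFun hy 0
    have h1 := congrFun hy 1
    simp only [act, kj_jj, kl, Matrix.cons_val_zero, Matrix.cons_val_one, add_eq_left,
      mul_eq_zero, OfNat.ofNat_ne_zero, Int.cast_eq_zero, false_or] at h0 h1
    rw [h1] at h0
    simp only [sg_zero, Int.cast_one, one_mul, add_eq_left, mul_eq_zero, OfNat.ofNat_ne_zero,
      Int.cast_eq_zero, false_or] at h0
    have : a = 1 := KJ.ext h0 h1
    rw [this, map_one]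
  · obtain ⟨n, rfl⟩ := h
    have h2 := congrFun hy 2
    simp only [act, lv_tt_zpow, sh, Matrix.cons_val, add_eq_left, mul_eq_zero,
      OfNat.ofNat_ne_zero, Int.cast_eq_zero, false_or] at h2
    simp [h2]

theorem int_fin (R : ℝ) : {n : ℤ | |(n : ℝ)| ≤ R}.Finite := by
  refine (finite_Icc (-⌈R⌉) ⌈R⌉).subset fun n hn => ?_
  have h := abs_le.1 (le_trans hn (Int.le_ceil R))
  exact ⟨by exact_mod_cast h.1, by exact_mod_cast h.2⟩

/-- the stabilisers act properly -/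
theorem act_fin (i : Bool) {B B' : Set R4} (hB : Bornology.IsBounded B)
    (hB' : Bornology.IsBounded B') : {l | l ∈ Lam i ∧ ∃ y ∈ B, act i l y ∈ B'}.Finite := by
  obtain ⟨R, hR⟩ := (hB.union hB').exists_norm_le
  have hc : ∀ y ∈ B ∪ B', ∀ j, |y j| ≤ R := fun y hy j =>
    le_trans (norm_le_pi_norm y j) (hR y hy)
  cases i
  · refine (((int_fin R).prod (int_fin R)).image fun p => jj ⟨p.1, p.2⟩).subset ?_
    rintro _ ⟨⟨a, rfl⟩, y, hy, hy'⟩
    refine ⟨(a.m, a.n), ⟨?_, ?_⟩, rfl⟩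
    · have h1 := hc _ (Or.inl hy) 0
      have h2 := hc _ (Or.inr hy') 0
      simp only [act, kj_jj, kl, Matrix.cons_val_zero] at h2
      have h3 : |(sg a.n : ℝ) * y 0| ≤ R := by rw [abs_mul, abs_sg, one_mul]; exact h1
      show |(a.m : ℝ)| ≤ R
      rw [abs_le] at *
      constructor <;> linarith [h2.1, h2.2, h3.1, h3.2]
    · have h1 := hc _ (Or.inl hy) 1
      have h2 := hc _ (Or.inr hy') 1
      simp only [act, kj_jj, kl, Matrix.cons_val_one, Matrix.cons_val_zero] at h2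
      show |(a.n : ℝ)| ≤ R
      rw [abs_le] at *
      constructor <;> linarith [h2.1, h2.2, h1.1, h1.2]
  · refine ((int_fin R).image fun n => tt ^ n).subset ?_
    rintro _ ⟨⟨n, rfl⟩, y, hy, hy'⟩
    refine ⟨n, ?_, rfl⟩
    have h1 := hc _ (Or.inl hy) 2
    have h2 := hc _ (Or.inr hy') 2
    simp only [act, lv_tt_zpow, sh, Matrix.cons_val] at h2
    show |(n : ℝ)| ≤ R
    rw [abs_le] at *
    constructor <;> linarith [h2.1, h2.2, h1.1, h1.2]

instance finEd : Finite Ed :=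
  Finite.of_surjective (fun k : Fin 4 => (![Ed.A, Ed.B, Ed.K, Ed.L] : Fin 4 → Ed) k) fun e => by
    cases e
    exacts [⟨0, rfl⟩, ⟨1, rfl⟩, ⟨2, rfl⟩, ⟨3, rfl⟩]

end Ap

open Ap

namespace TG
variable (T : TG)

theorem rel_refl (g : GG) (i : Bool) (y : R4) : T.Rel g i y g i y :=
  Or.inl ⟨rfl, by simp, by simp⟩

theorem rel_act (g : GG) {i : Bool} {l : GG} (hl : l ∈ Lam i) (y : R4) :
    T.Rel g i (act i l y) (g * l) i y :=
  Or.inl ⟨rfl, by simpa using hl, by simp⟩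

theorem rel_edge (g : GG) (e : Ed) {y : R4} (hy : y ∈ T.Wo e) :
    T.Rel g e.src y (g * e.s) e.tgt (T.θ e y) :=
  Or.inr ⟨e, 1, one_mem _, 1, one_mem _, rfl, rfl, by simpa using hy, by simp, by simp⟩

variable {T}

theorem rel_symm {g i y g' i' y'} (hy : y ∈ T.P i) (r : T.Rel g i y g' i' y') :
    T.Rel g' i' y' g i y := by
  rcases r with ⟨rfl, h2, h3⟩ | ⟨e, l, hl, l', hl', rfl, rfl, h3, h4, h5⟩
  · refine Or.inl ⟨rfl, by simpa using inv_mem h2, ?_⟩
    rw [h3, ← act_mul]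
    simp
  · have hw : act e.src l y ∈ T.P e.src ∩ T.Wo e := ⟨T.P_act _ l hl hy, h3⟩
    refine Or.inr ⟨e.bar, l', hl', l, hl, by simp, by simp, ?_, ?_, ?_⟩
    · rw [h5]
      exact (T.θ_maps e hw).2
    · rw [h4]
      simp
    · rw [h5, T.θ_θ e _ hw]

theorem rel_trans_left {g g' i y y' g'' i'' y''} (h2 : g⁻¹ * g' ∈ Lam i)
    (h3 : y = act i (g⁻¹ * g') y') (r : T.Rel g' i y' g'' i'' y'') : T.Rel g i y g'' i'' y'' := by
  rcases r with ⟨rfl, k2, k3⟩ | ⟨e, l, hl, l', hl', k1, k2, k3, k4, k5⟩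
  · refine Or.inl ⟨rfl, by simpa [mul_assoc] using mul_mem h2 k2, ?_⟩
    rw [h3, k3, ← act_mul]
    simp [mul_assoc]
  · have h6 : act i (l * (g⁻¹ * g')⁻¹) y = act i l y' := by
      rw [h3, act_mul, act_inv_act]
    refine Or.inr ⟨e, l * (g⁻¹ * g')⁻¹, mul_mem hl (inv_mem h2), l', hl', k1, k2, ?_, ?_, ?_⟩
    · rw [h6]; exact k3
    · rw [k4]; simp [mul_assoc]
    · rw [h6]; exact k5

theorem rel_mem {g i y g' i' y'} (hy : y ∈ T.P i) (r : T.Rel g i y g' i' y') : y' ∈ T.P i' := by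
  rcases r with ⟨rfl, h2, h3⟩ | ⟨e, l, hl, l', hl', rfl, rfl, h3, h4, h5⟩
  · have := T.P_act _ _ (inv_mem h2) hy
    rwa [h3, act_inv_act] at this
  · have hw : act e.src l y ∈ T.P e.src ∩ T.Wo e := ⟨T.P_act _ l hl hy, h3⟩
    have := T.P_act _ _ (inv_mem hl') (T.θ_maps e hw).1
    rwa [← h5, act_inv_act] at this

theorem rel_trans {g i y g' i' y' g'' i'' y''} (hy : y ∈ T.P i) (r : T.Rel g i y g' i' y')
    (r' : T.Rel g' i' y' g'' i'' y'') : T.Rel g i y g'' i'' y'' := by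
  have hy' := rel_mem hy r
  have hy'' := rel_mem hy' r'
  rcases r with ⟨rfl, h2, h3⟩ | ⟨e, l, hl, l', hl', rfl, rfl, h3, h4, h5⟩
  · exact rel_trans_left h2 h3 r'
  · have r0 : T.Rel g e.src y g' e.tgt y' := Or.inr ⟨e, l, hl, l', hl', rfl, rfl, h3, h4, h5⟩
    rcases r' with ⟨rfl, k2, k3⟩ | ⟨e', m, hm, m', hm', k1, rfl, k3, k4, k5⟩
    · refine rel_symm hy'' (rel_trans_left (g' := g') (y' := y') (by simpa using inv_mem k2) ?_
        (rel_symm hy r0))
      rw [k3, ← act_mul]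
      simp
    · have hw : act e.src l y ∈ T.P e.src ∩ T.Wo e := ⟨T.P_act _ l hl hy, h3⟩
      have hw' := T.θ_maps e hw
      rw [← h5] at hw'
      have h7 := T.disj e.bar e' (m * l'⁻¹) (by simpa using mul_mem hm (inv_mem hl'))
        (act e.tgt l' y') (by simpa using hw') (by simpa using k1)
        (by rw [Ed.src_bar, act_mul, act_inv_act]; exact k3)
      obtain ⟨h8, rfl⟩ := h7
      have h9 : m = l' := mul_inv_eq_one.1 h8
      subst h9
      rw [Ed.tgt_bar] at hm' k5 ⊢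
      rw [h4, Ed.s_bar, mul_inv_cancel_right] at k4
      have h10 : g⁻¹ * g'' = l⁻¹ * m' := by
        rw [mul_inv_eq_iff_eq_mul] at k4
        rw [k4]
        simp [mul_assoc]
      refine Or.inl ⟨rfl, h10 ▸ mul_mem (inv_mem hl) hm', ?_⟩
      rw [h10, act_mul, k5, h5, T.θ_θ e _ hw, act_inv_act]

theorem mkP_eq {g i g' i'} {y : T.P i} {y' : T.P i'} :
    T.mkP g i y = T.mkP g' i' y' ↔ T.Rel g i y.1 g' i' y'.1 := by
  have h : Equivalence fun a b : T.Pre =>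
      T.Rel a.1.1 a.1.2.1 a.1.2.2 b.1.1 b.1.2.1 b.1.2.2 :=
    ⟨fun a => T.rel_refl _ _ _, fun {a b} r => rel_symm a.2 r,
      fun {a b c} r r' => rel_trans a.2 r r'⟩
  exact Quot.eq.trans h.eqvGen_iff

theorem pt_eq {g i y g' i' y'} (hy : y ∈ T.P i) (hy' : y' ∈ T.P i') :
    T.pt g i y = T.pt g' i' y' ↔ T.Rel g i y g' i' y' := by
  rw [T.pt_of_mem g hy, T.pt_of_mem g' hy']
  exact mkP_eq

theorem pt_of_rel {g i y g' i' y'} (hy : y ∈ T.P i) (r : T.Rel g i y g' i' y') :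
    T.pt g i y = T.pt g' i' y' := (pt_eq hy (rel_mem hy r)).2 r

theorem pt_act (g : GG) {i : Bool} {l : GG} (hl : l ∈ Lam i) {y : R4} (hy : y ∈ T.P i) :
    T.pt (g * l) i y = T.pt g i (act i l y) :=
  (pt_of_rel (T.P_act i l hl hy) (T.rel_act g hl y)).symm

theorem pt_edge (g : GG) (e : Ed) {y : R4} (hy : y ∈ T.W e) :
    T.pt g e.src y = T.pt (g * e.s) e.tgt (T.θ e y) :=
  pt_of_rel hy.1 (T.rel_edge g e hy.2)

variable (T) in
theorem exists_pt (x : T.X) : ∃ g i, ∃ y ∈ T.P i, x = T.pt g i y := by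
  obtain ⟨⟨⟨g, i, y⟩, hy⟩, rfl⟩ := Quot.exists_rep x
  exact ⟨g, i, y, hy, (T.pt_of_mem g hy).symm⟩

variable (T) in
theorem exists_core (x : T.X) : ∃ g i, ∃ y ∈ T.C i, x = T.pt g i y := by
  obtain ⟨g, i, y, hy, rfl⟩ := T.exists_pt x
  rcases T.cover i y hy with h | ⟨e, l, hl, rfl, h1, h2⟩
  · exact ⟨g, i, y, h, rfl⟩
  · refine ⟨g * l⁻¹ * e.s, e.tgt, _, h2, ?_⟩
    rw [← pt_edge _ e ⟨T.P_act _ l hl hy, h1⟩, ← pt_act _ hl hy]
    simp

variable (T) in
theorem injOn_pt (g : GG) (i : Bool) : InjOn (T.pt g i) (T.P i) := by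
  intro y hy y' hy' h
  rcases (pt_eq hy hy').1 h with ⟨_, _, h3⟩ | ⟨e, l, hl, l', hl', h1, h2, _, h4, _⟩
  · simpa using h3
  · refine absurd ?_ (s_not_mem (h1.trans h2.symm) i)
    have : e.s = l * l'⁻¹ := by
      rw [mul_assoc, mul_left_cancel_iff] at h4
      rw [h4]
      simp
    rw [this]
    exact mul_mem hl (inv_mem hl')

theorem crd_pt (g : GG) {i : Bool} {y : R4} (hy : y ∈ T.P i) : T.crd g i (T.pt g i y) = y :=
  (T.injOn_pt g i).leftInvOn_invFunOn hy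

theorem eq_one_of_smul {g : GG} {x : T.X} (h : g • x = x) : g = 1 := by
  obtain ⟨k, i, y, hy, rfl⟩ := T.exists_pt x
  rw [T.smul_pt g k hy] at h
  rcases (pt_eq hy hy).1 h with ⟨_, h2, h3⟩ | ⟨e, l, hl, l', hl', rfl, h2, h3, _, h5⟩
  · have := act_free h2 h3.symm
    rw [inv_mul_eq_one] at this
    simpa using this
  · have hw : act e.src l y ∈ T.P e.src ∩ T.Wo e := ⟨T.P_act _ l hl hy, h3⟩
    have h6 := (T.θ_maps e hw).2
    rw [← h5] at h6
    have h7 := T.disj e e.bar (l' * l⁻¹) (mul_mem hl' (inv_mem hl)) _ hw (by simpa using h2)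
      (by rw [act_mul, act_inv_act]; exact h6)
    exact absurd h7.2 e.bar_ne

/-- only finitely many gluings relate two bounded sets -/
theorem rel_fin (i i' : Bool) {B B' : Set R4} (hB : Bornology.IsBounded B)
    (hB' : Bornology.IsBounded B') :
    {h : GG | ∃ y ∈ B ∩ T.P i, ∃ y' ∈ B', T.Rel 1 i y h i' y'}.Finite := by
  have h1 := act_fin i hB' hB
  have h2 : ∀ e : Ed, ({l | l ∈ Lam e.src ∧ ∃ y ∈ B, act e.src l y ∈ T.P e.src ∩ T.Wo e} ×ˢ
      {l | l ∈ Lam e.tgt ∧ ∃ y ∈ B', act e.tgt l y ∈ T.P e.tgt ∩ T.Wo e.bar}).Finite := fun e =>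
    (act_fin _ hB (T.bdd e)).prod (act_fin _ hB' (by simpa using T.bdd e.bar))
  refine (h1.union (finite_iUnion fun e =>
    (h2 e).image fun p => p.1⁻¹ * e.s * p.2)).subset ?_
  rintro h ⟨y, ⟨hyB, hy⟩, y', hy', ⟨rfl, k2, k3⟩ | ⟨e, l, hl, l', hl', rfl, rfl, k3, k4, k5⟩⟩
  · simp only [inv_one, one_mul] at k2 k3
    exact Or.inl ⟨k2, y', hy', k3 ▸ hyB⟩
  · have hw : act e.src l y ∈ T.P e.src ∩ T.Wo e := ⟨T.P_act _ l hl hy, k3⟩
    refine Or.inr (mem_iUnion.2 ⟨e, (l, l'), ⟨⟨hl, y, hyB, hw⟩, hl', y', hy', ?_⟩, ?_⟩)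
    · rw [k5]
      exact T.θ_maps e hw
    · rw [mul_inv_eq_iff_eq_mul] at k4
      simpa using k4.symm

end TG

end Vale.Agent.P260Z.L3
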