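import Vale.Agent.P260Z.L3.Geo
import Vale.Agent.P260Z.L2.Sk

/-!
# P260, layer 3: statements of the blocks
-/

noncomputable section

namespace Vale.Agent.P260Z.L3

open Set Topology Filter

/-! ### the group -/

/-- every piece has exactly one reduced address -/
structure Tree : Prop where
  ex : ∀ (i : Bool) (g : GG) (j : Bool), ∃ l, Red i l ∧ ty i l = j ∧ (val l)⁻¹ * g ∈ Lam j
  uniq : ∀ (i : Bool) (l l' : List Port), Red i l → Red i l' → ty i l = ty i l' →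
    (val l)⁻¹ * val l' ∈ Lam (ty i l) → l = l'

/-- adjacent pieces -/
def Nb : Prop :=
  ∀ (i : Bool) (l l' : List Port) (e : Ed) (a a' : GG), Red i l → Red i l' → ty i l = e.src →
    ty i l' = e.tgt → a ∈ Lam e.src → a' ∈ Lam e.tgt → val l' * a' = val l * a * e.s →
    (a' = 1 ∧ l' = l ++ [(a, e)]) ∨ (a = 1 ∧ l = l' ++ [(a', e.bar)])

structure GK : Prop where
  cnt : Countable GG
  two : ∀ g : GG, g ^ 2 = 1 → g = 1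
  gk : ∀ a b : GG, a ^ 2 = b ^ 2 → a ≠ b →
    ∃ g : GG, g * a * g⁻¹ ∈ Lam false ∧ g * b * g⁻¹ ∈ Lam false
  gen : ∃ u v : Lam false, u ^ 2 = v ^ 2 ∧ u ≠ v ∧ Subgroup.closure {u, v} = ⊤
  cptE : ∃ K : Set (ℝ × ℝ), IsCompact K ∧ ∀ y, ∃ j : Lam false, (letI := actE; j • y) ∈ K

/-- ping pong for the free group of plumbings -/
structure PP : Prop where
  same : ∀ lo k (w w' : FreeGroup (Fin k)) l l', Jk l → Jk l' → ty true l = ty true l' →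
    (eta lo k w * val l)⁻¹ * (eta lo k w' * val l') ∈ Lam (ty true l) → w = w' ∧ l = l'
  adj : ∀ lo k (w w' : FreeGroup (Fin k)) l l' (e : Ed) (a a' : GG), Jk l → Jk l' →
    ty true l = e.src → ty true l' = e.tgt → a ∈ Lam e.src → a' ∈ Lam e.tgt →
    eta lo k w' * val l' * a' = eta lo k w * val l * a * e.s → w = w' ∨
      (l = [] ∧ l' = [] ∧ ∃ i : Fin k, a = tt ^ (lo + (i : ℕ)) ∧ a' = a ∧
        ((e = .A ∧ w' = w * FreeGroup.of i) ∨ (e = .B ∧ w = w' * FreeGroup.of i)))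
  ex : ∀ (g : GG) (i : Bool), ∃ N : ℕ, ∀ (lo : ℤ) (k : ℕ), lo ≤ -N → N ≤ lo + k →
    ∃ w l, Jk l ∧ ty true l = i ∧ (eta lo k w * val l)⁻¹ * g ∈ Lam i
  notJ : ∀ lo k (w : FreeGroup (Fin k)), eta lo k w ∈ Lam false → w = 1

/-- an injective endomorphism of the Klein bottle group is a linear isomorphism on a lattice -/
def Lin : Prop :=
  ∀ ψ : Lam false →* Lam false, Function.Injective ψ →
    ∃ (L : (ℝ × ℝ) ≃L[ℝ] (ℝ × ℝ)) (K : Set (ℝ × ℝ)), IsCompact K ∧ ∀ u : ℝ × ℝ,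
      ∃ j : Lam false, ∃ u₀ ∈ K, u = (letI := actE; j • u₀) ∧ ∀ y : R4,
        act false (ψ j) y = ![y 0 + (L (u - u₀)).1, y 1 + (L (u - u₀)).2, y 2, y 3]

/-! ### the glued space -/

namespace TG
variable (T : TG)

structure Api1 : Prop where
  pt_eq : ∀ {g i y g' i' y'}, y ∈ T.P i → y' ∈ T.P i' →
    (T.pt g i y = T.pt g' i' y' ↔ T.Rel g i y g' i' y')
  pt_lam : ∀ g {i l y}, l ∈ Lam i → y ∈ T.P i → T.pt (g * l) i y = T.pt g i (act i l y)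
  pt_edge : ∀ g {e : Ed} {y}, y ∈ T.W e → T.pt (g * e.s) e.tgt (T.θ e y) = T.pt g e.src y
  inj : ∀ g i, InjOn (T.pt g i) (T.P i)
  surj : ∀ x, ∃ g i, ∃ y ∈ T.C i, x = T.pt g i y
  cont : ∀ g i, ContinuousOn (T.pt g i) (T.P i)
  opn : ∀ g i {O : Set R4}, IsOpen O → IsOpen (T.pt g i '' (T.P i ∩ O))
  crd_pt : ∀ g {i y}, y ∈ T.P i → T.crd g i (T.pt g i y) = y
  crd_cont : ∀ g i, ContinuousOn (T.crd g i) (T.pt g i '' T.P i)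
  cont_iff : ∀ {Y : Type} [TopologicalSpace Y] (f : T.X → Y),
    (∀ g i, ContinuousOn (fun y => f (T.pt g i y)) (T.P i)) → Continuous f
  cts : ContinuousConstSMul GG T.X
  fr : IsCancelSMul GG T.X

structure Api2 : Prop where
  nice : Nice GG T.X
  closed : ∀ g i {F : Set R4}, IsClosed F → F ⊆ T.C i → IsClosed (T.pt g i '' F)
  S_cpt : ∀ e, IsCompact (T.S e)
  nhds : ∀ x : T.X, ∃ F : Set (GG × Bool), F.Finite ∧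
    ∀ᶠ x' in 𝓝 x, ∀ g i, x' ∈ T.pt g i '' T.C i → ∃ p ∈ F, p.2 = i ∧ p.1⁻¹ * g ∈ Lam i
  fin : ∀ {K : Set T.X}, IsCompact K → ∃ F : Set (GG × Bool), F.Finite ∧ ∃ B : Set R4,
    IsCompact B ∧ ∀ x ∈ K, ∃ p ∈ F, ∃ y ∈ B ∩ T.C p.2, x = T.pt p.1 p.2 y
  contOn : ∀ {Y : Type} [TopologicalSpace Y] (F : Bool → Set R4) (f : T.X → Y),
    (∀ i, IsClosed (F i)) → (∀ i, F i ⊆ T.C i) →
    (∀ i, ∀ l ∈ Lam i, MapsTo (act i l) (F i) (F i)) →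
    (∀ g i, ContinuousOn (fun y => f (T.pt g i y)) (F i)) →
    ContinuousOn f {x | ∃ g i, ∃ y ∈ F i, x = T.pt g i y}
  closed_ZX : IsClosed T.ZX
  mem_ZX : ∀ g {i y}, y ∈ T.P i → (T.pt g i y ∈ T.ZX ↔ y ∈ T.Bd i)

/-- flat half space charts at the points of the cores -/
def Flat : Prop := ∀ i, ∀ b ∈ T.C i, HSat (T.P i) (T.Bd i) b

def HSG : Prop :=
  T.Flat → ∀ {Z : Type} (j : Z → T.X), range j = T.ZX → L2.HS j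

/-- maps between the boundary parts of the cores -/
structure ZIso (T' : TG) (β β' : Bool → R4 → R4) : Prop where
  cont : ∀ i, ContinuousOn (β i) (T.Zc i)
  cont' : ∀ i, ContinuousOn (β' i) (T'.Zc i)
  maps : ∀ i, MapsTo (β i) (T.Zc i) (T'.Zc i)
  maps' : ∀ i, MapsTo (β' i) (T'.Zc i) (T.Zc i)
  left : ∀ i, ∀ y ∈ T.Zc i, β' i (β i y) = y
  right : ∀ i, ∀ y ∈ T'.Zc i, β i (β' i y) = y
  equi : ∀ i, ∀ l ∈ Lam i, ∀ y ∈ T.Zc i, β i (act i l y) = act i l (β i y)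
  edge : ∀ e : Ed, ∀ y ∈ T.Zc e.src, y ∈ T.Wo e → T.θ e y ∈ T.Zc e.tgt →
    β e.src y ∈ T'.Wo e ∧ T'.θ e (β e.src y) = β e.tgt (T.θ e y)
  edge' : ∀ e : Ed, ∀ y ∈ T'.Zc e.src, y ∈ T'.Wo e → T'.θ e y ∈ T'.Zc e.tgt →
    β' e.src y ∈ T.Wo e ∧ T.θ e (β' e.src y) = β' e.tgt (T'.θ e y)

def ZMap (T' : TG) : Prop :=
  ∀ β β', T.ZIso T' β β' → ∃ j : T.Z → T'.X, IsClosedEmbedding j ∧
    (∀ (g : GG) z, j (g • z) = g • j z) ∧ range j = T'.ZX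

/-- the boundary parts are unions of lattice cubes which are glued by lattice isometries -/
structure Cell : Prop where
  pure : ∀ i, ∀ y ∈ T.Zc i, ∃ v n, y ∈ cube3 v n ∧ cube3 v n ⊆ T.Zc i
  iso : ∀ e, ∃ (π : Equiv.Perm (Fin 4)) (u : Fin 4 → ℤ),
    ∀ y ∈ T.S e, T.θ e y = fun j => y (π j) + u j
  cell : ∀ e, ∀ y ∈ T.S e, cellOf y ⊆ T.S e

def CubG : Prop := T.Cell → Nonempty (L2.Cub GG T.Z)

/-- the input of the proof that the glued space is an absolute extensor -/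
structure AEIn : Prop where
  C_f : T.C false = CH
  S_L : T.S .L = {y | tH y = 10 ∧ gg y ≤ 1}
  aeU : AE (T.C true)
  aeA : AE (T.S .A)

def AEG : Prop := T.AEIn → AE (univ : Set T.X)

/-- the developing maps -/
structure Dev (d : T.Dv) (dev : Bool → T.X → R4) : Prop where
  cont : ∀ i, Continuous (dev i)
  inj : ∀ i, Function.Injective (dev i)
  nil : ∀ i, ∀ y ∈ T.P i, dev i (T.pt 1 i y) = y
  equi : ∀ i, ∀ l ∈ Lam i, ∀ x, dev i (l • x) = act i l (dev i x)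
  cons : ∀ i p l, Red i (p :: l) → ∀ y ∈ T.P (ty i (p :: l)),
    dev p.2.tgt (T.pa p.2.tgt l y) ∈ d.Hull p.2 ∧
    dev i (T.pa i (p :: l) y) = act i p.1 (d.m p.2 (dev p.2.tgt (T.pa p.2.tgt l y)))

def DevG : Prop := ∀ d : T.Dv, ∃ dev, T.Dev d dev

end TG

/-- the grid lemma: cells of side `20` -/
def Grid : Prop :=
  ∀ {X : Type} [TopologicalSpace X] [T2Space X] (φ : R4 → X) (Y : ℤ × ℤ → Set X),
    ContinuousOn φ CH → InjOn φ CH → (∀ c, IsClosed (Y c) ∧ AE (Y c)) →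
    (∀ c c', c ≠ c' → Y c ∩ Y c' = φ '' {y | gg y ≤ 1 ∧
      n2 (y 0 - 20 * c.1) (y 1 - 20 * c.2) ≤ 10 ∧ n2 (y 0 - 20 * c'.1) (y 1 - 20 * c'.2) ≤ 10}) →
    ∀ n : ℕ, AE (⋃ c ∈ Icc (-(n : ℤ), -(n : ℤ)) ((n : ℤ), (n : ℤ)), Y c)

/-! ### flat charts -/

/-- lattice expressions in the coordinates -/
inductive Ex
  | atom (j : Fin 4) (c : ℤ) (s : Bool)
  | min (a b : Ex)
  | max (a b : Ex)

def Ex.ev : Ex → R4 → ℝ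
  | .atom j c s, y => if s then y j - c else c - y j
  | .min a b, y => Min.min (a.ev y) (b.ev y)
  | .max a b, y => Max.max (a.ev y) (b.ev y)

/-- the signs of the atoms are given by `σ` -/
def Ex.ok (σ : Fin 4 → ℤ → Bool) : Ex → Bool
  | .atom j c s => σ j c == s
  | .min a b => a.ok σ && b.ok σ
  | .max a b => a.ok σ && b.ok σ

/-- all thresholds satisfy `τ` -/
def Ex.only (τ : Fin 4 → ℤ → Bool) : Ex → Bool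
  | .atom j c _ => τ j c
  | .min a b => a.only τ && b.only τ
  | .max a b => a.only τ && b.only τ

structure Shear : Prop where
  ex : ∀ (e : Ex) (σ : Fin 4 → ℤ → Bool) (P B : Set R4) (b : R4), e.ok σ = true → 0 ≤ e.ev b →
    (∀ᶠ y in 𝓝 b, (y ∈ P ↔ 0 ≤ e.ev y) ∧ (y ∈ P → (y ∈ B ↔ e.ev y = 0))) → HSat P B b
  int : ∀ (P B : Set R4) (b : R4), (∀ᶠ y in 𝓝 b, y ∈ P ∧ y ∉ B) → HSat P B b
  tr : ∀ (P B P' B' O : Set R4) (f f' : R4 → R4) (b : R4), IsOpen O → b ∈ O → f b ∈ O →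
    ContinuousOn f O → ContinuousOn f' O → MapsTo f O O → MapsTo f' O O →
    (∀ y ∈ O, f' (f y) = y) → (∀ y ∈ O, f (f' y) = y) → (∀ y ∈ O, y ∈ P ↔ f y ∈ P') →
    (∀ y ∈ O, y ∈ P → (y ∈ B ↔ f y ∈ B')) → HSat P' B' (f b) → HSat P B b
  pure : ∀ (e e' : Ex) (σ τ : Fin 4 → ℤ → Bool) (b : R4), e.ok σ = true → e'.ok σ = true →
    e.only τ = true → e'.only (fun j c => !τ j c) = true → e.ev b = 0 → e'.ev b ≤ 0 →
    ∃ v n, b ∈ cube3 v n ∧ ∀ y ∈ cube3 v n, e.ev y = 0 ∧ e'.ev y ≤ 0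

/-! ### the concrete geometry -/

/-- the elementary position facts -/
structure Pos : Prop where
  sh_UU : ∀ n y, sh n y ∈ UU ↔ y ∈ UU
  sh_UC : ∀ n y, sh n y ∈ UC ↔ y ∈ UC
  closed_UU : IsClosed UU
  closed_UC : IsClosed UC
  UU_iff : ∀ y : R4, -15 ≤ y 2 → y 2 ≤ 75 →
    (y ∈ UU ↔ y ∈ tube ∧ ∀ c ∈ cav, y ∉ c.op ∧ sh (-1) y ∉ c.op)
  UC_iff : ∀ y : R4, -15 < y 2 → y 2 < 75 →
    (y ∈ UC ↔ y ∉ tubeO ∨ ∃ c ∈ cav, y ∈ c.cl ∨ sh (-1) y ∈ c.cl)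
  colU : ∀ y : R4, |y 0 - 14| ≤ 7 → ff y ≤ 7 → 23 ≤ y 2 → y 2 ≤ 53 →
    (y ∈ UU ↔ ff y ≤ 5) ∧ (y ∈ UC ↔ 5 ≤ ff y)
  shell : ∀ y : R4, 14 ≤ r3 y → r3 y ≤ 26 → 23 ≤ y 2 → y 2 ≤ 53 →
    (y ∈ UC ↔ ¬ (y 0 ≤ 34 ∧ ff y < 5))
  neck : ∀ y : R4, rr y ≤ 11 → |y 2 + 6| ≤ 4 → |y 3 - 6| ≤ 4 →
    (y ∈ UU ↔ 10 ≤ rr y) ∧ (y ∈ UC ↔ rr y ≤ 10)
  PU_A : ∀ y : R4, aA y ≤ 7 → ff y ≤ 7 → (y ∈ PU ↔ ff y ≤ 5 ∨ (aA y ≤ 5 ∧ ff y < 6))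
  PU_B : ∀ y : R4, aB y ≤ 7 → ff y ≤ 7 → (y ∈ PU ↔ ff y ≤ 5 ∨ (aB y ≤ 5 ∧ ff y < 6))
  PU_K : ∀ y : R4, rr y ≤ 11 → gg y ≤ 4 → (y ∈ PU ↔ 10 ≤ rr y ∨ (9 < rr y ∧ gg y ≤ 1))
  PC_K : ∀ y : R4, rr y ≤ 11 → gg y ≤ 4 → (y ∈ PC ↔ rr y ≤ 10 ∨ (rr y < 11 ∧ gg y ≤ 1))
  PH_L : ∀ y : R4, tH y ≤ 29 →
    (y ∈ CH ↔ 10 ≤ tH y ∧ gg y ≤ 1) ∧
    (y ∈ PH ↔ (10 ≤ tH y ∧ gg y ≤ 1) ∨ (9 < tH y ∧ tH y ≤ 10 ∧ gg y < 3 / 2))
  far : ∀ (a : KJ) (y : R4), a ≠ 1 → 40 ≤ tH y + tH (kl a y)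

/-- the inversion -/
structure Iot : Prop where
  gam_cont : Continuous gam
  gam_nonneg : ∀ y, 0 ≤ gam y
  gam_iot : ∀ y, gam y ≠ 0 → gam (iot y) = (gam y)⁻¹
  iot_iot : ∀ y, iot (iot y) = y
  cont : ContinuousOn iot {y | gam y ≠ 0}
  two : ∀ y, iot y 2 = y 2
  sh_iot : ∀ n y, iot (sh n y) = sh n (iot y)
  gam_sh : ∀ n y, gam (sh n y) = gam y
  tube_iff : ∀ y, (y ∈ tube ↔ gam y ≤ 1) ∧ (y ∈ tubeO ↔ gam y < 1)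
  low : ∀ y ∈ PC, 1 / 65 ≤ gam y
  closed : ∀ A : Set R4, IsClosed A → (∀ y, 1 ≤ gam y → y ∈ A) → (∀ y ∈ A, gam y ≠ 0) →
    IsClosed (inv A)
  fix : ∀ y, gam y = 1 → iot y = y

def TG0 : Prop := ∃ T : TG, T.Is0
def TG1 : Prop := ∀ s : Psi, ∃ T : TG, T.Is1 s
def PsiE : Prop := Nonempty Psi
def Flat0 : Prop := ∀ T : TG, T.Is0 → T.Flat
def Flat1 : Prop := ∀ (T : TG) (s : Psi), T.Is1 s → T.Flat
def Cell0 : Prop := ∀ T : TG, T.Is0 → T.Cell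
def ZIso01 : Prop := ∀ (T T' : TG) (s : Psi), T.Is0 → T'.Is1 s → ∃ β β', T.ZIso T' β β'
def AEU : Prop := AE UU
def AEC : Prop := AE (inv UC)
def AEIn0 : Prop := ∀ T : TG, T.Is0 → AEU → T.AEIn
def AEIn1 : Prop := ∀ (T : TG) (s : Psi), T.Is1 s → AEC → T.AEIn
def FoldAB : Prop := (∃ m, Fold .A m) ∧ ∃ m, Fold .B m
def FoldK : Prop := Fold .K mK
def FoldL : Prop := ∃ m, Fold .L m
def Dv0 : Prop := ∀ T : TG, T.Is0 → ∃ d : T.Dv, d.D = Dr ∧ d.Hull = Hl ∧ d.m .K = mK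
def Plane1 : Prop := ∀ (T : TG) (s : Psi), T.Is1 s → T.Api1 → T.Api2 →
  letI := actE; ∃ p : ℝ × ℝ → T.X, L2.Pl (Lam false) (ℝ × ℝ) (MonoidHom.id _) p
/-- the obstruction -/
def NoLS : Prop := ∀ n r : ℕ, r + 1 ≤ n → ¬ Nonempty (LS n r)
def Obs0 : Prop := ∀ T : TG, T.Is0 → T.Api1 → T.Api2 → ∀ (d : T.Dv) dev, d.D = Dr → d.Hull = Hl →
  d.m .K = mK → T.Dev d dev → letI := actE; ∀ ψ (p : ℝ × ℝ → T.X),
    L2.Pl (Lam false) (ℝ × ℝ) ψ p → ∃ n r : ℕ, r + 1 ≤ n ∧ Nonempty (LS n r)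

end Vale.Agent.P260Z.L3
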