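import Vale.Agent.P260Z.L3.Api0
import Vale.Agent.P260Z.L3.Sk

/-!
# P260, layer 3: the pieces are open in the glued space
-/

noncomputable section

namespace Vale.Agent.P260Z.L3

open Set Topology Filter Ap

namespace TG
variable (T : TG)

theorem isOpen_iff {O : Set T.X} : IsOpen O ↔ ∀ g i, IsOpen (T.mkP g i ⁻¹' O) := by
  simp only [isOpen_iSup_iff, isOpen_coinduced]

theorem continuous_mkP (g : GG) (i : Bool) : Continuous (T.mkP g i) :=
  continuous_def.2 fun _ h => T.isOpen_iff.1 h g i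

theorem mkP_eq_pt (g : GG) (i : Bool) : T.mkP g i = (T.P i).domRestrict (T.pt g i) :=
  funext fun y => (T.pt_of_mem g y.2).symm

theorem continuousOn_pt (g : GG) (i : Bool) : ContinuousOn (T.pt g i) (T.P i) := by
  rw [continuousOn_iff_continuous_domRestrict]
  have := T.continuous_mkP g i
  rwa [T.mkP_eq_pt] at this

theorem continuous_of {Y : Type} [TopologicalSpace Y] (f : T.X → Y)
    (h : ∀ g i, ContinuousOn (fun y => f (T.pt g i y)) (T.P i)) : Continuous f := by
  rw [continuous_def]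
  intro O hO
  rw [T.isOpen_iff]
  intro g i
  have := (continuousOn_iff_continuous_domRestrict.1 (h g i)).isOpen_preimage O hO
  rw [T.mkP_eq_pt]
  exact this

theorem isOpen_of {O : Set T.X}
    (h : ∀ g i, ∀ y ∈ T.P i, T.pt g i y ∈ O → ∀ᶠ z in 𝓝[T.P i] y, T.pt g i z ∈ O) :
    IsOpen O := by
  rw [T.isOpen_iff]
  intro g i
  rw [isOpen_iff_mem_nhds, T.mkP_eq_pt]
  intro y hy
  have := h g i y.1 y.2 hy
  rw [← map_nhds_subtype_val] at this
  exact this

theorem isOpen_image (g : GG) (i : Bool) {O : Set R4} (hO : IsOpen O) :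
    IsOpen (T.pt g i '' (T.P i ∩ O)) := by
  refine T.isOpen_of fun g' i' y hy hm => ?_
  obtain ⟨y0, ⟨hy0, hy0O⟩, h⟩ := hm
  rcases (pt_eq hy hy0).1 h.symm with ⟨rfl, h2, h3⟩ | ⟨e, l, hl, l', hl', rfl, rfl, h3, h4, h5⟩
  · have hc : ContinuousAt (act i' (g'⁻¹ * g)⁻¹) y := (continuous_act _ _).continuousAt
    have h6 : act i' (g'⁻¹ * g)⁻¹ y ∈ O := by rw [h3, act_inv_act]; exact hy0O
    filter_upwards [nhdsWithin_le_nhds (hc.eventually (hO.mem_nhds h6)), self_mem_nhdsWithin]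
      with z hz hzP
    refine ⟨_, ⟨T.P_act _ _ (inv_mem h2) hzP, hz⟩, ?_⟩
    rw [← pt_act _ (inv_mem h2) hzP]
    simp
  · have hw : act e.src l y ∈ T.P e.src ∩ T.Wo e := ⟨T.P_act _ l hl hy, h3⟩
    have hc : ContinuousAt (act e.src l) y := (continuous_act _ _).continuousAt
    have h6 : ∀ᶠ z in 𝓝[T.P e.src] y, act e.src l z ∈ T.P e.src ∩ T.Wo e := by
      filter_upwards [nhdsWithin_le_nhds (hc.eventually ((T.isOpen_Wo e).mem_nhds h3)),
        self_mem_nhdsWithin] with z hz hzP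
      exact ⟨T.P_act _ l hl hzP, hz⟩
    have h7 : Tendsto (fun z => act e.tgt l'⁻¹ (T.θ e (act e.src l z))) (𝓝[T.P e.src] y)
        (𝓝 y0) := by
      have h8 : Tendsto (act e.src l) (𝓝[T.P e.src] y)
          (𝓝[T.P e.src ∩ T.Wo e] (act e.src l y)) :=
        tendsto_nhdsWithin_iff.2 ⟨hc.tendsto.mono_left nhdsWithin_le_nhds, h6⟩
      have h9 := ((continuous_act e.tgt l'⁻¹).tendsto _).comp ((T.θ_cont e _ hw).tendsto.comp h8)
      rw [← h5, act_inv_act] at h9
      exact h9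
    filter_upwards [h6, h7.eventually (hO.mem_nhds hy0O), self_mem_nhdsWithin] with z hz hzO hzP
    have h10 := (T.θ_maps e hz).1
    refine ⟨_, ⟨T.P_act _ _ (inv_mem hl') h10, hzO⟩, ?_⟩
    rw [← pt_act _ (inv_mem hl') h10, h4, ← pt_edge _ e hz, ← pt_act _ hl hzP]
    simp

theorem isOpen_range (g : GG) (i : Bool) : IsOpen (T.pt g i '' T.P i) := by
  simpa using T.isOpen_image g i isOpen_univ

theorem continuousOn_crd (g : GG) (i : Bool) :
    ContinuousOn (T.crd g i) (T.pt g i '' T.P i) := by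
  rw [continuousOn_open_iff (T.isOpen_range g i)]
  intro O hO
  have : T.pt g i '' T.P i ∩ T.crd g i ⁻¹' O = T.pt g i '' (T.P i ∩ O) := by
    ext x
    constructor
    · rintro ⟨⟨y, hy, rfl⟩, h⟩
      rw [mem_preimage, crd_pt g hy] at h
      exact ⟨y, ⟨hy, h⟩, rfl⟩
    · rintro ⟨y, hy, rfl⟩
      refine ⟨⟨y, hy.1, rfl⟩, ?_⟩
      rw [mem_preimage, crd_pt g hy.1]
      exact hy.2
  rw [this]
  exact T.isOpen_image g i hO

theorem cts_X : ContinuousConstSMul GG T.X :=
  ⟨fun h => T.continuous_of _ fun g i =>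
    (T.continuousOn_pt (h * g) i).congr fun _ hy => T.smul_pt h g hy⟩

theorem fr_X : IsCancelSMul GG T.X :=
  isCancelSMul_iff_eq_one_of_smul_eq.2 fun _ _ h => eq_one_of_smul h

theorem api1 (T : TG) : T.Api1 where
  pt_eq := pt_eq
  pt_lam := fun g _ _ _ hl hy => pt_act g hl hy
  pt_edge := fun g _ _ hy => (pt_edge g _ hy).symm
  inj := T.injOn_pt
  surj := T.exists_core
  cont := T.continuousOn_pt
  opn := fun g i _ h => T.isOpen_image g i h
  crd_pt := fun g _ _ hy => crd_pt g hy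
  crd_cont := T.continuousOn_crd
  cont_iff := fun f h => T.continuous_of f h
  cts := T.cts_X
  fr := T.fr_X

end TG

end Vale.Agent.P260Z.L3
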