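import Vale.Agent.P260Z.L3.Api1

/-!
# P260, layer 3: the action on the glued space is free, proper and cocompact
-/

noncomputable section

namespace Vale.Agent.P260Z.L3

open Set Topology Filter Ap Metric

namespace TG
variable (T : TG)

/-- the graph of a transition map -/
def Gr (e : Ed) : Set (R4 × R4) := {p | p.1 ∈ T.P e.src ∩ T.Wo e ∧ p.2 = T.θ e p.1}

theorem gr_closure (e : Ed) {y y' : R4} (hy : y ∈ T.P e.src) (hy' : y' ∈ T.P e.tgt)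
    (h : (y, y') ∈ closure (T.Gr e)) : y ∈ T.Wo e ∧ y' = T.θ e y := by
  have h1 := T.sep e y hy y' hy' h
  refine ⟨h1, ?_⟩
  have := mem_closure_iff_nhdsWithin_neBot.1 h
  have h2 : Tendsto Prod.snd (𝓝[T.Gr e] (y, y')) (𝓝 y') :=
    (continuous_snd.tendsto _).mono_left nhdsWithin_le_nhds
  have h3 : Tendsto Prod.fst (𝓝[T.Gr e] (y, y')) (𝓝[T.P e.src ∩ T.Wo e] y) :=
    tendsto_nhdsWithin_iff.2 ⟨(continuous_fst.tendsto _).mono_left nhdsWithin_le_nhds,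
      eventually_mem_nhdsWithin.mono fun _ hp => hp.1⟩
  have h4 := (T.θ_cont e y ⟨hy, h1⟩).tendsto.comp h3
  exact tendsto_nhds_unique (h2.congr' (eventually_mem_nhdsWithin.mono fun _ hp => hp.2)) h4

theorem image_mem_nhds (g : GG) {i : Bool} {y : R4} (hy : y ∈ T.P i) {U : Set R4}
    (hU : U ∈ 𝓝 y) : T.pt g i '' (T.P i ∩ U) ∈ 𝓝 (T.pt g i y) := by
  obtain ⟨O, hO, h1, h2⟩ := _root_.mem_nhds_iff.1 hU
  exact mem_of_superset ((T.isOpen_image g i h1).mem_nhds ⟨y, ⟨hy, h2⟩, rfl⟩)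
    (image_mono (inter_subset_inter_right _ hO))

theorem rel_closure {g i y g' i' y'} (hy : y ∈ T.P i) (hy' : y' ∈ T.P i')
    (h : (y, y') ∈ closure {p : R4 × R4 | p.1 ∈ T.P i ∧ T.Rel g i p.1 g' i' p.2}) :
    T.Rel g i y g' i' y' := by
  have hO : IsOpen (ball y 1 ×ˢ ball y' 1) := isOpen_ball.prod isOpen_ball
  have h1 := hO.inter_closure ⟨⟨mem_ball_self one_pos, mem_ball_self one_pos⟩, h⟩
  set F : Set (Ed × GG × GG) := {τ | τ.1.src = i ∧ τ.1.tgt = i' ∧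
    g' * τ.2.2⁻¹ = g * τ.2.1⁻¹ * τ.1.s ∧
    (τ.2.1 ∈ Lam i ∧ ∃ z ∈ ball y 1, act i τ.2.1 z ∈ T.P τ.1.src ∩ T.Wo τ.1) ∧
    (τ.2.2 ∈ Lam i' ∧ ∃ z ∈ ball y' 1, act i' τ.2.2 z ∈ T.P τ.1.tgt ∩ T.Wo τ.1.bar)} with hF
  have hFf : F.Finite := by
    refine (finite_iUnion fun e : Ed => ((finite_singleton e).prod
      ((act_fin i (isBounded_ball (x := y) (r := 1)) (T.bdd e)).prod
        (act_fin i' (isBounded_ball (x := y') (r := 1)) (T.bdd e.bar))))).subset ?_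
    rintro ⟨e, l, l'⟩ ⟨_, _, _, h4, h5⟩
    exact mem_iUnion.2 ⟨e, rfl, h4, by simpa using h5⟩
  have h2 : ball y 1 ×ˢ ball y' 1 ∩ {p : R4 × R4 | p.1 ∈ T.P i ∧ T.Rel g i p.1 g' i' p.2} ⊆
      {p | (i = i' ∧ g⁻¹ * g' ∈ Lam i) ∧ p.1 = act i (g⁻¹ * g') p.2} ∪
        ⋃ τ ∈ F, Prod.map (act i τ.2.1) (act i' τ.2.2) ⁻¹' T.Gr τ.1 := by
    rintro ⟨z, z'⟩ ⟨⟨hz, hz'⟩, hzP, ⟨k1, k2, k3⟩ | ⟨e, l, hl, l', hl', rfl, rfl, k3, k4, k5⟩⟩
    · exact Or.inl ⟨⟨k1, k2⟩, k3⟩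
    · have hw : act e.src l z ∈ T.P e.src ∩ T.Wo e := ⟨T.P_act _ l hl hzP, k3⟩
      refine Or.inr (mem_iUnion₂.2 ⟨(e, l, l'), ⟨rfl, rfl, k4, ⟨hl, z, hz, hw⟩, hl', z', hz', ?_⟩,
        hw, k5⟩)
      have := T.θ_maps e hw
      rw [← k5] at this
      exact this
  have h3 := closure_mono h2 h1
  rw [closure_union, hFf.closure_biUnion] at h3
  rcases h3 with h3 | h3
  · have hc : IsClosed {p : R4 × R4 | (i = i' ∧ g⁻¹ * g' ∈ Lam i) ∧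
        p.1 = act i (g⁻¹ * g') p.2} :=
      isClosed_const.and (isClosed_eq continuous_fst ((continuous_act _ _).comp continuous_snd))
    rw [hc.closure_eq] at h3
    exact Or.inl ⟨h3.1.1, h3.1.2, h3.2⟩
  · obtain ⟨⟨e, l, l'⟩, ⟨rfl, rfl, k3, ⟨hl, _⟩, hl', _⟩, h4⟩ := mem_iUnion₂.1 h3
    have h5 := ((continuous_act e.src l).prodMap (continuous_act e.tgt l')).closure_preimage_subset
      _ h4
    have h6 := T.gr_closure e (T.P_act _ l hl hy) (T.P_act _ l' hl' hy') h5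
    exact Or.inr ⟨e, l, hl, l', hl', rfl, rfl, h6.1, k3, h6.2⟩

theorem t2_X : T2Space T.X := by
  rw [t2_iff_nhds]
  intro x x' hne
  obtain ⟨g, i, y, hy, rfl⟩ := T.exists_pt x
  obtain ⟨g', i', y', hy', rfl⟩ := T.exists_pt x'
  refine (pt_eq hy hy').2 (T.rel_closure hy hy' ?_)
  rw [mem_closure_iff_nhds]
  intro t ht
  obtain ⟨U, hU, V, hV, hUV⟩ := mem_nhds_prod_iff.1 ht
  obtain ⟨_, ⟨z, hz, rfl⟩, z', hz', h⟩ := inf_neBot_iff.1 hne (T.image_mem_nhds g hy hU)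
    (T.image_mem_nhds g' hy' hV)
  exact ⟨(z, z'), hUV ⟨hz.2, hz'.2⟩, hz.1, (pt_eq hz.1 hz'.1).1 h.symm⟩

theorem isOpenEmbedding_mkP (g : GG) (i : Bool) : IsOpenEmbedding (T.mkP g i) := by
  refine IsOpenEmbedding.of_continuous_injective_isOpenMap (T.continuous_mkP g i) ?_ ?_
  · intro y y' h
    rw [T.mkP_eq_pt] at h
    exact Subtype.ext (T.injOn_pt g i y.2 y'.2 h)
  · intro U hU
    obtain ⟨O, hO, rfl⟩ := isOpen_induced_iff.1 hU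
    have : T.mkP g i '' (Subtype.val ⁻¹' O) = T.pt g i '' (T.P i ∩ O) := by
      rw [T.mkP_eq_pt]
      ext x
      constructor
      · rintro ⟨y, hy, rfl⟩
        exact ⟨y.1, ⟨y.2, hy⟩, rfl⟩
      · rintro ⟨y, hy, rfl⟩
        exact ⟨⟨y, hy.1⟩, hy.2, rfl⟩
    rw [this]
    exact T.isOpen_image g i hO

theorem lc_X : LocallyCompactSpace T.X := by
  have := T.t2_X
  have : WeaklyLocallyCompactSpace T.X := ⟨fun x => by
    obtain ⟨g, i, y, hy, rfl⟩ := T.exists_pt x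
    have := (T.lc i).locallyCompactSpace
    obtain ⟨K, hK, hK'⟩ := exists_compact_mem_nhds (⟨y, hy⟩ : T.P i)
    refine ⟨T.mkP g i '' K, hK.image (T.continuous_mkP g i), ?_⟩
    rw [T.pt_of_mem g hy]
    exact (T.isOpenEmbedding_mkP g i).isOpenMap.image_mem_nhds hK'⟩
  infer_instance

theorem sc_X : SecondCountableTopology T.X := by
  have : ∀ p : GG × Bool, SecondCountableTopology (range (T.mkP p.1 p.2)) := fun p =>
    (T.isOpenEmbedding_mkP p.1 p.2).isEmbedding.toHomeomorph.symm.secondCountableTopology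
  refine TopologicalSpace.secondCountableTopology_of_countable_cover
    (U := fun p : GG × Bool => range (T.mkP p.1 p.2))
    (fun p => (T.isOpenEmbedding_mkP p.1 p.2).isOpen_range) (eq_univ_of_forall fun x => ?_)
  obtain ⟨g, i, y, hy, rfl⟩ := T.exists_pt x
  exact mem_iUnion.2 ⟨(g, i), ⟨y, hy⟩, (T.pt_of_mem g hy).symm⟩

theorem cpt_cover {K : Set T.X} (hK : IsCompact K) : ∃ F : Set (GG × Bool × ℕ), F.Finite ∧
    ∀ x ∈ K, ∃ p ∈ F, ∃ y ∈ T.P p.2.1 ∩ ball 0 p.2.2, x = T.pt p.1 p.2.1 y := by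
  obtain ⟨F, hF⟩ := hK.elim_finite_subcover
    (fun p : GG × Bool × ℕ => T.pt p.1 p.2.1 '' (T.P p.2.1 ∩ ball 0 p.2.2))
    (fun p => T.isOpen_image _ _ isOpen_ball) fun x _ => by
      obtain ⟨g, i, y, hy, rfl⟩ := T.exists_pt x
      obtain ⟨n, hn⟩ := exists_nat_gt (dist y 0)
      exact mem_iUnion.2 ⟨(g, i, n), y, ⟨hy, hn⟩, rfl⟩
  refine ⟨F, F.finite_toSet, fun x hx => ?_⟩
  obtain ⟨p, hp, y, hy, rfl⟩ := mem_iUnion₂.1 (hF hx)
  exact ⟨p, hp, y, hy, rfl⟩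

theorem pd_X : ProperlyDiscontinuousSMul GG T.X := by
  refine ⟨fun {K L} hK hL => ?_⟩
  obtain ⟨F, hF, h1⟩ := T.cpt_cover hK
  obtain ⟨F', hF', h2⟩ := T.cpt_cover hL
  refine ((hF.prod hF').biUnion fun p _ => (rel_fin (T := T) p.2.2.1 p.1.2.1
    (isBounded_ball (x := 0) (r := p.2.2.2)) (isBounded_ball (x := 0) (r := p.1.2.2))).image
      fun h => p.2.1 * h * p.1.1⁻¹).subset ?_
  rintro γ ⟨_, ⟨x, hx, rfl⟩, hx'⟩
  obtain ⟨p, hp, y, hy, rfl⟩ := h1 x hx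
  obtain ⟨p', hp', y', hy', h3⟩ := h2 _ hx'
  simp only [T.smul_pt γ p.1 hy.1] at h3
  refine mem_iUnion₂.2 ⟨(p, p'), ⟨hp, hp'⟩, p'.1⁻¹ * (γ * p.1), ⟨y', ⟨hy'.2, hy'.1⟩, y, hy.2, ?_⟩,
    by simp [mul_assoc]⟩
  have := T.rel_mul p'.1⁻¹ ((pt_eq hy'.1 hy.1).1 h3.symm)
  rwa [inv_mul_cancel] at this

/-- compact fundamental domains -/
def K0 (i : Bool) : Set R4 := (T.cpt i).choose

theorem K0_cpt (i : Bool) : IsCompact (T.K0 i) := (T.cpt i).choose_spec.1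
theorem K0_sub (i : Bool) : T.K0 i ⊆ T.C i := (T.cpt i).choose_spec.2.1
theorem K0_subP (i : Bool) : T.K0 i ⊆ T.P i := (T.K0_sub i).trans (T.C_sub i)

theorem exists_K0 (g : GG) {i : Bool} {y : R4} (hy : y ∈ T.C i) :
    ∃ l ∈ Lam i, act i l y ∈ T.K0 i ∧ T.pt g i y = T.pt (g * l⁻¹) i (act i l y) := by
  obtain ⟨l, hl, h⟩ := (T.cpt i).choose_spec.2.2 y hy
  refine ⟨l, hl, h, ?_⟩
  rw [← pt_act _ hl (T.C_sub i hy)]
  simp

theorem cpt_image (g : GG) (i : Bool) {F : Set R4} (hF : IsClosed F) :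
    IsCompact (T.pt g i '' (T.K0 i ∩ F)) :=
  ((T.K0_cpt i).inter_right hF).image_of_continuousOn
    ((T.continuousOn_pt g i).mono (inter_subset_left.trans (T.K0_subP i)))

theorem lfK : LocallyFinite fun p : GG × Bool => T.pt p.1 p.2 '' T.K0 p.2 := by
  have := T.lc_X
  intro x
  obtain ⟨N, hN, hN'⟩ := exists_compact_mem_nhds x
  refine ⟨N, hN', ?_⟩
  have h1 : ∀ i, IsCompact (T.pt 1 i '' T.K0 i) := fun i => by
    simpa using T.cpt_image 1 i isClosed_univ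
  refine (finite_iUnion fun i : Bool =>
    (T.pd_X.finite_disjoint_inter_image (h1 i) hN).prod (finite_singleton i)).subset ?_
  rintro ⟨g, i⟩ ⟨_, ⟨y, hy, rfl⟩, hx⟩
  refine mem_iUnion.2 ⟨i, ⟨_, ⟨_, ⟨y, hy, rfl⟩, ?_⟩, hx⟩, rfl⟩
  simp only [T.smul_pt g 1 (T.K0_subP i hy), mul_one]

theorem nice_X : Nice GG T.X where
  t2 := T.t2_X
  lc := T.lc_X
  sc := T.sc_X
  cts := T.cts_X
  pd := T.pd_X
  fr := T.fr_X
  cpt := by
    refine ⟨⋃ i, T.pt 1 i '' T.K0 i, isCompact_iUnion fun i => by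
      simpa using T.cpt_image 1 i isClosed_univ, fun x => ?_⟩
    obtain ⟨g, i, y, hy, rfl⟩ := T.exists_core x
    obtain ⟨l, hl, h1, h2⟩ := T.exists_K0 g hy
    refine ⟨(g * l⁻¹)⁻¹, mem_iUnion.2 ⟨i, _, h1, ?_⟩⟩
    rw [h2, T.smul_pt _ _ (T.K0_subP i h1), inv_mul_cancel]

theorem isClosed_image (g : GG) (i : Bool) {F : Set R4} (hF : IsClosed F) (hC : F ⊆ T.C i) :
    IsClosed (T.pt g i '' F) := by
  have := T.t2_X
  have h1 : T.pt g i '' F =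
      ⋃ l : Lam i, T.pt (g * l.1⁻¹) i '' (T.K0 i ∩ act i l.1⁻¹ ⁻¹' F) := by
    ext x
    constructor
    · rintro ⟨y, hy, rfl⟩
      obtain ⟨l, hl, h1, h2⟩ := T.exists_K0 g (hC hy)
      exact mem_iUnion.2 ⟨⟨l, hl⟩, _, ⟨h1, by simpa using hy⟩, h2.symm⟩
    · intro hx
      obtain ⟨l, y, hy, rfl⟩ := mem_iUnion.1 hx
      exact ⟨_, hy.2, (pt_act g (inv_mem l.2) (T.K0_subP i hy.1)).symm⟩
  rw [h1]
  refine LocallyFinite.isClosed_iUnion ?_ fun l =>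
    (T.cpt_image _ i (hF.preimage (continuous_act _ _))).isClosed
  refine (T.lfK.comp_injective (g := fun l : Lam i => (g * l.1⁻¹, i)) ?_).subset fun l =>
    image_mono inter_subset_left
  intro l l' h
  exact Subtype.ext (by simpa using h)

theorem isCompact_S (e : Ed) : IsCompact (T.S e) := by
  set G : Set (R4 × R4) := {p | p.1 ∈ T.S e ∧ p.2 = T.θ e p.1}
  have hW : ∀ y ∈ T.S e, y ∈ T.P e.src ∩ T.Wo e := fun y hy => ⟨T.C_sub _ hy.1, hy.2.1⟩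
  have hb : Bornology.IsBounded G := by
    refine ((T.bdd e).prod (T.bdd e.bar)).subset fun p hp => ⟨hW _ hp.1, ?_⟩
    rw [hp.2, Ed.src_bar]
    exact T.θ_maps e (hW _ hp.1)
  have h1 : T.S e = Prod.fst '' closure G := by
    refine Subset.antisymm (fun y hy => ⟨(y, T.θ e y), subset_closure ⟨hy, rfl⟩, rfl⟩) ?_
    rintro _ ⟨⟨y, y'⟩, hp, rfl⟩
    have h2 : closure G ⊆ T.C e.src ×ˢ T.C e.tgt :=
      closure_minimal (fun p hp => ⟨hp.1.1, hp.2 ▸ hp.1.2.2⟩)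
        ((T.closed_C _).prod (T.closed_C _))
    have h3 := h2 hp
    have h5 : G ⊆ T.Gr e := fun p hp => ⟨hW _ hp.1, hp.2⟩
    have h4 := T.gr_closure e (T.C_sub _ h3.1) (T.C_sub _ h3.2) (closure_mono h5 hp)
    exact ⟨h3.1, h4.1, h4.2 ▸ h3.2⟩
  rw [h1]
  exact hb.isCompact_closure.image continuous_fst

theorem sat_eq (F : Bool → Set R4) (hC : ∀ i, F i ⊆ T.C i)
    (hA : ∀ i, ∀ l ∈ Lam i, MapsTo (act i l) (F i) (F i)) :
    {x | ∃ g i, ∃ y ∈ F i, x = T.pt g i y} =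
      ⋃ p : GG × Bool, T.pt p.1 p.2 '' (T.K0 p.2 ∩ F p.2) := by
  ext x
  constructor
  · rintro ⟨g, i, y, hy, rfl⟩
    obtain ⟨l, hl, h1, h2⟩ := T.exists_K0 g (hC i hy)
    exact mem_iUnion.2 ⟨(g * l⁻¹, i), _, ⟨h1, hA i l hl hy⟩, h2.symm⟩
  · intro hx
    obtain ⟨p, y, hy, rfl⟩ := mem_iUnion.1 hx
    exact ⟨p.1, p.2, y, hy.2, rfl⟩

theorem lf_sat (F : Bool → Set R4) :
    LocallyFinite fun p : GG × Bool => T.pt p.1 p.2 '' (T.K0 p.2 ∩ F p.2) :=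
  T.lfK.subset fun _ => image_mono inter_subset_left

theorem mem_ZX_iff (g : GG) {i : Bool} {y : R4} (hy : y ∈ T.P i) :
    T.pt g i y ∈ T.ZX ↔ y ∈ T.Bd i := by
  constructor
  · rintro ⟨g', i', y', hy', h⟩
    rcases (pt_eq hy (T.C_sub _ (T.Z_sub _ hy'))).1 h with ⟨rfl, h2, h3⟩ |
      ⟨e, l, hl, l', hl', rfl, rfl, h3, _, h5⟩
    · exact Or.inl (h3 ▸ T.Z_act _ _ h2 hy')
    · exact Or.inr ⟨e, l, hl, rfl, hy, h3, h5 ▸ T.Z_act _ _ hl' hy'⟩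
  · rintro (h | ⟨e, l, hl, rfl, _, h1, h2⟩)
    · exact ⟨g, i, y, h, rfl⟩
    · refine ⟨g * l⁻¹ * e.s, e.tgt, _, h2, ?_⟩
      rw [← pt_edge _ e ⟨T.P_act _ l hl hy, h1⟩, ← pt_act _ hl hy]
      simp

theorem api2' (T : TG) : T.Api2 where
  nice := T.nice_X
  closed := fun g i _ hF hC => T.isClosed_image g i hF hC
  S_cpt := T.isCompact_S
  nhds := fun x => by
    obtain ⟨N, hN, hf⟩ := T.lfK x
    refine ⟨_, hf, mem_of_superset hN ?_⟩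
    rintro x' hx' g i ⟨y, hy, rfl⟩
    obtain ⟨l, hl, h1, h2⟩ := T.exists_K0 g hy
    exact ⟨(g * l⁻¹, i), ⟨_, ⟨_, h1, h2.symm⟩, hx'⟩, rfl, by simpa using hl⟩
  fin := fun {K} hK => by
    refine ⟨_, T.lfK.finite_nonempty_inter_compact hK, ⋃ i, T.K0 i,
      isCompact_iUnion T.K0_cpt, fun x hx => ?_⟩
    obtain ⟨g, i, y, hy, rfl⟩ := T.exists_core x
    obtain ⟨l, hl, h1, h2⟩ := T.exists_K0 g hy
    exact ⟨(g * l⁻¹, i), ⟨_, ⟨_, h1, h2.symm⟩, hx⟩, _, ⟨mem_iUnion.2 ⟨i, h1⟩, T.K0_sub i h1⟩, h2⟩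
  contOn := fun F f hF hC hA hf => by
    have := T.t2_X
    rw [T.sat_eq F hC hA]
    refine (T.lf_sat F).continuousOn_iUnion (fun p => (T.cpt_image _ _ (hF _)).isClosed)
      fun p => ?_
    have h1 : ContinuousOn (T.crd p.1 p.2) (T.pt p.1 p.2 '' (T.K0 p.2 ∩ F p.2)) :=
      (T.continuousOn_crd _ _).mono (image_mono (inter_subset_left.trans (T.K0_subP _)))
    refine ((hf p.1 p.2).comp h1 ?_).congr ?_
    · rintro _ ⟨y, hy, rfl⟩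
      rw [crd_pt _ (T.K0_subP _ hy.1)]
      exact hy.2
    · rintro _ ⟨y, hy, rfl⟩
      simp only [Function.comp, crd_pt _ (T.K0_subP _ hy.1)]
  closed_ZX := by
    have := T.t2_X
    have := T.sat_eq T.Zc T.Z_sub T.Z_act
    rw [show T.ZX = _ from this]
    exact (T.lf_sat _).isClosed_iUnion fun p => (T.cpt_image _ _ (T.closed_Z _)).isClosed
  mem_ZX := fun g _ _ hy => T.mem_ZX_iff g hy

theorem api2 (T : TG) (_ : T.Api1) : T.Api2 := T.api2'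

end TG

end Vale.Agent.P260Z.L3
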