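import Vale.Agent.P260Z.L3.Sk

/-!
# P260, layer 3: the boundary of the glued space is a cube complex
-/

noncomputable section

namespace Vale.Agent.P260Z.L3

open Set Topology

namespace CubP

/-- the parametrisation of a lattice cube -/
def emb (v : Fin 4 → ℤ) (n : Fin 4) (p : Fin 3 → ℝ) : R4 :=
  fun j => (v j : ℝ) + (Fin.insertNth n (0 : ℝ) p : Fin 4 → ℝ) j

theorem emb_same (v : Fin 4 → ℤ) (n : Fin 4) (p : Fin 3 → ℝ) : emb v n p n = v n := by
  simp [emb]

theorem emb_succ (v : Fin 4 → ℤ) (n : Fin 4) (p : Fin 3 → ℝ) (k : Fin 3) :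
    emb v n p (n.succAbove k) = v (n.succAbove k) + p k := by
  simp [emb]

theorem continuous_emb (v : Fin 4 → ℤ) (n : Fin 4) : Continuous (emb v n) := by
  refine continuous_pi fun j => ?_
  refine Fin.succAboveCases n ?_ (fun k => ?_) j
  · simp only [emb_same]
    exact continuous_const
  · simp only [emb_succ]
    fun_prop

theorem emb_inj (v : Fin 4 → ℤ) (n : Fin 4) : Function.Injective (emb v n) := by
  intro p q h
  funext k
  have := congrFun h (n.succAbove k)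
  rw [emb_succ, emb_succ] at this
  linarith

theorem emb_mem (v : Fin 4 → ℤ) (n : Fin 4) {p : Fin 3 → ℝ} (hp : p ∈ Icc (0 : Fin 3 → ℝ) 1) :
    emb v n p ∈ cube3 v n := by
  refine ⟨emb_same v n p, fun j hj => ?_⟩
  obtain ⟨k, rfl⟩ := Fin.exists_succAbove_eq hj
  have h0 : (0 : ℝ) ≤ p k := hp.1 k
  have h1 : p k ≤ 1 := hp.2 k
  rw [emb_succ]
  constructor <;> linarith

theorem exists_emb {v : Fin 4 → ℤ} {n : Fin 4} {y : R4} (hy : y ∈ cube3 v n) :
    ∃ p ∈ Icc (0 : Fin 3 → ℝ) 1, emb v n p = y := by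
  refine ⟨fun k => y (n.succAbove k) - v (n.succAbove k), ⟨fun k => ?_, fun k => ?_⟩, ?_⟩
  · have := (hy.2 _ (Fin.succAbove_ne n k)).1
    change (0 : ℝ) ≤ _
    linarith
  · have := (hy.2 _ (Fin.succAbove_ne n k)).2
    change _ ≤ (1 : ℝ)
    linarith
  · funext j
    refine Fin.succAboveCases n ?_ (fun k => ?_) j
    · rw [emb_same, hy.1]
    · rw [emb_succ]; ring

/-- points of the face of `p` lie in the closed cell -/
theorem emb_cell (v : Fin 4 → ℤ) (n : Fin 4) {p y : Fin 3 → ℝ} (hp : p ∈ Icc (0 : Fin 3 → ℝ) 1)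
    (hy : y ∈ Icc (0 : Fin 3 → ℝ) 1) (h : ∀ k, p k = 0 ∨ p k = 1 → y k = p k) :
    emb v n y ∈ cellOf (emb v n p) := by
  intro j
  refine Fin.succAboveCases n ?_ (fun k => ?_) j
  · rw [emb_same, emb_same]
    simp
  · rw [emb_succ, emb_succ]
    by_cases hk : p k = 0 ∨ p k = 1
    · rw [h k hk]
      exact ⟨Int.floor_le _, Int.le_ceil _⟩
    · push Not at hk
      have h0 : (0 : ℝ) < p k := lt_of_le_of_ne (hp.1 k) hk.1.symm
      have h1 : p k < 1 := lt_of_le_of_ne (hp.2 k) hk.2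
      have y0 : (0 : ℝ) ≤ y k := hy.1 k
      have y1 : y k ≤ 1 := hy.2 k
      have f : ⌊(v (n.succAbove k) : ℝ) + p k⌋ = v (n.succAbove k) :=
        Int.floor_eq_iff.2 ⟨by linarith, by linarith⟩
      have c : ⌈(v (n.succAbove k) : ℝ) + p k⌉ = v (n.succAbove k) + 1 :=
        Int.ceil_eq_iff.2 ⟨by push_cast; linarith, by push_cast; linarith⟩
      rw [f, c]
      push_cast
      constructor <;> linarith

theorem sym_mem (σ : Equiv.Perm (Fin 3)) (ε : Fin 3 → Bool) {y : Fin 3 → ℝ}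
    (hy : y ∈ Icc (0 : Fin 3 → ℝ) 1) : L2.sym σ ε y ∈ Icc (0 : Fin 3 → ℝ) 1 := by
  refine ⟨fun k => ?_, fun k => ?_⟩
  all_goals
    have y0 : (0 : ℝ) ≤ y (σ k) := hy.1 _
    have y1 : y (σ k) ≤ 1 := hy.2 _
    simp only [L2.sym, Pi.zero_apply, Pi.one_apply]
    split_ifs <;> linarith

/-- lattice isometries -/
def LI (α : R4 → R4) : Prop :=
  ∃ (π : Equiv.Perm (Fin 4)) (s : Fin 4 → ℝ) (u : Fin 4 → ℤ), (∀ j, s j = 1 ∨ s j = -1) ∧
    ∀ y j, α y j = s j * y (π j) + u j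

theorem LI.comp {α β : R4 → R4} (ha : LI α) (hb : LI β) : LI (α ∘ β) := by
  obtain ⟨π, s, u, hs, h⟩ := ha
  obtain ⟨π', s', u', hs', h'⟩ := hb
  classical
  refine ⟨π.trans π', fun j => s j * s' (π j),
    fun j => (if s j = 1 then u' (π j) else -u' (π j)) + u j, fun j => ?_, fun y j => ?_⟩
  · rcases hs j with a | a <;> rcases hs' (π j) with b | b <;> simp [a, b]
  · rw [Function.comp_apply, h, h']
    rcases hs j with a | a
    · simp [a]; ring
    · have : ¬ ((-1 : ℝ) = 1) := by norm_num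
      simp [a, this]; ring

theorem sg_cases (n : ℤ) : (sg n : ℝ) = 1 ∨ (sg n : ℝ) = -1 := by
  rcases Int.units_eq_one_or (Int.negOnePow n) with h | h <;> simp [sg, h]

theorem li_act (i : Bool) (g : GG) : LI (act i g) := by
  cases i
  · refine ⟨1, ![sg (kj g).n, 1, 1, 1], ![40 * (kj g).m, 40 * (kj g).n, 0, 0], fun j => ?_,
      fun y j => ?_⟩
    · fin_cases j
      · exact sg_cases _
      all_goals simp
    · fin_cases j <;> simp [act, kl]
  · refine ⟨1, fun _ => 1, ![0, 0, 72 * lv g, 0], fun j => Or.inl rfl, fun y j => ?_⟩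
    fin_cases j <;> simp [act, sh]

theorem li_perm (π : Equiv.Perm (Fin 4)) (u : Fin 4 → ℤ) :
    LI fun y j => y (π j) + u j :=
  ⟨π, fun _ => 1, u, fun _ => Or.inl rfl, fun y j => by simp⟩

theorem LI.cell {α : R4 → R4} (ha : LI α) {y z : R4} (hz : z ∈ cellOf y) :
    α z ∈ cellOf (α y) := by
  obtain ⟨π, s, u, hs, h⟩ := ha
  intro j
  obtain ⟨a, b⟩ := hz (π j)
  rw [h, h, Int.floor_add_intCast, Int.ceil_add_intCast]
  rcases hs j with c | c
  · rw [c, one_mul, one_mul]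
    push_cast
    constructor <;> linarith
  · rw [c, neg_one_mul, neg_one_mul, Int.floor_neg, Int.ceil_neg]
    push_cast
    constructor <;> linarith

theorem int_iff {x : ℝ} (h0 : 0 ≤ x) (h1 : x ≤ 1) : (∃ m : ℤ, x = m) ↔ x = 0 ∨ x = 1 := by
  constructor
  · rintro ⟨m, rfl⟩
    have a : (0 : ℤ) ≤ m := by exact_mod_cast h0
    have b : m ≤ 1 := by exact_mod_cast h1
    obtain rfl | rfl : m = 0 ∨ m = 1 := by omega
    · simp
    · simp
  · rintro (rfl | rfl)
    · exact ⟨0, by simp⟩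
    · exact ⟨1, by simp⟩

/-- two cubes which are glued by a lattice isometry along a common face -/
theorem LI.face {α : R4 → R4} (ha : LI α) {v v' : Fin 4 → ℤ} {n n' : Fin 4} {p p' : Fin 3 → ℝ}
    (hp : p ∈ Icc (0 : Fin 3 → ℝ) 1) (hp' : p' ∈ Icc (0 : Fin 3 → ℝ) 1)
    (e : α (emb v n p) = emb v' n' p') :
    ∃ σ ε, L2.sym σ ε p = p' ∧ ∀ y : Fin 3 → ℝ, (∀ k, p k = 0 ∨ p k = 1 → y k = p k) →
      α (emb v n y) = emb v' n' (L2.sym σ ε y) := by
  classical
  obtain ⟨π, s, u, hs, h⟩ := ha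
  have e' : ∀ j, s j * emb v n p (π j) + u j = emb v' n' p' j := fun j => by rw [← h, e]
  -- integrality of a coordinate is preserved
  have hint : ∀ j, (∃ m : ℤ, emb v' n' p' j = m) ↔ ∃ m : ℤ, emb v n p (π j) = m := by
    intro j
    have := e' j
    rcases hs j with c | c <;> rw [c] at this
    · exact ⟨fun ⟨m, hm⟩ => ⟨m - u j, by push_cast; linarith⟩,
        fun ⟨m, hm⟩ => ⟨m + u j, by push_cast; linarith⟩⟩
    · exact ⟨fun ⟨m, hm⟩ => ⟨u j - m, by push_cast; linarith⟩,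
        fun ⟨m, hm⟩ => ⟨u j - m, by push_cast; linarith⟩⟩
  have hsucc : ∀ (w : Fin 4 → ℤ) (m : Fin 4) (q : Fin 3 → ℝ), q ∈ Icc (0 : Fin 3 → ℝ) 1 →
      ∀ k, (∃ a : ℤ, emb w m q (m.succAbove k) = a) ↔ q k = 0 ∨ q k = 1 := by
    intro w m q hq k
    rw [← int_iff (hq.1 k) (hq.2 k), emb_succ]
    exact ⟨fun ⟨a, ha⟩ => ⟨a - w (m.succAbove k), by push_cast; linarith⟩,
      fun ⟨a, ha⟩ => ⟨a + w (m.succAbove k), by push_cast; linarith⟩⟩
  -- the permutation
  let τ : Equiv.Perm (Fin 4) := π.trans (Equiv.swap (π n') n)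
  have hτ : ∀ k : Fin 3, ∃ k', n.succAbove k' = τ (n'.succAbove k) := by
    intro k
    refine Fin.exists_succAbove_eq fun hk => Fin.succAbove_ne n' k (τ.injective ?_)
    rw [hk]
    simp [τ]
  choose f hf using hτ
  have finj : Function.Injective f := fun a b hab =>
    Fin.succAbove_right_injective (τ.injective (by rw [← hf, ← hf, hab]))
  let σ : Equiv.Perm (Fin 3) := Equiv.ofBijective f (Finite.injective_iff_bijective.1 finj)
  have hσ : ∀ k, σ k = f k := fun _ => rfl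
  have hne : ∀ k, π (n'.succAbove k) ≠ n → n.succAbove (f k) = π (n'.succAbove k) := by
    intro k hk
    rw [hf]
    exact Equiv.swap_apply_of_ne_of_ne (fun c => Fin.succAbove_ne n' k (π.injective c)) hk
  have hA : ∀ k, ¬ (p' k = 0 ∨ p' k = 1) → n.succAbove (f k) = π (n'.succAbove k) := by
    intro k hk
    refine hne k fun c => hk ((hsucc v' n' p' hp' k).1 ((hint _).2 ⟨v n, ?_⟩))
    rw [c, emb_same]
  have hB : ∀ k, (p' k = 0 ∨ p' k = 1) → p (f k) = 0 ∨ p (f k) = 1 := by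
    intro k hk
    refine (hsucc v n p hp _).1 ?_
    by_cases c : π (n'.succAbove k) = n
    · have : n.succAbove (f k) = π n' := by
        rw [hf]
        change Equiv.swap (π n') n (π (n'.succAbove k)) = _
        rw [c, Equiv.swap_apply_right]
      rw [this]
      exact (hint n').1 ⟨v' n', emb_same _ _ _⟩
    · rw [hne k c]
      exact (hint _).1 ((hsucc v' n' p' hp' k).2 hk)
  let ε : Fin 3 → Bool := fun k =>
    if p' k = 0 ∨ p' k = 1 then decide (p (f k) ≠ p' k) else decide (s (n'.succAbove k) ≠ 1)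
  have hint2 : ∀ y : Fin 3 → ℝ, (∀ k, p k = 0 ∨ p k = 1 → y k = p k) →
      ∀ j, (∃ m : ℤ, emb v n p j = m) → emb v n y j = emb v n p j := by
    intro y hy j
    refine Fin.succAboveCases n ?_ (fun k => ?_) j
    · intro _
      rw [emb_same, emb_same]
    · intro hj
      rw [emb_succ, emb_succ, hy k ((hsucc v n p hp k).1 hj)]
  have symB : ∀ k, (p' k = 0 ∨ p' k = 1) → L2.sym σ ε p k = p' k := by
    intro k hk
    simp only [L2.sym, hσ, ε, if_pos hk]
    rcases hk with a | a <;> rcases hB k (by simp [a]) with b | b <;> simp [a, b]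
  have main : ∀ y : Fin 3 → ℝ, (∀ k, p k = 0 ∨ p k = 1 → y k = p k) →
      α (emb v n y) = emb v' n' (L2.sym σ ε y) := by
    intro y hy
    funext j
    refine Fin.succAboveCases n' ?_ (fun k => ?_) j
    · rw [h, hint2 y hy _ ((hint n').1 ⟨v' n', emb_same _ _ _⟩), e', emb_same, emb_same]
    · by_cases hk : p' k = 0 ∨ p' k = 1
      · rw [h, hint2 y hy _ ((hint _).1 ((hsucc v' n' p' hp' k).2 hk)), e', emb_succ, emb_succ,
          ← symB k hk]
        simp only [L2.sym, hσ, hy _ (hB k hk)]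
      · have e1 := e' (n'.succAbove k)
        rw [h, ← hA k hk, emb_succ, emb_succ]
        rw [← hA k hk, emb_succ, emb_succ] at e1
        have hk' := hk
        push Not at hk'
        have a0 : (0 : ℝ) < p' k := lt_of_le_of_ne (hp'.1 k) hk'.1.symm
        have a1 : p' k < 1 := lt_of_le_of_ne (hp'.2 k) hk'.2
        have b0 : (0 : ℝ) ≤ p (f k) := hp.1 _
        have b1 : p (f k) ≤ 1 := hp.2 _
        simp only [L2.sym, hσ, ε, if_neg hk]
        generalize v (n.succAbove (f k)) = A at e1 ⊢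
        generalize v' (n'.succAbove k) = B at e1 ⊢
        generalize u (n'.succAbove k) = C at e1 ⊢
        rcases hs (n'.succAbove k) with c | c
        · rw [c] at e1 ⊢
          have l1 : ((A + C - B : ℤ) : ℝ) < (1 : ℤ) := by push_cast; linarith
          have l2 : ((-1 : ℤ) : ℝ) < (A + C - B : ℤ) := by push_cast; linarith
          have l3 : B = A + C := by
            have := Int.cast_lt.1 l1
            have := Int.cast_lt.1 l2
            omega
          rw [l3]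
          simp
          ring
        · rw [c] at e1 ⊢
          have l1 : ((C - A - B : ℤ) : ℝ) < (2 : ℤ) := by push_cast; linarith
          have l2 : ((0 : ℤ) : ℝ) < (C - A - B : ℤ) := by push_cast; linarith
          have l3 : C = A + B + 1 := by
            have := Int.cast_lt.1 l1
            have := Int.cast_lt.1 l2
            omega
          have : (-1 : ℝ) ≠ 1 := by norm_num
          rw [l3]
          simp [this]
          ring
  exact ⟨σ, ε, emb_inj v' n' ((main p fun _ _ => rfl).symm.trans e), main⟩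

/-- the retraction to the unit cube -/
def cl (p : Fin 3 → ℝ) : Fin 3 → ℝ := (p ⊓ 1) ⊔ 0

theorem cl_mem (p : Fin 3 → ℝ) : cl p ∈ Icc (0 : Fin 3 → ℝ) 1 :=
  ⟨le_sup_right, sup_le inf_le_right zero_le_one⟩

theorem cl_eq {p : Fin 3 → ℝ} (hp : p ∈ Icc (0 : Fin 3 → ℝ) 1) : cl p = p := by
  rw [cl, inf_eq_left.2 hp.2, sup_eq_left.2 hp.1]

theorem continuous_cl : Continuous cl :=
  continuous_pi fun k => ((continuous_apply k).min continuous_const).max continuous_const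

theorem finite_cubes {K : Set R4} (hK : IsCompact K) :
    {v : Fin 4 → ℤ | ∃ n, (cube3 v n ∩ K).Nonempty}.Finite := by
  obtain ⟨R, hR⟩ := hK.isBounded.exists_norm_le
  refine (finite_Icc (fun _ => -(⌈R⌉ + 1)) fun _ => ⌈R⌉ + 1).subset ?_
  rintro v ⟨n, y, hy, hyK⟩
  have key : ∀ j, -((⌈R⌉ : ℝ) + 1) ≤ v j ∧ (v j : ℝ) ≤ ⌈R⌉ + 1 := by
    intro j
    have a := abs_le.1 ((norm_le_pi_norm y j).trans (hR y hyK))
    have b := Int.le_ceil R
    by_cases hj : j = n
    · have := hy.1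
      rw [← hj] at this
      constructor <;> linarith [a.1, a.2]
    · have := hy.2 j hj
      constructor <;> linarith [a.1, a.2, this.1, this.2]
  exact ⟨fun j => by exact_mod_cast (key j).1, fun j => by exact_mod_cast (key j).2⟩

end CubP

open CubP in
theorem TG.cubG (T : TG) (h1 : T.Api1) (_h2 : T.Api2) : T.CubG := by
  intro hc
  choose K hK hKC hcov using T.cpt
  have ZP : ∀ {i y}, y ∈ T.Zc i → y ∈ T.P i := fun h => T.C_sub _ (T.Z_sub _ h)
  let I : Type := {a : Bool × (Fin 4 → ℤ) × Fin 4 //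
    cube3 a.2.1 a.2.2 ⊆ T.Zc a.1 ∧ (cube3 a.2.1 a.2.2 ∩ K a.1).Nonempty}
  have hfin : Finite I := by
    refine Set.Finite.to_subtype (s := {a : Bool × (Fin 4 → ℤ) × Fin 4 |
      cube3 a.2.1 a.2.2 ⊆ T.Zc a.1 ∧ (cube3 a.2.1 a.2.2 ∩ K a.1).Nonempty}) ?_
    refine ((finite_univ (α := Bool)).prod
      ((finite_cubes ((hK true).union (hK false))).prod (finite_univ (α := Fin 4)))).subset ?_
    rintro ⟨i, v, n⟩ ⟨-, y, hy, hyK⟩
    refine ⟨mem_univ _, ⟨n, y, hy, ?_⟩, mem_univ _⟩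
    cases i
    · exact Or.inr hyK
    · exact Or.inl hyK
  have hZ : ∀ (a : I) {p}, p ∈ Icc (0 : Fin 3 → ℝ) 1 → emb a.1.2.1 a.1.2.2 p ∈ T.Zc a.1.1 :=
    fun a p hp => a.2.1 (emb_mem _ _ hp)
  let φ : I → (Fin 3 → ℝ) → T.Z := fun a p =>
    ⟨T.pt 1 a.1.1 (emb a.1.2.1 a.1.2.2 (cl p)), 1, a.1.1, _, hZ a (cl_mem p), rfl⟩
  have hφ : ∀ (a : I) {p}, p ∈ Icc (0 : Fin 3 → ℝ) 1 →
      T.jZ (φ a p) = T.pt 1 a.1.1 (emb a.1.2.1 a.1.2.2 p) := fun a p hp =>
    congrArg (fun q => T.pt 1 a.1.1 (emb a.1.2.1 a.1.2.2 q)) (cl_eq hp)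
  have hsm : ∀ (g : GG) (a : I) {p}, p ∈ Icc (0 : Fin 3 → ℝ) 1 →
      T.jZ (g • φ a p) = T.pt g a.1.1 (emb a.1.2.1 a.1.2.2 p) := fun g a p hp => by
    rw [T.jZ_smul, hφ a hp, T.smul_pt _ _ (ZP (hZ a hp)), mul_one]
  have jinj : Function.Injective T.jZ := Subtype.val_injective
  refine ⟨⟨I, hfin, φ, fun a => ?_, fun a p hp q hq e => ?_, fun z => ?_,
    fun g a a' p hp p' hp' e => ?_⟩⟩
  · exact (Continuous.subtype_mk ((h1.cont 1 a.1.1).comp_continuous
      ((continuous_emb _ _).comp continuous_cl) fun p => ZP (hZ a (cl_mem p))) _).continuousOn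
  · have := congrArg T.jZ e
    rw [hφ a hp, hφ a hq] at this
    exact emb_inj _ _ (h1.inj _ _ (ZP (hZ a hp)) (ZP (hZ a hq)) this)
  · obtain ⟨g, i, y, hy, e⟩ := z.2
    obtain ⟨l, hl, hy'⟩ := hcov i y (T.Z_sub i hy)
    obtain ⟨v, n, hv, hsub⟩ := hc.pure i _ (T.Z_act i l hl hy)
    obtain ⟨p, hp, hpe⟩ := exists_emb hv
    refine ⟨g * l⁻¹, ⟨(i, v, n), hsub, _, hv, hy'⟩, p, hp, jinj ?_⟩
    rw [hsm _ _ hp]
    refine Eq.trans ?_ e.symm
    change T.pt (g * l⁻¹) i (emb v n p) = _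
    rw [hpe, ← h1.pt_lam _ hl (ZP hy), inv_mul_cancel_right]
  · have e1 := congrArg T.jZ e
    rw [hsm g a hp, hφ a' hp', h1.pt_eq (ZP (hZ a hp)) (ZP (hZ a' hp'))] at e1
    suffices H : ∃ α, LI α ∧ α (emb a.1.2.1 a.1.2.2 p) = emb a'.1.2.1 a'.1.2.2 p' ∧
        ∀ y ∈ cellOf (emb a.1.2.1 a.1.2.2 p), T.Rel g a.1.1 y 1 a'.1.1 (α y) by
      obtain ⟨α, hα, e2, hr⟩ := H
      obtain ⟨σ, ε, hs, hy⟩ := hα.face hp hp' e2
      refine ⟨σ, ε, hs, fun y hy1 hy2 => jinj ?_⟩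
      rw [hsm g a hy1, hφ a' (sym_mem σ ε hy1),
        h1.pt_eq (ZP (hZ a hy1)) (ZP (hZ a' (sym_mem σ ε hy1))), ← hy y hy2]
      exact hr _ (emb_cell _ _ hp hy1 hy2)
    have z1 := hZ a hp
    have z2 := hZ a' hp'
    generalize emb a.1.2.1 a.1.2.2 p = x at e1 z1 ⊢
    generalize emb a'.1.2.1 a'.1.2.2 p' = x' at e1 z2 ⊢
    generalize a.1.1 = i at e1 z1 ⊢
    generalize a'.1.1 = i' at e1 z2 ⊢
    rcases e1 with ⟨rfl, r2, r3⟩ | ⟨e, l, hl, l', hl', rfl, rfl, r3, r4, r5⟩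
    · refine ⟨act i (g⁻¹ * 1)⁻¹, li_act _ _, by rw [r3, act_inv_act], fun y _ => ?_⟩
      exact Or.inl ⟨rfl, r2, (act_act_inv _ _ _).symm⟩
    · obtain ⟨π, u, hθ⟩ := hc.iso e
      have hS : act e.src l x ∈ T.S e :=
        ⟨T.C_act _ l hl (T.Z_sub _ z1), r3, r5 ▸ T.C_act _ l' hl' (T.Z_sub _ z2)⟩
      refine ⟨act e.tgt l'⁻¹ ∘ (fun y j => y (π j) + u j) ∘ act e.src l,
        (li_act _ _).comp ((li_perm π u).comp (li_act _ _)), ?_, fun y hy => ?_⟩
      · change act e.tgt l'⁻¹ (fun j => act e.src l x (π j) + u j) = x'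
        rw [← hθ _ hS, ← r5, act_inv_act]
      · have hS' := hc.cell e _ hS ((li_act e.src l).cell hy)
        refine Or.inr ⟨e, l, hl, l', hl', rfl, rfl, hS'.2.1, r4, ?_⟩
        rw [hθ _ hS']
        exact act_act_inv _ _ _

end Vale.Agent.P260Z.L3
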