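import Vale.Agent.P260Z.Dav.Sk
import Vale.Agent.P260Z.L2.Defs

/-!
# P260, layer 3: the group, the tree of pieces and the glued space
-/

noncomputable section

namespace Vale.Agent.P260Z.L3

open Set Topology

abbrev R4 : Type := Fin 4 → ℝ

/-- the sign of a parity -/
def sg (n : ℤ) : ℤ := ((Int.negOnePow n : ℤˣ) : ℤ)

theorem sg_add (a b : ℤ) : sg (a + b) = sg a * sg b := by simp [sg, Int.negOnePow_add]
@[simp] theorem sg_zero : sg 0 = 1 := by simp [sg]
theorem sg_neg (a : ℤ) : sg (-a) = sg a := by simp [sg]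
theorem sg_mul_self (a : ℤ) : sg a * sg a = 1 := by
  rw [← sg_neg a, sg_neg, ← sg_neg a]
  nth_rewrite 2 [sg_neg]
  rw [← sg_add]
  simp

/-- the Klein bottle group -/
@[ext] structure KJ where
  /-- the first coordinate -/
  m : ℤ
  /-- the second coordinate -/
  n : ℤ

instance : Mul KJ := ⟨fun a b => ⟨a.m + sg a.n * b.m, a.n + b.n⟩⟩
instance : One KJ := ⟨⟨0, 0⟩⟩
instance : Inv KJ := ⟨fun a => ⟨-(sg a.n * a.m), -a.n⟩⟩

@[simp] theorem KJ.mul_m (a b : KJ) : (a * b).m = a.m + sg a.n * b.m := rfl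
@[simp] theorem KJ.mul_n (a b : KJ) : (a * b).n = a.n + b.n := rfl
@[simp] theorem KJ.one_m : (1 : KJ).m = 0 := rfl
@[simp] theorem KJ.one_n : (1 : KJ).n = 0 := rfl
@[simp] theorem KJ.inv_m (a : KJ) : a⁻¹.m = -(sg a.n * a.m) := rfl
@[simp] theorem KJ.inv_n (a : KJ) : a⁻¹.n = -a.n := rfl

instance : Group KJ := Group.ofLeftAxioms
  (fun a b c => by ext <;> simp [sg_add] <;> ring)
  (fun a => by ext <;> simp)
  (fun a => by ext <;> simp [sg_neg])

/-- the fundamental group of the chamber -/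
abbrev GG : Type := Monoid.Coprod (FreeGroup Bool) KJ

/-- the translation of the tower -/
def tt : GG := Monoid.Coprod.inl (FreeGroup.of true)
/-- the plumbing letter -/
def xx : GG := Monoid.Coprod.inl (FreeGroup.of false)
/-- the Klein bottle subgroup -/
def jj : KJ →* GG := Monoid.Coprod.inr
/-- the level -/
def lvH : GG →* Multiplicative ℤ :=
  Monoid.Coprod.lift (FreeGroup.lift fun b => Multiplicative.ofAdd (if b then 1 else 0)) 1
def lv (g : GG) : ℤ := (lvH g).toAdd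
/-- the retraction to the Klein bottle group -/
def kj : GG →* KJ := Monoid.Coprod.snd

theorem lv_mul (g h : GG) : lv (g * h) = lv g + lv h := by simp [lv]
@[simp] theorem lv_one : lv 1 = 0 := by simp [lv]
theorem lv_inv (g : GG) : lv g⁻¹ = -lv g := by simp [lv]
@[simp] theorem lv_tt_zpow (n : ℤ) : lv (tt ^ n) = n := by simp [lv, lvH, tt, ← ofAdd_zsmul]
@[simp] theorem kj_jj (a : KJ) : kj (jj a) = a := by simp [kj, jj]

/-- translation along the tower -/
def sh (n : ℤ) (y : R4) : R4 := ![y 0, y 1, y 2 + 72 * n, y 3]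
/-- the action of the Klein bottle group -/
def kl (a : KJ) (y : R4) : R4 := ![sg a.n * y 0 + 40 * a.m, y 1 + 40 * a.n, y 2, y 3]

/-- the actions on the two types of pieces; `true` is the tower -/
def act : Bool → GG → R4 → R4
  | true, g => sh (lv g)
  | false, g => kl (kj g)

theorem sh_zero (y : R4) : sh 0 y = y := by
  ext j; fin_cases j <;> simp [sh]
theorem sh_add (a b : ℤ) (y : R4) : sh (a + b) y = sh a (sh b y) := by
  ext j; fin_cases j <;> simp [sh]; ring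
theorem kl_one (y : R4) : kl 1 y = y := by
  ext j; fin_cases j <;> simp [kl]
theorem kl_mul (a b : KJ) (y : R4) : kl (a * b) y = kl a (kl b y) := by
  ext j; fin_cases j <;> simp [kl, sg_add] <;> ring

@[simp] theorem act_one (i : Bool) (y : R4) : act i 1 y = y := by
  cases i <;> simp [act, sh_zero, kl_one]
theorem act_mul (i : Bool) (g h : GG) (y : R4) : act i (g * h) y = act i g (act i h y) := by
  cases i <;> simp [act, lv_mul, sh_add, kl_mul]
@[simp] theorem act_inv_act (i : Bool) (g : GG) (y : R4) : act i g⁻¹ (act i g y) = y := by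
  rw [← act_mul, inv_mul_cancel, act_one]
@[simp] theorem act_act_inv (i : Bool) (g : GG) (y : R4) : act i g (act i g⁻¹ y) = y := by
  rw [← act_mul, mul_inv_cancel, act_one]
theorem continuous_sh (n : ℤ) : Continuous (sh n) := by
  unfold sh; fun_prop
theorem continuous_kl (a : KJ) : Continuous (kl a) := by
  unfold kl; fun_prop
theorem continuous_act (i : Bool) (g : GG) : Continuous (act i g) := by
  cases i
  · exact continuous_kl _
  · exact continuous_sh _

/-- the stabilisers of the pieces -/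
def Lam : Bool → Subgroup GG
  | true => Subgroup.zpowers tt
  | false => jj.range

/-- the oriented edges -/
inductive Ed
  | A | B | K | L
  deriving DecidableEq

namespace Ed
def bar : Ed → Ed
  | A => B | B => A | K => L | L => K
def src : Ed → Bool
  | A => true | B => true | K => true | L => false
def tgt : Ed → Bool
  | A => true | B => true | K => false | L => true
/-- the letter of an edge -/
def s : Ed → GG
  | A => xx | B => xx⁻¹ | K => 1 | L => 1
@[simp] theorem bar_bar (e : Ed) : e.bar.bar = e := by cases e <;> rfl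
@[simp] theorem src_bar (e : Ed) : e.bar.src = e.tgt := by cases e <;> rfl
@[simp] theorem tgt_bar (e : Ed) : e.bar.tgt = e.src := by cases e <;> rfl
@[simp] theorem s_bar (e : Ed) : e.bar.s = e.s⁻¹ := by cases e <;> simp [bar, s]
theorem bar_ne (e : Ed) : e.bar ≠ e := by cases e <;> simp [bar]
end Ed

/-! ### addresses -/

abbrev Port : Type := GG × Ed

def val : List Port → GG
  | [] => 1
  | p :: l => p.1 * p.2.s * val l

def ty : Bool → List Port → Bool
  | i, [] => i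
  | _, p :: l => ty p.2.tgt l

/-- reduced addresses -/
def Red : Bool → List Port → Prop
  | _, [] => True
  | i, p :: l => p.2.src = i ∧ p.1 ∈ Lam i ∧ Red p.2.tgt l ∧ l.head? ≠ some (1, p.2.bar)

/-- addresses which do not start with a plumbing -/
def Jk (l : List Port) : Prop := Red true l ∧ ∀ p ∈ l.head?, p.2 = Ed.K

/-- the free group of the plumbings of the levels `lo ≤ j < lo + k` -/
def eta (lo : ℤ) (k : ℕ) : FreeGroup (Fin k) →* GG :=
  FreeGroup.lift fun i => tt ^ (lo + (i : ℕ)) * xx * (tt ^ (lo + (i : ℕ)))⁻¹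

/-! ### the glued space -/

/-- pieces, cores, windows and transition maps -/
structure TG where
  /-- the pieces -/
  P : Bool → Set R4
  /-- the closed cores -/
  C : Bool → Set R4
  /-- the boundary parts of the cores -/
  Zc : Bool → Set R4
  /-- open sets which cut out the windows -/
  Wo : Ed → Set R4
  /-- the transition maps -/
  θ : Ed → R4 → R4
  ne : (P true).Nonempty
  isOpen_Wo : ∀ e, IsOpen (Wo e)
  bdd : ∀ e, Bornology.IsBounded (P e.src ∩ Wo e)
  lc : ∀ i, IsLocallyClosed (P i)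
  closed_C : ∀ i, IsClosed (C i)
  closed_Z : ∀ i, IsClosed (Zc i)
  C_sub : ∀ i, C i ⊆ P i
  Z_sub : ∀ i, Zc i ⊆ C i
  P_act : ∀ i, ∀ l ∈ Lam i, MapsTo (act i l) (P i) (P i)
  C_act : ∀ i, ∀ l ∈ Lam i, MapsTo (act i l) (C i) (C i)
  Z_act : ∀ i, ∀ l ∈ Lam i, MapsTo (act i l) (Zc i) (Zc i)
  θ_cont : ∀ e, ContinuousOn (θ e) (P e.src ∩ Wo e)
  θ_maps : ∀ e, MapsTo (θ e) (P e.src ∩ Wo e) (P e.tgt ∩ Wo e.bar)
  θ_θ : ∀ e, ∀ y ∈ P e.src ∩ Wo e, θ e.bar (θ e y) = y
  disj : ∀ e e' : Ed, ∀ l ∈ Lam e.src, ∀ y ∈ P e.src ∩ Wo e, e'.src = e.src →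
    act e.src l y ∈ Wo e' → l = 1 ∧ e' = e
  cover : ∀ i, ∀ y ∈ P i, y ∈ C i ∨ ∃ e : Ed, ∃ l ∈ Lam i, e.src = i ∧ act i l y ∈ Wo e ∧
    θ e (act i l y) ∈ C e.tgt
  sep : ∀ e : Ed, ∀ y ∈ P e.src, ∀ y' ∈ P e.tgt,
    (y, y') ∈ closure {p : R4 × R4 | p.1 ∈ P e.src ∩ Wo e ∧ p.2 = θ e p.1} → y ∈ Wo e
  cpt : ∀ i, ∃ K, IsCompact K ∧ K ⊆ C i ∧ ∀ y ∈ C i, ∃ l ∈ Lam i, act i l y ∈ K

namespace TG
variable (T : TG)

/-- the windows -/
def W (e : Ed) : Set R4 := T.P e.src ∩ T.Wo e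
/-- the overlaps of the cores -/
def S (e : Ed) : Set R4 := {y | y ∈ T.C e.src ∧ y ∈ T.Wo e ∧ T.θ e y ∈ T.C e.tgt}
/-- the boundary seen in a piece -/
def Bd (i : Bool) : Set R4 := {y | y ∈ T.Zc i ∨ ∃ e : Ed, ∃ l ∈ Lam i, e.src = i ∧
  y ∈ T.P i ∧ act i l y ∈ T.Wo e ∧ T.θ e (act i l y) ∈ T.Zc e.tgt}

def Rel (g : GG) (i : Bool) (y : R4) (g' : GG) (i' : Bool) (y' : R4) : Prop :=
  (i = i' ∧ g⁻¹ * g' ∈ Lam i ∧ y = act i (g⁻¹ * g') y') ∨
    ∃ e : Ed, ∃ l ∈ Lam i, ∃ l' ∈ Lam i', e.src = i ∧ e.tgt = i' ∧ act i l y ∈ T.Wo e ∧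
      g' * l'⁻¹ = g * l⁻¹ * e.s ∧ act i' l' y' = T.θ e (act i l y)

def Pre : Type := {a : GG × Bool × R4 // a.2.2 ∈ T.P a.2.1}

/-- the glued space -/
def X : Type := Quot fun a b : T.Pre => T.Rel a.1.1 a.1.2.1 a.1.2.2 b.1.1 b.1.2.1 b.1.2.2

def mkP (g : GG) (i : Bool) (y : T.P i) : T.X := Quot.mk _ ⟨(g, i, y.1), y.2⟩

instance : TopologicalSpace T.X :=
  ⨆ (g : GG) (i : Bool), TopologicalSpace.coinduced (T.mkP g i) inferInstance

open Classical in
/-- the point with coordinates `y` in the piece `(g, i)` -/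
def pt (g : GG) (i : Bool) (y : R4) : T.X :=
  if h : y ∈ T.P i then T.mkP g i ⟨y, h⟩ else T.mkP 1 true ⟨T.ne.some, T.ne.some_mem⟩

theorem pt_of_mem (g : GG) {i : Bool} {y : R4} (h : y ∈ T.P i) : T.pt g i y = T.mkP g i ⟨y, h⟩ :=
  dif_pos h

theorem rel_mul (h : GG) {g i y g' i' y'} (r : T.Rel g i y g' i' y') :
    T.Rel (h * g) i y (h * g') i' y' := by
  rcases r with ⟨h1, h2, h3⟩ | ⟨e, l, hl, l', hl', h1, h2, h3, h4, h5⟩
  · exact Or.inl ⟨h1, by simpa [mul_assoc] using h2, by simpa [mul_assoc] using h3⟩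
  · exact Or.inr ⟨e, l, hl, l', hl', h1, h2, h3, by simp only [mul_assoc] at h4 ⊢; rw [h4], h5⟩

instance : MulAction GG T.X where
  smul h := Quot.map (fun a => ⟨(h * a.1.1, a.1.2), a.2⟩) fun _ _ r => T.rel_mul h r
  one_smul := by
    rintro ⟨a⟩
    exact congrArg (Quot.mk _) (Subtype.ext (by simp))
  mul_smul g h := by
    rintro ⟨a⟩
    exact congrArg (Quot.mk _) (Subtype.ext (by simp [mul_assoc]))

theorem smul_pt (h g : GG) {i : Bool} {y : R4} (hy : y ∈ T.P i) :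
    h • T.pt g i y = T.pt (h * g) i y := by
  rw [T.pt_of_mem g hy, T.pt_of_mem _ hy]
  rfl

/-- coordinates in a piece -/
def crd (g : GG) (i : Bool) : T.X → R4 := Function.invFunOn (T.pt g i) (T.P i)

/-- the boundary -/
def ZX : Set T.X := {x | ∃ g i, ∃ y ∈ T.Zc i, x = T.pt g i y}

theorem smul_mem_ZX (h : GG) {x : T.X} (hx : x ∈ T.ZX) : h • x ∈ T.ZX := by
  obtain ⟨g, i, y, hy, rfl⟩ := hx
  exact ⟨h * g, i, y, hy, T.smul_pt h g (T.C_sub i (T.Z_sub i hy))⟩

/-- the boundary as a space -/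
def Z : Type := T.ZX

instance : TopologicalSpace T.Z := inferInstanceAs (TopologicalSpace T.ZX)

instance : MulAction GG T.Z where
  smul h z := ⟨h • z.1, T.smul_mem_ZX h z.2⟩
  one_smul z := Subtype.ext (one_smul GG z.1)
  mul_smul g h z := Subtype.ext (mul_smul g h z.1)

/-- the inclusion of the boundary -/
def jZ (z : T.Z) : T.X := z.1

theorem jZ_smul (g : GG) (z : T.Z) : T.jZ (g • z) = g • T.jZ z := rfl

/-- the point with coordinates `y` in the piece with address `l` -/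
def pa (i : Bool) (l : List Port) (y : R4) : T.X := T.pt (val l) (ty i l) y

/-- maps which fold a piece, with everything behind it, behind a port -/
structure Dv where
  /-- the folding maps -/
  m : Ed → R4 → R4
  /-- the regions behind the ports -/
  D : Ed → Set R4
  /-- the domains of the folding maps -/
  Hull : Ed → Set R4
  P_sub : ∀ e, T.P e.tgt ⊆ Hull e
  D_sub : ∀ e e' : Ed, ∀ l ∈ Lam e.tgt, e'.src = e.tgt → (l, e') ≠ (1, e.bar) →
    MapsTo (act e.tgt l) (D e') (Hull e)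
  cont : ∀ e, ContinuousOn (m e) (Hull e)
  inj : ∀ e, InjOn (m e) (Hull e)
  eq : ∀ e : Ed, ∀ y ∈ T.W e.bar, m e y = T.θ e.bar y
  maps : ∀ e, ∀ y ∈ Hull e, y ∉ T.W e.bar → m e y ∈ D e
  dP : ∀ e, Disjoint (D e) (T.P e.src)
  dD : ∀ e e' : Ed, ∀ l ∈ Lam e.src, ∀ y ∈ D e, e'.src = e.src → act e.src l y ∈ D e' →
    l = 1 ∧ e' = e

end TG

/-- the action of the Klein bottle subgroup on the plane -/
@[reducible] def actE : MulAction (Lam false) (ℝ × ℝ) where
  smul j u := (sg (kj j).n * u.1 + 40 * (kj j).m, u.2 + 40 * (kj j).n)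
  one_smul u := by
    change (_, _) = u
    simp
  mul_smul a b u := by
    change (_, _) = (_, _)
    refine Prod.ext ?_ ?_
    · change _ = sg (kj a).n * (sg (kj b).n * u.1 + 40 * (kj b).m) + 40 * (kj a).m
      simp [sg_add]; ring
    · change _ = u.2 + 40 * (kj b).n + 40 * (kj a).n
      simp; ring

/-- a half space chart of `P` at `b`, with boundary `B` -/
def HSat (P B : Set R4) (b : R4) : Prop :=
  ∃ (O : Set R4) (N : Set ((Fin 3 → ℝ) × ℝ)) (φ : R4 → (Fin 3 → ℝ) × ℝ)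
    (ψ : (Fin 3 → ℝ) × ℝ → R4), IsOpen O ∧ IsOpen N ∧ b ∈ O ∧ ContinuousOn φ (P ∩ O) ∧
    ContinuousOn ψ (N ∩ L2.Hs) ∧ MapsTo φ (P ∩ O) (N ∩ L2.Hs) ∧ MapsTo ψ (N ∩ L2.Hs) (P ∩ O) ∧
    (∀ y ∈ P ∩ O, ψ (φ y) = y) ∧ (∀ v ∈ N ∩ L2.Hs, φ (ψ v) = v) ∧
    ∀ y ∈ P ∩ O, y ∈ B ↔ (φ y).2 = 0

/-- a unit lattice cube of dimension three -/
def cube3 (v : Fin 4 → ℤ) (n : Fin 4) : Set R4 :=
  {y | y n = v n ∧ ∀ j, j ≠ n → (v j : ℝ) ≤ y j ∧ y j ≤ v j + 1}

/-- the closed lattice cell of a point -/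
def cellOf (y : R4) : Set R4 := {z | ∀ j, (⌊y j⌋ : ℝ) ≤ z j ∧ z j ≤ ⌈y j⌉}

end Vale.Agent.P260Z.L3
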