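import Vale.Agent.P260Z.L3.Sk

/-!
# P260, layer 3: the developing maps
-/

noncomputable section

namespace Vale.Agent.P260Z.L3

open Set Topology

namespace TG
variable {T : TG} (d : T.Dv)

/-- the composition of the folding maps along an address -/
def cmp : List Port → R4 → R4
  | [], y => y
  | p :: l, y => act p.2.src p.1 (d.m p.2 (cmp l y))

theorem cmp_append (l l' : List Port) (y : R4) : cmp d (l ++ l') y = cmp d l (cmp d l' y) := by
  induction l with
  | nil => rfl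
  | cons p l ih => simp only [List.cons_append, cmp, ih]

theorem theta_bar {e : Ed} {z : R4} (hz : z ∈ T.W e.bar) :
    T.θ e.bar z ∈ T.W e ∧ T.θ e (T.θ e.bar z) = z :=
  ⟨by simpa only [W, Ed.tgt_bar, Ed.bar_bar] using T.θ_maps e.bar hz,
    by simpa only [Ed.bar_bar] using T.θ_θ e.bar z hz⟩

theorem cmp_hull (l : List Port) : ∀ (p : Port) (i : Bool), Red i (p :: l) →
    MapsTo (cmp d l) (T.P (ty p.2.tgt l)) (d.Hull p.2) := by
  induction l with
  | nil => exact fun p _ _ _ hy => d.P_sub _ hy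
  | cons q l ih =>
    rintro p i ⟨-, -, h, h'⟩ y hy
    have hz := ih q _ h hy
    simp only [cmp, h.1]
    by_cases hw : cmp d l y ∈ T.W q.2.bar
    · rw [d.eq _ _ hw]
      exact d.P_sub _ (T.P_act _ _ h.2.1 (h.1 ▸ (theta_bar hw).1.1))
    · exact d.D_sub _ _ _ h.2.1 h.1 (fun e => h' (congrArg some e)) (d.maps _ _ hz hw)

theorem cmp_cont (l : List Port) : ∀ i : Bool, Red i l → ContinuousOn (cmp d l) (T.P (ty i l)) := by
  induction l with
  | nil => exact fun _ _ => continuousOn_id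
  | cons p l ih =>
    exact fun i h => (continuous_act _ _).comp_continuousOn
      ((d.cont _).comp (ih _ h.2.2.1) (cmp_hull d l p i h))

theorem pa_cons (i : Bool) (p : Port) (l : List Port) {y : R4} (hy : y ∈ T.P (ty p.2.tgt l)) :
    T.pa i (p :: l) y = (p.1 * p.2.s) • T.pa p.2.tgt l y := (T.smul_pt _ _ hy).symm

theorem cmp_out {p : Port} {l : List Port} {i : Bool} (h : Red i (p :: l)) {y : R4}
    (hy : y ∈ T.P (ty p.2.tgt l)) :
    (cmp d (p :: l) y ∈ T.P i ↔ cmp d l y ∈ T.W p.2.bar) := by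
  have hz := cmp_hull d l p i h hy
  obtain ⟨rfl, h1, -⟩ := h
  refine ⟨fun a => by_contra fun hw => disjoint_left.1 (d.dP _) (d.maps _ _ hz hw) ?_, fun hw => ?_⟩
  · simpa only [cmp, act_inv_act] using T.P_act _ _ (inv_mem h1) a
  · simp only [cmp, d.eq _ _ hw]
    exact T.P_act _ _ h1 (theta_bar hw).1.1

theorem cmp_root (h1 : T.Api1) (l : List Port) : ∀ i : Bool, Red i l → ∀ y ∈ T.P (ty i l),
    cmp d l y ∈ T.P i → T.pa i l y = T.pt 1 i (cmp d l y) := by
  induction l with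
  | nil => exact fun _ _ _ _ _ => rfl
  | cons p l ih =>
    intro i h y hy a
    have hw := (cmp_out d h hy).1 a
    have hp : cmp d l y ∈ T.P p.2.tgt := Ed.src_bar p.2 ▸ hw.1
    obtain ⟨rfl, h2, h3, -⟩ := h
    obtain ⟨b, c⟩ := theta_bar hw
    rw [pa_cons _ _ _ hy, ih _ h3 y hy hp, T.smul_pt _ _ hp, mul_one, cmp, d.eq _ _ hw,
      ← h1.pt_lam 1 h2 b.1, one_mul, ← h1.pt_edge _ b, c]

theorem cmp_inj (h1 : T.Api1) (l : List Port) : ∀ (i : Bool) (l' : List Port), Red i l → Red i l' →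
    ∀ y ∈ T.P (ty i l), ∀ y' ∈ T.P (ty i l'), cmp d l y = cmp d l' y' →
      T.pa i l y = T.pa i l' y' := by
  induction l with
  | nil => exact fun i l' _ h' y hy y' hy' e =>
      (cmp_root d h1 l' i h' y' hy' (e ▸ hy)).symm ▸ congrArg (T.pt 1 i) e
  | cons p l ih =>
    intro i l' h h' y hy y' hy' e
    by_cases a : cmp d (p :: l) y ∈ T.P i
    · rw [cmp_root d h1 _ i h y hy a, cmp_root d h1 _ i h' y' hy' (e ▸ a), e]
    cases l' with
    | nil => exact (a (e ▸ hy')).elim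
    | cons p' l' =>
      have z := cmp_hull d l p i h hy
      have z' := cmp_hull d l' p' i h' hy'
      have m := d.maps _ _ z fun hw => a ((cmp_out d h hy).2 hw)
      have m' := d.maps _ _ z' fun hw => a (e ▸ (cmp_out d h' hy').2 hw)
      obtain ⟨g, c⟩ := p
      obtain ⟨g', c'⟩ := p'
      obtain ⟨rfl, h2, h3, -⟩ := h
      obtain ⟨s, h2', h3', -⟩ := h'
      simp only [cmp, s] at e
      have e' := congrArg (act c.src g'⁻¹) e
      rw [act_inv_act, ← act_mul] at e'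
      obtain ⟨u, rfl⟩ := d.dD c c' _ (mul_mem (inv_mem h2') h2) _ m s (e' ▸ m')
      rw [u, act_one] at e'
      obtain rfl := inv_mul_eq_one.1 u
      rw [pa_cons _ _ _ hy, pa_cons _ _ _ hy', ih _ _ h3 h3' y hy y' hy' (d.inj _ z z' e')]

theorem cmp_eq (ht : Tree) (hn : Nb) (h1 : T.Api1) {i : Bool} {l l' : List Port} (h : Red i l)
    (h' : Red i l') {y y' : R4} (hy : y ∈ T.P (ty i l)) (hy' : y' ∈ T.P (ty i l'))
    (e : T.pa i l y = T.pa i l' y') : cmp d l y = cmp d l' y' := by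
  rcases (h1.pt_eq hy hy').1 e with ⟨a, b, c⟩ | ⟨e, a, ha, a', ha', s, t, w, v, u⟩
  · obtain rfl := ht.uniq i l l' h h' a b
    rw [c, inv_mul_cancel, act_one]
  rw [← s] at ha w u hy
  rw [← t] at ha' u
  have hw : act e.src a y ∈ T.W e := ⟨T.P_act _ _ ha hy, w⟩
  rcases hn i l l' e _ _ h h' s.symm t.symm (inv_mem ha) (inv_mem ha') v with ⟨b, c⟩ | ⟨b, c⟩
  · rw [inv_eq_one.1 b, act_one] at u
    rw [c, cmp_append, cmp, cmp, d.eq e y' (u ▸ Ed.src_bar e ▸ T.θ_maps e hw :), u,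
      T.θ_θ e _ hw, act_inv_act]
  · rw [inv_eq_one.1 b, act_one] at u hw
    rw [c, cmp_append, cmp, cmp, d.eq e.bar y (by rwa [Ed.bar_bar]), Ed.bar_bar, ← u, Ed.src_bar,
      act_inv_act]

theorem exists_pa (ht : Tree) (h1 : T.Api1) (i : Bool) (g : GG) (j : Bool) :
    ∃ l, Red i l ∧ ∃ f : R4 → R4, Continuous f ∧ ∀ y ∈ T.P j, f y ∈ T.P (ty i l) ∧
      T.pt g j y = T.pa i l (f y) := by
  obtain ⟨l, h, rfl, a⟩ := ht.ex i g j
  exact ⟨l, h, _, continuous_act _ _, fun y hy =>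
    ⟨T.P_act _ _ a hy, by rw [pa, ← h1.pt_lam _ a hy, mul_inv_cancel_left]⟩⟩

theorem devG (T : TG) (ht : Tree) (hn : Nb) (h1 : T.Api1) : T.DevG := by
  intro d
  have ex : ∀ i x, ∃ l, Red i l ∧ ∃ y ∈ T.P (ty i l), x = T.pa i l y := fun i x => by
    obtain ⟨g, j, y, hy, rfl⟩ := h1.surj x
    obtain ⟨l, h, f, -, hf⟩ := exists_pa ht h1 i g j
    exact ⟨l, h, _, hf y (T.C_sub j hy)⟩
  choose L hL Y hY hx using ex
  have key : ∀ i l, Red i l → ∀ y ∈ T.P (ty i l),
      cmp d (L i (T.pa i l y)) (Y i (T.pa i l y)) = cmp d l y := fun i l h y hy =>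
    cmp_eq d ht hn h1 (hL i _) h (hY i _) hy (hx i _).symm
  refine ⟨fun i x => cmp d (L i x) (Y i x), fun i => h1.cont_iff _ fun g j => ?_,
    fun i x x' e => (hx i x).trans ((cmp_inj d h1 _ i _ (hL i x) (hL i x') _ (hY i x) _ (hY i x')
      e).trans (hx i x').symm), fun i y hy => key i [] trivial y hy, fun i a ha x => ?_,
    fun i p l h y hy => ?_⟩
  · obtain ⟨l, h, f, f1, f2⟩ := exists_pa ht h1 i g j
    exact ((cmp_cont d l i h).comp f1.continuousOn fun y hy => (f2 y hy).1).congr fun y hy => by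
      simp only [(f2 y hy).2, key i l h _ (f2 y hy).1, Function.comp]
  · have h := hL i x
    have hy := hY i x
    have e := congrArg (a • ·) (hx i x)
    simp only [e]
    generalize L i x = l at h hy
    cases l with
    | nil =>
      rw [pa, T.smul_pt _ _ hy, val, ty, mul_one, ← one_mul a, h1.pt_lam 1 ha hy, one_mul]
      exact key i [] trivial _ (T.P_act _ _ ha hy)
    | cons p l =>
      rw [pa_cons _ _ _ hy, ← mul_smul, ← mul_assoc, ← pa_cons i (a * p.1, p.2) l hy,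
        key i ((a * p.1, p.2) :: l) ⟨h.1, mul_mem ha h.2.1, h.2.2⟩ _ hy]
      simp only [cmp, act_mul, h.1]
  · simp only [key _ l h.2.2.1 y hy, key i _ h y hy, cmp, h.1]
    exact ⟨cmp_hull d l p i h hy, trivial⟩

end TG

end Vale.Agent.P260Z.L3
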