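import Vale.Agent.P260Z.L3.Defs

/-!
# P260, layer 3: half space charts for monotone sets
-/

noncomputable section

namespace Vale.Agent.P260Z.L3

open Set Topology

/-- charts only depend on the sets near the point -/
theorem HSat.congr {P B P' B' W : Set R4} {b : R4} (h : HSat P B b) (hW : IsOpen W) (hb : b ∈ W)
    (hP : ∀ y ∈ W, y ∈ P' ↔ y ∈ P) (hB : ∀ y ∈ W, y ∈ P → (y ∈ B' ↔ y ∈ B)) : HSat P' B' b := by
  obtain ⟨O, N, φ, ψ, oO, oN, hO, cφ, cψ, mφ, mψ, ψφ, φψ, bd⟩ := h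
  obtain ⟨N', oN', e⟩ := continuousOn_iff'.1 cψ W hW
  have s1 : P' ∩ (O ∩ W) ⊆ P ∩ O := fun y hy => ⟨(hP y hy.2.2).1 hy.1, hy.2.1⟩
  have s2 : N ∩ N' ∩ L2.Hs ⊆ N ∩ L2.Hs := fun v hv => ⟨hv.1.1, hv.2⟩
  have s3 : ∀ v ∈ N ∩ L2.Hs, ψ v ∈ W ↔ v ∈ N' := fun v hv =>
    ⟨fun h => ((Set.ext_iff.1 e v).1 ⟨h, hv⟩).1, fun h => ((Set.ext_iff.1 e v).2 ⟨h, hv⟩).1⟩
  refine ⟨O ∩ W, N ∩ N', φ, ψ, oO.inter hW, oN.inter oN', ⟨hO, hb⟩, cφ.mono s1, cψ.mono s2,
    fun y hy => ⟨⟨(mφ (s1 hy)).1, (s3 _ (mφ (s1 hy))).1 ?_⟩, (mφ (s1 hy)).2⟩, fun v hv => ?_,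
    fun y hy => ψφ y (s1 hy), fun v hv => φψ v (s2 hv),
    fun y hy => (hB y hy.2.2 (s1 hy).1).trans (bd y (s1 hy))⟩
  · rw [ψφ y (s1 hy)]; exact hy.2.2
  · have h1 := (s3 v (s2 hv)).2 hv.1.2
    exact ⟨(hP _ h1).2 (mψ (s2 hv)).1, (mψ (s2 hv)).2, h1⟩

/-- transport along a homeomorphism of relatively open parts -/
theorem HSat.map {P B P' B' W W' : Set R4} {b : R4} {f g : R4 → R4} (h : HSat P B (f b))
    (hW : IsOpen W) (hW' : IsOpen W') (hb : b ∈ P' ∩ W') (cf : ContinuousOn f (P' ∩ W'))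
    (cg : ContinuousOn g (P ∩ W)) (mf : MapsTo f (P' ∩ W') (P ∩ W))
    (mg : MapsTo g (P ∩ W) (P' ∩ W')) (gf : ∀ y ∈ P' ∩ W', g (f y) = y)
    (fg : ∀ y ∈ P ∩ W, f (g y) = y) (hB : ∀ y ∈ P' ∩ W', y ∈ B' ↔ f y ∈ B) : HSat P' B' b := by
  obtain ⟨O, N, φ, ψ, oO, oN, hO, cφ, cψ, mφ, mψ, ψφ, φψ, bd⟩ :=
    h.congr (P' := P) (B' := B) hW (mf hb).2 (fun _ _ => Iff.rfl) fun _ _ _ => Iff.rfl
  obtain ⟨N', oN', e⟩ := continuousOn_iff'.1 cψ W hW
  obtain ⟨O', oO', e'⟩ := continuousOn_iff'.1 cf O oO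
  have s2 : N ∩ N' ∩ L2.Hs ⊆ N ∩ L2.Hs := fun v hv => ⟨hv.1.1, hv.2⟩
  have s3 : ∀ v ∈ N ∩ L2.Hs, ψ v ∈ W ↔ v ∈ N' := fun v hv =>
    ⟨fun h => ((Set.ext_iff.1 e v).1 ⟨h, hv⟩).1, fun h => ((Set.ext_iff.1 e v).2 ⟨h, hv⟩).1⟩
  have s4 : ∀ y ∈ P' ∩ W', f y ∈ O ↔ y ∈ O' := fun v hv =>
    ⟨fun h => ((Set.ext_iff.1 e' v).1 ⟨h, hv⟩).1, fun h => ((Set.ext_iff.1 e' v).2 ⟨h, hv⟩).1⟩
  have s5 : P' ∩ (W' ∩ O') ⊆ P' ∩ W' := fun y hy => ⟨hy.1, hy.2.1⟩
  have m1 : MapsTo f (P' ∩ (W' ∩ O')) (P ∩ O) := fun y hy =>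
    ⟨(mf (s5 hy)).1, (s4 y (s5 hy)).2 hy.2.2⟩
  have m2 : MapsTo ψ (N ∩ N' ∩ L2.Hs) (P ∩ W) := fun v hv =>
    ⟨(mψ (s2 hv)).1, (s3 v (s2 hv)).2 hv.1.2⟩
  refine ⟨W' ∩ O', N ∩ N', φ ∘ f, g ∘ ψ, hW'.inter oO', oN.inter oN', ⟨hb.2, (s4 b hb).1 hO⟩,
    cφ.comp (cf.mono s5) m1, cg.comp (cψ.mono s2) m2,
    fun y hy => ⟨⟨(mφ (m1 hy)).1, (s3 _ (mφ (m1 hy))).1 ?_⟩, (mφ (m1 hy)).2⟩, fun v hv => ?_,
    fun y hy => ?_, fun v hv => ?_, fun y hy => (hB y (s5 hy)).trans (bd _ (m1 hy))⟩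
  · rw [ψφ _ (m1 hy)]; exact (mf (s5 hy)).2
  · have h1 := mg (m2 hv)
    refine ⟨h1.1, h1.2, (s4 _ h1).1 ?_⟩
    show f (g (ψ v)) ∈ O
    rw [fg _ (m2 hv)]; exact (mψ (s2 hv)).2
  · show g (ψ (φ (f y))) = y
    rw [ψφ _ (m1 hy), gf y (s5 hy)]
  · show φ (f (g (ψ v))) = v
    rw [fg _ (m2 hv), φψ v (s2 hv)]

/-- a function with unit slope in the direction `v` is the last coordinate of a chart -/
theorem hsat_lam {lam : R4 → ℝ} {v : R4} (hc : Continuous lam) (hv : v 3 ≠ 0)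
    (hs : ∀ y (s : ℝ), lam (y + s • v) = lam y + s) (b : R4) :
    HSat {y | 0 ≤ lam y} {y | lam y = 0} b := by
  let pr : R4 → Fin 3 → ℝ := fun y i => y i.castSucc - y 3 / v 3 * v i.castSucc
  let up : (Fin 3 → ℝ) → R4 := fun x => ![x 0, x 1, x 2, 0]
  have cup : Continuous up := by unfold up; fun_prop
  have cpr : Continuous pr := by unfold pr; fun_prop
  have h1 : ∀ y, up (pr y) + (y 3 / v 3) • v = y := fun y => by
    ext j
    fin_cases j <;> simp [up, pr, div_mul_cancel₀ _ hv]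
  have h2 : ∀ x (s : ℝ), pr (up x + s • v) = x := fun x s => by
    ext j
    have h3 : up x 3 = 0 := rfl
    have h4 : up x j.castSucc = x j := by fin_cases j <;> rfl
    simp only [pr, Pi.add_apply, Pi.smul_apply, smul_eq_mul, h3, h4, zero_add,
      mul_div_cancel_right₀ _ hv, add_sub_cancel_right]
  have h3 : ∀ w : (Fin 3 → ℝ) × ℝ, lam (up w.1 + (w.2 - lam (up w.1)) • v) = w.2 := fun w => by
    rw [hs]; ring
  refine ⟨univ, univ, fun y => (pr y, lam y), fun w => up w.1 + (w.2 - lam (up w.1)) • v,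
    isOpen_univ, isOpen_univ, trivial, by fun_prop, by fun_prop, fun y hy => ⟨trivial, hy.1⟩,
    fun w hw => ⟨?_, trivial⟩, fun y _ => ?_, fun w _ => Prod.ext (h2 _ _) (h3 w),
    fun y _ => Iff.rfl⟩
  · show 0 ≤ lam _
    rw [h3]; exact hw.2
  · have h4 := hs (up (pr y)) (y 3 / v 3)
    rw [h1] at h4
    show up (pr y) + (lam y - lam (up (pr y))) • v = y
    rw [h4, add_sub_cancel_left, h1]

/-- interior points -/
theorem hsat_int {P B W : Set R4} {b : R4} (hW : IsOpen W) (hb : b ∈ W) (hP : W ⊆ P)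
    (hB : Disjoint W B) : HSat P B b := by
  have h := hsat_lam (lam := fun y => y 3 - b 3 + 1) (v := fun _ => 1) (by fun_prop) one_ne_zero
    (fun y s => by simp; ring) b
  refine h.congr (W := W ∩ {y | 0 < y 3 - b 3 + 1}) (hW.inter (isOpen_lt continuous_const
    (by fun_prop))) ⟨hb, by simp⟩ (fun y hy => iff_of_true (hP hy.1)
      (show 0 ≤ y 3 - b 3 + 1 from le_of_lt hy.2))
    fun y hy _ => iff_of_false (disjoint_left.1 hB hy.1) (ne_of_gt hy.2)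

/-- the vector of signs -/
def sv (ε : Fin 4 → Bool) : R4 := fun j => if ε j then 1 else -1

/-- the product order with signs -/
def Sle (ε : Fin 4 → Bool) (y z : R4) : Prop := ∀ j, if ε j then y j ≤ z j else z j ≤ y j

theorem sle_iff {ε : Fin 4 → Bool} {y z : R4} : Sle ε y z ↔ ∀ j, sv ε j * y j ≤ sv ε j * z j :=
  forall_congr' fun j => by unfold sv; split_ifs <;> simp

theorem sv_sq (ε : Fin 4 → Bool) (j : Fin 4) : sv ε j * sv ε j = 1 := by
  unfold sv; split_ifs <;> simp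

theorem sv_abs (ε : Fin 4 → Bool) (j : Fin 4) (a : ℝ) : |sv ε j * a| = |a| := by
  unfold sv; split_ifs <;> simp

theorem sle_add {ε : Fin 4 → Bool} {y z : R4} {s : ℝ} (h : dist y z ≤ s) :
    Sle ε y (z + s • sv ε) := by
  refine sle_iff.2 fun j => ?_
  have h1 : |sv ε j * (y j - z j)| ≤ s := by
    rw [sv_abs, ← Real.dist_eq]; exact (dist_le_pi_dist y z j).trans h
  have h2 := (abs_le.1 h1).2
  have h3 := sv_sq ε j
  simp only [Pi.add_apply, Pi.smul_apply, smul_eq_mul]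
  have : sv ε j * (z j + s * sv ε j) = sv ε j * z j + s * (sv ε j * sv ε j) := by ring
  rw [this, h3]
  linarith

/-- closed monotone sets are epigraphs -/
theorem exists_lam {U : Set R4} {ε : Fin 4 → Bool} (hc : IsClosed U) (hne : U.Nonempty)
    (hne' : Uᶜ.Nonempty) (hu : ∀ y ∈ U, ∀ z, Sle ε y z → z ∈ U) :
    ∃ lam : R4 → ℝ, Continuous lam ∧ (∀ y (s : ℝ), lam (y + s • sv ε) = lam y + s) ∧
      U = {y | 0 ≤ lam y} ∧ frontier U = {y | lam y = 0} := by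
  obtain ⟨y₁, h₁⟩ := hne
  obtain ⟨y₀, h₀⟩ := hne'
  let A : R4 → Set ℝ := fun y => {s | y + (-s) • sv ε ∈ U}
  have Ane : ∀ y, (A y).Nonempty := fun y =>
    ⟨-dist y₁ y, hu y₁ h₁ _ (sle_add (by rw [neg_neg]))⟩
  have Abd : ∀ y, BddAbove (A y) := fun y => ⟨dist y y₀, fun s hs => by
    by_contra h
    refine h₀ (hu _ hs _ ?_)
    have h1 := sle_iff.1 (sle_add (ε := ε) (not_le.1 h).le)
    refine sle_iff.2 fun j => ?_
    have h2 := h1 j
    simp only [Pi.add_apply, Pi.smul_apply, smul_eq_mul] at h2 ⊢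
    linarith⟩
  have Acl : ∀ y, IsClosed (A y) := fun y => hc.preimage (by fun_prop)
  have Amem : ∀ y, sSup (A y) ∈ A y := fun y => (Acl y).csSup_mem (Ane y) (Abd y)
  have lip : ∀ y z (s : ℝ), sSup (A y) + s - dist y z ≤ sSup (A (z + s • sv ε)) := fun y z s => by
    refine le_csSup (Abd _) (hu _ (Amem y) _ ?_)
    have h1 := sle_iff.1 (sle_add (ε := ε) (le_refl (dist y z)))
    refine sle_iff.2 fun j => ?_
    have h2 := h1 j
    simp only [Pi.add_apply, Pi.smul_apply, smul_eq_mul] at h2 ⊢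
    linarith
  have hs : ∀ y (s : ℝ), sSup (A (y + s • sv ε)) = sSup (A y) + s := fun y s => by
    have h1 := lip y y s
    have h2 := lip (y + s • sv ε) (y + s • sv ε) (-s)
    rw [dist_self] at h1 h2
    rw [add_assoc, ← add_smul, add_neg_cancel, zero_smul, add_zero] at h2
    linarith
  have ct : Continuous fun y => sSup (A y) := by
    refine (LipschitzWith.of_dist_le_mul (K := 1) fun y z => ?_).continuous
    have h1 := lip y z 0
    have h2 := lip z y 0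
    rw [zero_smul, add_zero, add_zero] at h1 h2
    rw [dist_comm z y] at h2
    rw [NNReal.coe_one, one_mul, Real.dist_eq, abs_le]
    constructor <;> linarith
  have eU : U = {y | 0 ≤ sSup (A y)} := by
    ext y
    constructor
    · intro hy
      exact le_csSup (Abd y) (show y + (-(0 : ℝ)) • sv ε ∈ U by simpa using hy)
    · intro (hy : 0 ≤ sSup (A y))
      refine hu _ (Amem y) _ (sle_iff.2 fun j => ?_)
      have h3 := sv_sq ε j
      simp only [Pi.add_apply, Pi.smul_apply, smul_eq_mul]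
      have : sv ε j * (y j + -sSup (A y) * sv ε j) =
          sv ε j * y j - sSup (A y) * (sv ε j * sv ε j) := by ring
      rw [this, h3]
      linarith
  refine ⟨fun y => sSup (A y), ct, hs, eU, Subset.antisymm ?_ fun y (hy : sSup (A y) = 0) => ?_⟩
  · rw [eU]
    exact (frontier_le_subset_eq continuous_const ct).trans fun y hy => Eq.symm hy
  · rw [hc.frontier_eq]
    refine ⟨by rw [eU]; exact hy.ge, fun hi => ?_⟩
    obtain ⟨r, hr, hb⟩ := Metric.mem_nhds_iff.1 (mem_interior_iff_mem_nhds.1 hi)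
    have h1 : y + (-(r / 2)) • sv ε ∈ U := hb (by
      rw [Metric.mem_ball, dist_pi_lt_iff hr]
      intro j
      rw [Real.dist_eq]
      simp only [Pi.add_apply, Pi.smul_apply, smul_eq_mul, add_sub_cancel_left]
      rw [mul_comm, sv_abs, abs_neg, abs_of_pos (half_pos hr)]
      exact half_lt_self hr)
    have h2 : r / 2 ≤ sSup (A y) := le_csSup (Abd y) h1
    linarith

/-- closed monotone sets have half space charts -/
theorem hsat_up_global {U : Set R4} {ε : Fin 4 → Bool} (hc : IsClosed U)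
    (hu : ∀ y ∈ U, ∀ z, Sle ε y z → z ∈ U) {b : R4} (hb : b ∈ U) : HSat U (frontier U) b := by
  rcases eq_empty_or_nonempty Uᶜ with e | hne
  · rw [compl_empty_iff.1 e, frontier_univ]
    exact hsat_int isOpen_univ trivial subset_rfl (disjoint_empty _)
  · obtain ⟨lam, cl, hs, e1, e2⟩ := exists_lam hc ⟨b, hb⟩ hne hu
    rw [e2, e1]
    exact hsat_lam cl (by unfold sv; split_ifs <;> simp) hs b

/-- sets which are monotone in a box have half space charts in the open box -/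
theorem hsat_up {P B : Set R4} {ε : Fin 4 → Bool} {a c b : R4} (hc : IsClosed (P ∩ Icc a c))
    (hu : ∀ y ∈ P ∩ Icc a c, ∀ z ∈ Icc a c, Sle ε y z → z ∈ P) (hb : b ∈ P)
    (ha : ∀ j, a j < b j ∧ b j < c j)
    (hB : ∀ y ∈ P, (∀ j, a j < y j ∧ y j < c j) → (y ∈ B ↔ y ∈ frontier P)) : HSat P B b := by
  let cl : R4 → R4 := fun y j => max (a j) (min (y j) (c j))
  have hac : ∀ j, a j ≤ c j := fun j => ((ha j).1.trans (ha j).2).le
  have cm : ∀ y, cl y ∈ Icc a c := fun y =>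
    ⟨fun j => le_max_left _ _, fun j => max_le (hac j) (min_le_right _ _)⟩
  have ce : ∀ y, (∀ j, a j < y j ∧ y j < c j) → cl y = y := fun y hy => funext fun j => by
    show max (a j) (min (y j) (c j)) = y j
    rw [min_eq_left (hy j).2.le, max_eq_right (hy j).1.le]
  have hW : IsOpen {y : R4 | ∀ j, a j < y j ∧ y j < c j} := by
    rw [ofPred_forall]
    exact isOpen_iInter_of_finite fun j =>
      (isOpen_lt continuous_const (continuous_apply j)).inter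
        (isOpen_lt (continuous_apply j) continuous_const)
  have e : ∀ y ∈ {y : R4 | ∀ j, a j < y j ∧ y j < c j}, y ∈ P ↔ y ∈ cl ⁻¹' (P ∩ Icc a c) :=
    fun y hy => by
      rw [mem_preimage, mem_inter_iff, and_iff_left (cm y), ce y hy]
  have h := hsat_up_global (U := cl ⁻¹' (P ∩ Icc a c)) (ε := ε) (hc.preimage (by fun_prop))
    (fun y hy z h => ⟨hu _ hy _ (cm z) fun j => by
      have := h j
      split_ifs at this ⊢
      exacts [max_le_max le_rfl (min_le_min this le_rfl),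
        max_le_max le_rfl (min_le_min this le_rfl)], cm z⟩) ((e b ha).1 hb)
  refine h.congr hW ha e fun y hy h1 => (hB y ((e y hy).2 h1) hy).trans ?_
  have e' : P ∩ {y : R4 | ∀ j, a j < y j ∧ y j < c j} =
      cl ⁻¹' (P ∩ Icc a c) ∩ {y : R4 | ∀ j, a j < y j ∧ y j < c j} :=
    Set.ext fun y => and_congr_left (e y)
  have e1 := frontier_inter_open_inter (s := P) hW
  have e2 := frontier_inter_open_inter (s := cl ⁻¹' (P ∩ Icc a c)) hW
  rw [e', e2] at e1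
  exact ⟨fun h => ((Set.ext_iff.1 e1 y).2 ⟨h, hy⟩).1, fun h => ((Set.ext_iff.1 e1 y).1 ⟨h, hy⟩).1⟩

end Vale.Agent.P260Z.L3
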