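import Vale.Agent.P260Z.L3.Sk

/-!
# P260, layer 3: the lattice expressions of the tower and of the stubs
-/

noncomputable section

namespace Vale.Agent.P260Z.L3

open Set Topology Filter

namespace Ex

/-- the negative -/
def neg : Ex → Ex
  | .atom j c s => .atom j c (!s)
  | .min a b => .max a.neg b.neg
  | .max a b => .min a.neg b.neg

theorem ev_neg (e : Ex) (y : R4) : e.neg.ev y = -e.ev y := by
  induction e with
  | atom j c s => cases s <;> simp [neg, ev]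
  | min a b ha hb => simp only [neg, ev, ha, hb, max_neg_neg]
  | max a b ha hb => simp only [neg, ev, ha, hb, min_neg_neg]

/-- an interval -/
def iv (j : Fin 4) (lo hi : ℤ) : Ex := .min (.atom j lo true) (.atom j hi false)

/-- a square -/
def sq (j : Fin 4) (c : ℤ) (k : Fin 4) (d r : ℤ) : Ex :=
  .min (iv j (c - r) (c + r)) (iv k (d - r) (d + r))

theorem ev_iv (j : Fin 4) (lo hi : ℤ) (y : R4) :
    (iv j lo hi).ev y = Min.min (y j - lo) (hi - y j) := rfl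

theorem ev_sq (j : Fin 4) (c : ℤ) (k : Fin 4) (d r : ℤ) (y : R4) :
    (sq j c k d r).ev y = r - n2 (y j - c) (y k - d) := by
  have h : ∀ (i : Fin 4) (a : ℤ), (iv i (a - r) (a + r)).ev y = r - |y i - a| := fun i a => by
    rw [ev_iv, abs_eq_max_neg, ← min_sub_sub_left, min_comm]
    push_cast
    congr 1 <;> ring
  rw [sq, ev, h, h, n2, min_sub_sub_left]

/-- the maximum of a list -/
def sup (e : Ex) : List Ex → Ex
  | [] => e
  | a :: l => .max a (sup e l)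

theorem le_sup (e : Ex) (l : List Ex) (y : R4) (t : ℝ) :
    t ≤ (sup e l).ev y ↔ t ≤ e.ev y ∨ ∃ a ∈ l, t ≤ a.ev y := by
  induction l with
  | nil => simp [sup]
  | cons a l ih => simp only [sup, ev, le_max_iff, ih, List.mem_cons, exists_eq_or_imp]; tauto

theorem lt_sup (e : Ex) (l : List Ex) (y : R4) (t : ℝ) :
    t < (sup e l).ev y ↔ t < e.ev y ∨ ∃ a ∈ l, t < a.ev y := by
  induction l with
  | nil => simp [sup]
  | cons a l ih => simp only [sup, ev, lt_max_iff, ih, List.mem_cons, exists_eq_or_imp]; tauto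

end Ex

/-- a translated box -/
def Bx.ex (k : ℤ) (c : Bx) : Ex :=
  .min (.min (.iv 0 c.x c.x') (.iv 1 c.y c.y')) (.iv 2 (c.z + 72 * k) (c.z' + 72 * k))

theorem Bx.ex_pos (k : ℤ) (c : Bx) (y : R4) : 0 < (c.ex k).ev y ↔ sh (-k) y ∈ c.op := by
  simp only [Bx.ex, Ex.ev, Ex.iv, Bx.op, sh, lt_min_iff, mem_ofPred_eq, and_assoc]
  simp only [if_true, Bool.false_eq_true, if_false, sub_pos, Matrix.cons_val_zero,
    Matrix.cons_val_one, Matrix.cons_val]
  push_cast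
  refine and_congr_right' (and_congr_right' (and_congr_right' (and_congr_right' ?_)))
  constructor <;> rintro ⟨h1, h2⟩ <;> constructor <;> linarith

theorem Bx.ex_nonneg (k : ℤ) (c : Bx) (y : R4) : 0 ≤ (c.ex k).ev y ↔ sh (-k) y ∈ c.cl := by
  simp only [Bx.ex, Ex.ev, Ex.iv, Bx.cl, sh, le_min_iff, mem_ofPred_eq, and_assoc]
  simp only [if_true, Bool.false_eq_true, if_false, sub_nonneg, Matrix.cons_val_zero,
    Matrix.cons_val_one, Matrix.cons_val]
  push_cast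
  refine and_congr_right' (and_congr_right' (and_congr_right' (and_congr_right' ?_)))
  constructor <;> rintro ⟨h1, h2⟩ <;> constructor <;> linarith

namespace Xp

/-- the tube -/
def eT : Ex := .min (.min (.iv 0 1 67) (.iv 1 1 67)) (.iv 3 1 11)

/-- the closed complement of the tower -/
def eC : Ex := .sup eT.neg (cav.map (Bx.ex 0) ++ cav.map (Bx.ex 1))

/-- the tower -/
def eU : Ex := eC.neg

/-- the closed stubs of the level `0` -/
def eS : Ex := .max (.max (.min (.sq 0 14 2 46 5) (.sq 1 34 3 6 6))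
  (.min (.sq 0 14 2 30 5) (.sq 1 34 3 6 6))) (.min (.sq 0 34 1 34 11) (.sq 2 (-6) 3 6 1))

/-- the piece of the Klein bottle side -/
def eH : Ex := .max (.sq 2 (-6) 3 6 1) (.sq 0 0 1 0 10)

/-- the thresholds of the stubs -/
def tS (j : Fin 4) (c : ℤ) : Bool :=
  (![[9, 19, 23, 45], [28, 40, 23, 45], [41, 51, 25, 35, -7, -5], [0, 12, 5, 7]] j).elem c

/-- the signs for the tower -/
def sg0 (j : Fin 4) (c : ℤ) : Bool :=
  (![[1, 37, 44, 65, 9, 23], [1, 69, 37, 44, 17, 29, 65, 28, 23],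
    [-55, 9, -1, 21, 57, 17, 81, 71, 93, 129, 41, 25, -7], [1, 0, 5]] j).elem c

/-- the signs for the complement -/
def sg1 (j : Fin 4) (c : ℤ) : Bool := if tS j c then sg0 j c else !sg0 j c

theorem ok_eU : eU.ok sg0 = true := by decide
theorem ok_eS : eS.ok sg0 = true := by decide
theorem ok_eC : eC.ok sg1 = true := by decide
theorem ok_eS' : eS.ok sg1 = true := by decide
theorem only_eU : eU.only (fun j c => !tS j c) = true := by decide
theorem only_eS : eS.only (fun j c => !(!tS j c)) = true := by decide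
theorem ok_eH : eH.ok (fun _ c => [-7, 5, -10].elem c) = true := by decide

theorem ev_eS (y : R4) : eS.ev y = max (max (min (5 - aA y) (6 - ff y))
    (min (5 - aB y) (6 - ff y))) (min (11 - rr y) (1 - gg y)) := by
  simp [eS, Ex.ev, Ex.ev_sq, aA, aB, ff, rr, gg]

theorem ev_eH (y : R4) : eH.ev y = max (1 - gg y) (10 - tH y) := by
  simp [eH, Ex.ev, Ex.ev_sq, tH, gg]

theorem eS_nonneg (y : R4) : 0 ≤ eS.ev y ↔
    (aA y ≤ 5 ∧ ff y ≤ 6) ∨ (aB y ≤ 5 ∧ ff y ≤ 6) ∨ (rr y ≤ 11 ∧ gg y ≤ 1) := by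
  simp only [ev_eS, le_max_iff, le_min_iff, sub_nonneg, or_assoc]

theorem eS_nonpos (y : R4) : eS.ev y ≤ 0 ↔
    ¬ ((aA y < 5 ∧ ff y < 6) ∨ (aB y < 5 ∧ ff y < 6) ∨ (rr y < 11 ∧ gg y < 1)) := by
  simp only [ev_eS, ← not_lt, lt_max_iff, lt_min_iff, sub_pos, or_assoc]

theorem eC_nonneg (h : Pos) {y : R4} (h1 : -15 < y 2) (h2 : y 2 < 75) : 0 ≤ eC.ev y ↔ y ∈ UC := by
  rw [h.UC_iff y h1 h2, eC, Ex.le_sup, Ex.ev_neg, neg_nonneg, ← not_lt]
  refine or_congr (not_congr ?_) ?_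
  · simp [eT, Ex.ev, Ex.iv, tubeO, and_assoc]
  · simp only [List.mem_append, List.mem_map, or_and_right, exists_or, exists_exists_and_eq_and,
      Bx.ex_nonneg, neg_zero, sh_zero, and_or_left]

theorem eC_nonpos (h : Pos) {y : R4} (h1 : -15 < y 2) (h2 : y 2 < 75) : eC.ev y ≤ 0 ↔ y ∈ UU := by
  rw [h.UU_iff y h1.le h2.le, eC, ← not_lt, Ex.lt_sup, Ex.ev_neg, neg_pos, not_or, not_lt]
  refine and_congr ?_ ?_
  · simp [eT, Ex.ev, Ex.iv, tube, and_assoc]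
  · simp only [List.mem_append, List.mem_map, or_and_right, exists_or, exists_exists_and_eq_and,
      Bx.ex_pos, neg_zero, sh_zero, not_or, not_exists, not_and, ← forall_and]

theorem eU_nonneg (h : Pos) {y : R4} (h1 : -15 < y 2) (h2 : y 2 < 75) : 0 ≤ eU.ev y ↔ y ∈ UU := by
  rw [eU, Ex.ev_neg, neg_nonneg, eC_nonpos h h1 h2]

theorem eU_nonpos (h : Pos) {y : R4} (h1 : -15 < y 2) (h2 : y 2 < 75) : eU.ev y ≤ 0 ↔ y ∈ UC := by
  rw [eU, Ex.ev_neg, neg_nonpos, eC_nonneg h h1 h2]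

/-! ### the window `-15 < Z < 63` -/

theorem le_n2_left (a b : ℝ) : |a| ≤ n2 a b := le_max_left _ _
theorem le_n2_right (a b : ℝ) : |b| ≤ n2 a b := le_max_right _ _

theorem aA_Z (y : R4) : -aA y ≤ y 2 - 46 ∧ y 2 - 46 ≤ aA y := abs_le.1 (le_n2_right _ _)
theorem aB_Z (y : R4) : -aB y ≤ y 2 - 30 ∧ y 2 - 30 ≤ aB y := abs_le.1 (le_n2_right _ _)
theorem gg_Z (y : R4) : -gg y ≤ y 2 + 6 ∧ y 2 + 6 ≤ gg y := abs_le.1 (le_n2_left _ _)

theorem exists_window (y : R4) : ∃ n : ℤ, -12 ≤ sh n y 2 ∧ sh n y 2 < 60 := by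
  refine ⟨-⌊(y 2 + 12) / 72⌋, ?_⟩
  have h1 := Int.floor_le ((y 2 + 12) / 72)
  have h2 := Int.lt_floor_add_one ((y 2 + 12) / 72)
  simp only [sh, Matrix.cons_val]
  push_cast
  constructor <;> linarith

/-- the three windows and the stubs lie in `-8 ≤ Z ≤ 53` -/
theorem sh_eq_zero {n : ℤ} {y : R4} (h1 : -15 < y 2) (h2 : y 2 < 63) (h3 : -8 ≤ sh n y 2)
    (h4 : sh n y 2 ≤ 53) : n = 0 := by
  simp only [sh, Matrix.cons_val] at h3 h4
  have h5 : (n : ℝ) < 1 := by linarith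
  have h6 : (-1 : ℝ) < n := by linarith
  have h7 : n < 1 := by exact_mod_cast h5
  have h8 : -1 < n := by exact_mod_cast h6
  omega

theorem per_iff {A : Set R4} (hA : ∀ y ∈ A, aA y ≤ 7 ∨ aB y ≤ 7 ∨ gg y ≤ 2) {y : R4}
    (h1 : -15 < y 2) (h2 : y 2 < 63) : y ∈ per A ↔ y ∈ A := by
  refine ⟨fun ⟨n, hn⟩ => ?_, fun h => ⟨0, by rwa [sh_zero]⟩⟩
  have h3 := aA_Z (sh n y)
  have h4 := aB_Z (sh n y)
  have h5 := gg_Z (sh n y)
  obtain rfl : n = 0 := sh_eq_zero h1 h2 (by rcases hA _ hn with h | h | h <;> linarith)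
    (by rcases hA _ hn with h | h | h <;> linarith)
  rwa [sh_zero] at hn

theorem sepAB (y : R4) : 16 ≤ aA y + aB y := by
  have h3 := aA_Z y
  have h4 := aB_Z y
  linarith

theorem sepAK (y : R4) : 52 ≤ aA y + gg y := by
  have h3 := aA_Z y
  have h4 := gg_Z y
  linarith

theorem sepBK (y : R4) : 36 ≤ aB y + gg y := by
  have h3 := aB_Z y
  have h4 := gg_Z y
  linarith

theorem colAB (h : Pos) {y : R4} (h1 : aA y ≤ 7 ∨ aB y ≤ 7) (h2 : ff y ≤ 7) :
    (|y 0 - 14| ≤ 7 ∧ 23 ≤ y 2 ∧ y 2 ≤ 53) ∧ (y ∈ UU ↔ ff y ≤ 5) ∧ (y ∈ UC ↔ 5 ≤ ff y) := by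
  have h3 := aA_Z y
  have h4 := aB_Z y
  have h5 : |y 0 - 14| ≤ 7 := h1.elim (le_n2_left _ _).trans (le_n2_left _ _).trans
  have h6 : 23 ≤ y 2 := by rcases h1 with h1 | h1 <;> linarith
  have h7 : y 2 ≤ 53 := by rcases h1 with h1 | h1 <;> linarith
  exact ⟨⟨h5, h6, h7⟩, h.colU y h5 h2 h6 h7⟩

theorem neckK (h : Pos) {y : R4} (h1 : rr y ≤ 11) (h2 : gg y ≤ 4) :
    (y ∈ UU ↔ 10 ≤ rr y) ∧ (y ∈ UC ↔ rr y ≤ 10) :=
  h.neck y h1 ((le_n2_left _ _).trans h2) ((le_n2_right _ _).trans h2)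

theorem PU_win {y : R4} (h1 : -15 < y 2) (h2 : y 2 < 63) : y ∈ PU ↔ y ∈ UU ∨
    (aA y ≤ 5 ∧ ff y < 6) ∨ (aB y ≤ 5 ∧ ff y < 6) ∨ (9 < rr y ∧ rr y < 11 ∧ gg y ≤ 1) := by
  rw [PU, mem_union, per_iff ?_ h1 h2, union_assoc]
  · rfl
  · rintro y ((h | h) | h)
    exacts [.inl (h.1.trans (by norm_num)), .inr (.inl (h.1.trans (by norm_num))),
      .inr (.inr (h.2.2.trans (by norm_num)))]

theorem PC_win {y : R4} (h1 : -15 < y 2) (h2 : y 2 < 63) : y ∈ PC ↔ y ∈ UC ∨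
    (((aA y ≤ 5 ∧ ff y < 6) ∨ (aB y ≤ 5 ∧ ff y < 6)) ∧ 4 < ff y) ∨
      (9 < rr y ∧ rr y < 11 ∧ gg y ≤ 1) := by
  rw [PC, mem_union, per_iff ?_ h1 h2]
  · rfl
  · rintro y (⟨h | h, -⟩ | h)
    exacts [.inl (h.1.trans (by norm_num)), .inr (.inl (h.1.trans (by norm_num))),
      .inr (.inr (h.2.2.trans (by norm_num)))]

theorem ZU_win {y : R4} (h1 : -15 < y 2) (h2 : y 2 < 63) : y ∈ ZU ↔ (y ∈ UU ∧ y ∈ UC) ∧
    ¬ ((aA y < 5 ∧ ff y < 6) ∨ (aB y < 5 ∧ ff y < 6) ∨ (9 < rr y ∧ rr y < 11 ∧ gg y < 1)) := by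
  rw [ZU, Set.mem_sdiff, per_iff ?_ h1 h2]
  · rfl
  · rintro y (h | h | h)
    exacts [.inl (h.1.le.trans (by norm_num)), .inr (.inl (h.1.le.trans (by norm_num))),
      .inr (.inr (h.2.2.le.trans (by norm_num)))]

theorem ZU_iff (h : Pos) {y : R4} (h1 : -15 < y 2) (h2 : y 2 < 63) :
    y ∈ ZU ↔ eU.ev y = 0 ∧ eS.ev y ≤ 0 := by
  have h3 := neckK h (y := y)
  rw [ZU_win h1 h2, eS_nonpos, le_antisymm_iff, eU_nonpos h h1 (by linarith),
    eU_nonneg h h1 (by linarith)]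
  grind

/-- the boundary in the two columns -/
theorem ZU_col (h : Pos) {y : R4} (h1 : aA y ≤ 7 ∨ aB y ≤ 7) (h2 : ff y ≤ 7) :
    y ∈ ZU ↔ ff y = 5 ∧ 5 ≤ aA y ∧ 5 ≤ aB y := by
  obtain ⟨⟨-, h3, h4⟩, h5, h6⟩ := colAB h h1 h2
  have := sepAK y
  have := sepBK y
  rw [ZU_win (by linarith) (by linarith), h5, h6]
  grind

/-- the boundary in the neck -/
theorem ZU_neck (h : Pos) {y : R4} (h1 : rr y ≤ 11) (h2 : gg y ≤ 4) :
    y ∈ ZU ↔ rr y = 10 ∧ 1 ≤ gg y := by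
  obtain ⟨h5, h6⟩ := neckK h h1 h2
  have h3 := gg_Z y
  have := sepAK y
  have := sepBK y
  rw [ZU_win (by linarith) (by linarith), h5, h6]
  grind

theorem aB_thA (y : R4) : aB (thA y) = ff y := by simp [aB, thA, ff]; congr 1 <;> ring
theorem ff_thA (y : R4) : ff (thA y) = aA y := by simp [aA, thA, ff]; congr 1 <;> ring
theorem aA_thB (y : R4) : aA (thB y) = ff y := by simp [aA, thB, ff]; congr 1 <;> ring
theorem ff_thB (y : R4) : ff (thB y) = aB y := by simp [aB, thB, ff]; congr 1 <;> ring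
theorem tH_toH (y : R4) : tH (toH y) = rr y := by simp [tH, toH, rr]
theorem gg_toH (y : R4) : gg (toH y) = gg y := by simp [gg, toH]
theorem rr_toU (y : R4) : rr (toU y) = tH y := by simp [tH, toU, rr]
theorem gg_toU (y : R4) : gg (toU y) = gg y := by simp [gg, toU]
theorem gg_rfl10 (y : R4) : gg (rfl10 y) = gg y := by simp [gg, rfl10, rad]

theorem n2_mul {c : ℝ} (hc : 0 ≤ c) (a b : ℝ) : n2 (c * a) (c * b) = c * n2 a b := by
  rw [n2, n2, abs_mul, abs_mul, abs_of_nonneg hc, mul_max_of_nonneg _ _ hc]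

theorem tH_rfl10 {y : R4} (h1 : 0 < tH y) (h2 : tH y ≤ 20) : tH (rfl10 y) = 20 - tH y :=
  (n2_mul (div_nonneg (sub_nonneg.2 h2) h1.le) _ _).trans (div_mul_cancel₀ _ h1.ne')

theorem continuous_n2 {f g : R4 → ℝ} (hf : Continuous f) (hg : Continuous g) :
    Continuous fun y => n2 (f y) (g y) := hf.abs.max hg.abs

theorem continuous_aA : Continuous aA := continuous_n2 (by fun_prop) (by fun_prop)
theorem continuous_aB : Continuous aB := continuous_n2 (by fun_prop) (by fun_prop)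
theorem continuous_ff : Continuous ff := continuous_n2 (by fun_prop) (by fun_prop)
theorem continuous_rr : Continuous rr := continuous_n2 (by fun_prop) (by fun_prop)
theorem continuous_gg : Continuous gg := continuous_n2 (by fun_prop) (by fun_prop)
theorem continuous_tH : Continuous tH := continuous_n2 (by fun_prop) (by fun_prop)

end Xp

end Vale.Agent.P260Z.L3
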