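import Vale.Agent.P260Z.L3.Expr

/-!
# P260, layer 3: flat half space charts for the two fillings
-/

noncomputable section

namespace Vale.Agent.P260Z.L3

open Set Topology Filter Xp

namespace Flt

theorem bd_act (T : TG) {i : Bool} {l : GG} (hl : l ∈ Lam i) {y : R4} (hy : y ∈ T.Bd i) :
    act i l y ∈ T.Bd i := by
  rcases hy with h | ⟨e, k, hk, h1, h2, h3, h4⟩
  · exact .inl (T.Z_act i l hl h)
  · have h5 : act i (k * l⁻¹) (act i l y) = act i k y := by rw [act_mul, act_inv_act]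
    exact .inr ⟨e, k * l⁻¹, mul_mem hk (inv_mem hl), h1, T.P_act i l hl h2, h5 ▸ h3, h5 ▸ h4⟩

theorem of_act (hs : Shear) (T : TG) {i : Bool} {l : GG} (hl : l ∈ Lam i) {b : R4}
    (h : HSat (T.P i) (T.Bd i) (act i l b)) : HSat (T.P i) (T.Bd i) b :=
  hs.tr _ _ _ _ univ (act i l) (act i l⁻¹) b isOpen_univ trivial trivial
    (continuous_act _ _).continuousOn (continuous_act _ _).continuousOn (mapsTo_univ _ _)
    (mapsTo_univ _ _) (fun y _ => act_inv_act i l y) (fun y _ => act_act_inv i l y)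
    (fun y _ => ⟨fun h => T.P_act i l hl h,
      fun h => act_inv_act i l y ▸ T.P_act i l⁻¹ (inv_mem hl) h⟩)
    (fun y _ _ => ⟨bd_act T hl, fun h => act_inv_act i l y ▸ bd_act T (inv_mem hl) h⟩) h

theorem act_tt (n : ℤ) : act true (tt ^ n) = sh n := by simp [act]
theorem act_jj (a : KJ) : act false (jj a) = kl a := by simp [act]

/-- reduction to the window -/
theorem of_win (hs : Shear) (T : TG) (h : ∀ b ∈ T.C true, -15 < b 2 → b 2 < 63 →
    HSat (T.P true) (T.Bd true) b) : ∀ b ∈ T.C true, HSat (T.P true) (T.Bd true) b := by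
  intro b hb
  obtain ⟨n, h1, h2⟩ := exists_window b
  have hl : tt ^ n ∈ Lam true := ⟨n, rfl⟩
  refine of_act hs T hl (h _ (T.C_act _ _ hl hb) ?_ ?_) <;> rw [act_tt] <;> linarith

theorem bd_win (T : TG) (hW : ∀ e : Ed, e.src = true → ∀ y ∈ T.Wo e, -8 ≤ y 2 ∧ y 2 ≤ 53) {y : R4}
    (h1 : -15 < y 2) (h2 : y 2 < 63) (hy : y ∈ T.P true) : y ∈ T.Bd true ↔ y ∈ T.Zc true ∨
      (y ∈ T.Wo .A ∧ T.θ .A y ∈ T.Zc true) ∨ (y ∈ T.Wo .B ∧ T.θ .B y ∈ T.Zc true) ∨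
      (y ∈ T.Wo .K ∧ T.θ .K y ∈ T.Zc false) := by
  refine or_congr_right ⟨?_, ?_⟩
  · rintro ⟨e, _, ⟨n, rfl⟩, h3, -, h4, h5⟩
    simp only [act_tt] at h4 h5
    obtain rfl : n = 0 := sh_eq_zero h1 h2 (hW e h3 _ h4).1 (hW e h3 _ h4).2
    rw [sh_zero] at h4 h5
    cases e
    exacts [.inl ⟨h4, h5⟩, .inr (.inl ⟨h4, h5⟩), .inr (.inr ⟨h4, h5⟩), by cases h3]
  · rintro (h | h | h)
    exacts [⟨.A, 1, one_mem _, rfl, hy, by rwa [act_one]⟩,
      ⟨.B, 1, one_mem _, rfl, hy, by rwa [act_one]⟩, ⟨.K, 1, one_mem _, rfl, hy, by rwa [act_one]⟩]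

theorem exists_near (x : ℝ) : ∃ m : ℤ, |x + 40 * m| ≤ 20 := by
  refine ⟨-round (x / 40), ?_⟩
  have h := abs_le.1 (abs_sub_round (x / 40))
  push_cast
  exact abs_le.2 ⟨by linarith, by linarith⟩

/-- the Klein bottle side -/
theorem klein (h : Pos) (hs : Shear) (T : TG) (hP : T.P false = PH) (hC : T.C false = CH)
    (hZ : T.Zc false = ZH) (hW : T.Wo .L = Wo0 .L)
    (hθ : ∀ y ∈ Wo0 .L, T.θ .L y ∈ T.Zc true ↔ tH y = 10 ∧ 1 ≤ gg y) :
    ∀ b ∈ T.C false, HSat (T.P false) (T.Bd false) b := by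
  suffices H : ∀ b ∈ T.C false, tH b ≤ 20 → HSat (T.P false) (T.Bd false) b by
    intro b hb
    obtain ⟨n, hn⟩ := exists_near (b 1)
    obtain ⟨m, hm⟩ := exists_near (sg n * b 0)
    have hl : jj ⟨m, n⟩ ∈ Lam false := ⟨_, rfl⟩
    refine of_act hs T hl (H _ (T.C_act _ _ hl hb) ?_)
    rw [act_jj]
    exact max_le hm hn
  intro b hb h1
  rw [hC, (h.PH_L b (by linarith)).1] at hb
  refine hs.ex eH _ _ _ b ok_eH (by rw [ev_eH]; exact le_max_of_le_left (sub_nonneg.2 hb.2)) ?_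
  filter_upwards [continuous_tH.continuousAt.eventually_lt continuousAt_const
      (show tH b < 21 by linarith),
    continuousAt_const.eventually_lt continuous_tH.continuousAt (show 9 < tH b by linarith),
    continuous_gg.continuousAt.eventually_lt continuousAt_const (show gg b < 3 / 2 by linarith)]
    with y h2 h3 h4
  obtain ⟨h5, h6⟩ := h.PH_L y (by linarith)
  have h7 : y ∈ T.P false → (y ∈ T.Bd false ↔
      y ∈ T.Zc false ∨ (y ∈ Wo0 .L ∧ T.θ .L y ∈ T.Zc true)) := fun hy => by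
    refine or_congr_right ⟨?_, fun h => ⟨.L, 1, one_mem _, rfl, hy, by rwa [act_one, hW]⟩⟩
    rintro ⟨e, _, ⟨a, rfl⟩, h8, -, h9, h10⟩
    obtain rfl : e = .L := by cases e <;> first | rfl | cases h8
    rw [act_jj] at h9 h10
    rw [hW] at h9
    obtain rfl : a = 1 := by_contra fun ha => by linarith [h.far a y ha, h9.2.1]
    rw [kl_one] at h9 h10
    exact ⟨h9, h10⟩
  refine ⟨?_, fun hy => ?_⟩
  · rw [hP, h6, ev_eH]
    grind
  · rw [h7 hy, and_congr_right (hθ y), hZ, ZH, mem_ofPred_eq, h5, ev_eH, Wo0, mem_ofPred_eq]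
    rw [hP, h6] at hy
    grind

theorem ev_or {b : R4} {f g : R4 → ℝ} (hf : Continuous f) (hg : Continuous g) {s t : ℝ}
    (h : s < f b ∨ t < g b) : ∀ᶠ y in 𝓝 b, s < f y ∨ t < g y :=
  h.elim (fun h => (continuousAt_const.eventually_lt hf.continuousAt h).mono fun _ => .inl)
    fun h => (continuousAt_const.eventually_lt hg.continuousAt h).mono fun _ => .inr

theorem ev_ne {b : R4} {f g : R4 → ℝ} (hf : Continuous f) (hg : Continuous g) {s t : ℝ}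
    (h : s < f b ∨ g b ≠ t) : ∀ᶠ y in 𝓝 b, s < f y ∨ g y ≠ t :=
  h.elim (fun h => (continuousAt_const.eventually_lt hf.continuousAt h).mono fun _ => .inl)
    fun h => (hg.continuousAt.eventually_ne h).mono fun _ => .inr

theorem ev_win {b : R4} (h1 : -15 < b 2) (h2 : b 2 < 63) : ∀ᶠ y in 𝓝 b, -15 < y 2 ∧ y 2 < 63 :=
  (continuousAt_const.eventually_lt (continuous_apply 2).continuousAt h1).and
    ((continuous_apply 2).continuousAt.eventually_lt continuousAt_const h2)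

theorem ZH_iff (h : Pos) {y : R4} (h1 : tH y ≤ 29) : y ∈ ZH ↔ 10 ≤ tH y ∧ gg y = 1 := by
  rw [ZH, mem_ofPred_eq, (h.PH_L y h1).1]
  grind

theorem ZA (h : Pos) {y : R4} (h1 : aA y ≤ 7) (h2 : ff y ≤ 7) :
    thA y ∈ ZU ↔ aA y = 5 ∧ 5 ≤ ff y := by
  have := sepAB (thA y)
  rw [ZU_col h (.inr (aB_thA y ▸ h2)) (ff_thA y ▸ h1), ff_thA, aB_thA] at *
  grind

theorem ZB (h : Pos) {y : R4} (h1 : aB y ≤ 7) (h2 : ff y ≤ 7) :
    thB y ∈ ZU ↔ aB y = 5 ∧ 5 ≤ ff y := by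
  have := sepAB (thB y)
  rw [ZU_col h (.inl (aA_thB y ▸ h2)) (ff_thB y ▸ h1), ff_thB, aA_thB] at *
  grind

/-! ### the shell -/

/-- the radial reflection -/
def rf (y : R4) : R4 :=
  ![y 0, 34 + (10 - ff y) / ff y * (y 1 - 34), y 2, 6 + (10 - ff y) / ff y * (y 3 - 6)]

theorem ff_rf {y : R4} (h1 : 4 ≤ ff y) (h2 : ff y ≤ 6) : ff (rf y) = 10 - ff y := by
  have h3 : 0 < ff y := by linarith
  refine Eq.trans ?_ ((n2_mul (div_nonneg (by linarith) h3.le) _ _).trans (div_mul_cancel₀ _ h3.ne'))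
  simp [ff, rf]

theorem rf_rf {y : R4} (h1 : 4 ≤ ff y) (h2 : ff y ≤ 6) : rf (rf y) = y := by
  have h3 : ff y ≠ 0 := by linarith
  have h4 : 10 - ff y ≠ 0 := by linarith
  rw [rf, ff_rf h1 h2]
  ext j
  fin_cases j <;> simp [rf] <;> field_simp <;> ring

theorem rf_five {y : R4} (h : ff y = 5) : rf y = y := by
  rw [rf, h]
  ext j
  fin_cases j <;> norm_num <;> rfl

theorem UU_shell {u : R4} (hu : u ∈ UU) (h1 : 14 ≤ r3 u) (h2 : r3 u ≤ 26) (h3 : 23 ≤ u 2)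
    (h4 : u 2 ≤ 53) : |u 0 - 14| ≤ 6 ∧ ff u ≤ 5 := by
  have h5 := hu.2 0
  simp only [sh_zero, cav, List.mem_cons, forall_eq_or_imp, Bx.op, mem_ofPred_eq] at h5
  obtain ⟨-, -, -, -, -, h6, h7, h8, -⟩ := h5
  obtain ⟨-, -, h9⟩ := hu.1
  push_cast at h6 h7 h8
  unfold r3 ff n2 at *
  grind

theorem psi_ZU (h : Pos) (s : Psi) {x : R4} (h1 : |x 0 - 14| ≤ 6) (h2 : ff x ≤ 6) (h3 : 23 ≤ x 2)
    (h4 : x 2 ≤ 53) : s.ψ x ∈ ZU ↔ x ∈ ZU := by
  have key : ∀ u : R4, |u 0 - 14| ≤ 6 → ff u = 5 → s.ψ u = u := fun u h5 h6 =>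
    (s.ψ_ring u h5 (by linarith) (by linarith)).trans (rf_five h6)
  obtain ⟨h5, h6, -⟩ := s.ψ_mem x h1 h2
  have h7 := abs_le.1 h1
  constructor
  · intro hu
    obtain ⟨h8, h9⟩ := UU_shell hu.1.1 (by linarith) (by linarith) (by linarith) (by linarith)
    have h10 := (h.shell _ (by linarith) (by linarith) (by linarith) (by linarith)).1 hu.1.2
    have h11 := abs_le.1 h8
    have h12 : ff (s.ψ x) = 5 := le_antisymm h9 (not_lt.1 fun e => h10 ⟨by linarith, e⟩)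
    have h13 := s.χ_ψ _ h8 (by linarith)
    rw [key _ h8 h12, s.χ_ψ x h1 h2] at h13
    exact h13.symm ▸ hu
  · intro hx
    obtain ⟨h8, h9⟩ := h.colU x (by linarith) (by linarith) h3 h4
    rwa [key x h1 (le_antisymm (h8.1 hx.1.1) (h9.1 hx.1.2))]

theorem chi_iff (s : Psi) (z : ℝ) (w : R4) :
    (w ∈ Sh ∧ |w 2 - z| < 6) ∧ n2 (s.χ w 0 - 14) (s.χ w 2 - z) = 5 ∧ 5 ≤ ff (s.χ w) ↔
      n2 (w 0 - 14) (w 2 - z) = 5 ∧ 4 < ff w ∧ ff w ≤ 5 := by
  constructor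
  · rintro ⟨⟨⟨h1, h2, h3⟩, -⟩, h4, h5⟩
    have h6 : ¬ (w 0 ≤ 34 ∧ ff w < 4) := fun e => h3 ⟨e.1, e.2.le⟩
    obtain ⟨h7, h8, h9⟩ := s.χ_mem w h1.le h2.le h6
    have h10 : |s.χ w 0 - 14| ≤ 6 := abs_le.2 ⟨by linarith, by linarith⟩
    have h11 : w = rf (s.χ w) :=
      (s.ψ_χ w h1.le h2.le h6).symm.trans (s.ψ_ring _ h10 (by linarith) h9)
    have h12 : w 0 = s.χ w 0 := congrFun h11 0
    have h13 : ff w = 10 - ff (s.χ w) := (congrArg ff h11).trans (ff_rf (by linarith) h9)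
    rw [h8, ← h12] at h4
    exact ⟨h4, not_le.1 fun e => h3 ⟨by linarith, e⟩, by linarith⟩
  · rintro ⟨h1, h2, h3⟩
    have h4 : |w 0 - 14| ≤ 5 := h1 ▸ le_n2_left _ _
    have h5 : |w 2 - z| ≤ 5 := h1 ▸ le_n2_right _ _
    have h6 := ff_rf h2.le (by linarith)
    have h7 : |rf w 0 - 14| ≤ 6 := h4.trans (by norm_num)
    have h8 := s.χ_ψ _ h7 (by linarith)
    rw [show s.ψ (rf w) = w from (s.ψ_ring _ h7 (by linarith) (by linarith)).trans
      (rf_rf h2.le (by linarith))] at h8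
    rw [h8]
    refine ⟨⟨⟨?_, ?_, fun e => by linarith [e.2]⟩, by linarith⟩, h1, by linarith⟩ <;>
      unfold r3 <;> grind

theorem chi_col (s : Psi) {z : ℝ} {w : R4} (h1 : w ∈ Sh) (h2 : |w 2 - z| < 6) :
    n2 (s.χ w 0 - 14) (s.χ w 2 - z) ≤ 6 ∧ ff (s.χ w) ≤ 6 := by
  obtain ⟨h7, h8, h9⟩ := s.χ_mem w h1.1.le h1.2.1.le fun e => h1.2.2 ⟨e.1, e.2.le⟩
  exact ⟨max_le (abs_le.2 ⟨by linarith [h1.2.1], by linarith [h1.1]⟩) (h8 ▸ h2.le), h9⟩

theorem iot_ZU (hi : Iot) (u : R4) : gam (iot u) ≠ 0 ∧ iot (iot u) ∈ ZU ↔ u ∈ ZU := by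
  rw [hi.iot_iot]
  refine and_iff_right_of_imp fun hu => ?_
  have h1 : gam u ≠ 0 := by linarith [hi.low u (.inl hu.1.2)]
  rw [hi.gam_iot u h1]
  exact inv_ne_zero h1

theorem portA (h : Pos) (s : Psi) (w : R4) :
    (w ∈ Sh ∧ |w 2 - 46| < 6) ∧ s.ψ (thA (s.χ w)) ∈ ZU ↔ aA w = 5 ∧ 4 < ff w ∧ ff w ≤ 5 := by
  refine (and_congr_right fun h1 => ?_).trans (chi_iff s 46 w)
  obtain ⟨h2, h3⟩ : aA (s.χ w) ≤ 6 ∧ _ := chi_col s h1.1 h1.2
  have h4 := aB_Z (thA (s.χ w))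
  rw [aB_thA] at h4
  rw [psi_ZU h s ((le_n2_left _ _).trans ((aB_thA _).trans_le h3)) (ff_thA _ ▸ h2) (by linarith)
    (by linarith)]
  exact ZA h (by linarith) (by linarith)

theorem portB (h : Pos) (s : Psi) (w : R4) :
    (w ∈ Sh ∧ |w 2 - 30| < 6) ∧ s.ψ (thB (s.χ w)) ∈ ZU ↔ aB w = 5 ∧ 4 < ff w ∧ ff w ≤ 5 := by
  refine (and_congr_right fun h1 => ?_).trans (chi_iff s 30 w)
  obtain ⟨h2, h3⟩ : aB (s.χ w) ≤ 6 ∧ _ := chi_col s h1.1 h1.2
  have h4 := aA_Z (thB (s.χ w))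
  rw [aA_thB] at h4
  rw [psi_ZU h s ((le_n2_left _ _).trans ((aA_thB _).trans_le h3)) (ff_thB _ ▸ h2) (by linarith)
    (by linarith)]
  exact ZB h (by linarith) (by linarith)

theorem gam_le {w : R4} (h : r3 w < 26) : gam w < 6 := by
  unfold r3 ff n2 at h
  unfold gam
  grind

theorem r3_lt {w : R4} (h : w ∈ Wo0 .K) : r3 w < 26 := by
  obtain ⟨-, h1, h2⟩ := h
  unfold rr gg n2 at *
  unfold r3 ff n2
  grind

end Flt

open Flt

theorem flat0 (h : Pos) (hs : Shear) : Flat0 := by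
  intro T hT i
  cases i
  · refine klein h hs T hT.P_f hT.C_f hT.Z_f (by rw [hT.Wo_eq]) fun y hy => ?_
    obtain ⟨h1, h2, h3⟩ := hy
    have h4 : rr (toU (rfl10 y)) = 20 - tH y :=
      (rr_toU _).trans (tH_rfl10 (by linarith) (by linarith))
    have h5 : gg (toU (rfl10 y)) = gg y := (gg_toU _).trans (gg_rfl10 y)
    rw [hT.Z_t, hT.θ_eq, th0, ZU_neck h (by linarith) (by linarith), h4, h5]
    grind
  refine of_win hs T fun b hb h1 h2 => ?_
  rw [hT.C_t] at hb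
  refine hs.ex (.max eU eS) sg0 _ _ b (by rw [Ex.ok, ok_eU, ok_eS]; rfl)
    (le_max_of_le_left ((eU_nonneg h h1 (by linarith)).2 hb)) ?_
  have cA := fun y h1 h2 => (colAB h (y := y) (.inl h1) h2).2
  have cB := fun y h1 h2 => (colAB h (y := y) (.inr h1) h2).2
  filter_upwards [ev_win h1 h2,
    ev_ne continuous_aA continuous_ff (s := 5) (t := 6) (by have := cA b; grind),
    ev_ne continuous_aB continuous_ff (s := 5) (t := 6) (by have := cB b; grind),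
    ev_or continuous_rr continuous_gg (s := 9) (t := 1) (by have := neckK h (y := b); grind)]
    with y ⟨h3, h4⟩ h5 h6 h7
  have cA := cA y
  have cB := cB y
  have cK := neckK h (y := y)
  have h8 : y ∈ T.P true ↔ 0 ≤ (Ex.max eU eS).ev y := by
    rw [hT.P_t, PU_win h3 h4, Ex.ev, le_max_iff, eU_nonneg h h3 (by linarith), eS_nonneg]
    grind
  refine ⟨h8, fun hy => ?_⟩
  have kA : y ∈ Wo0 .A ∧ thA y ∈ ZU ↔ (aA y < 6 ∧ ff y < 6) ∧ aA y = 5 ∧ 5 ≤ ff y :=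
    and_congr_right fun e => ZA h (by linarith [e.1]) (by linarith [e.2])
  have kB : y ∈ Wo0 .B ∧ thB y ∈ ZU ↔ (aB y < 6 ∧ ff y < 6) ∧ aB y = 5 ∧ 5 ≤ ff y :=
    and_congr_right fun e => ZB h (by linarith [e.1]) (by linarith [e.2])
  have kK : y ∈ Wo0 .K ∧ rfl10 (toH y) ∈ ZH ↔
      (9 < rr y ∧ rr y < 11 ∧ gg y < 3 / 2) ∧ 10 ≤ 20 - rr y ∧ gg y = 1 :=
    and_congr_right fun e => by
      have h9 := tH_rfl10 (y := toH y) (by linarith [tH_toH y, e.1]) (by linarith [tH_toH y, e.2.1])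
      rw [tH_toH] at h9
      rw [ZH_iff h (by linarith [e.1]), h9, gg_rfl10, gg_toH]
  rw [bd_win T ?_ h3 h4 hy, le_antisymm_iff, and_iff_left (h8.1 hy), Ex.ev, max_le_iff,
    eU_nonpos h h3 (by linarith), eS_nonpos, hT.Z_t, hT.Z_f, hT.Wo_eq, hT.θ_eq]
  · rw [hT.P_t, PU_win h3 h4] at hy
    refine (or_congr (ZU_win h3 h4) (or_congr kA (or_congr kB kK))).trans ?_
    have := sepAB y
    have := sepAK y
    have := sepBK y
    grind
  · rw [hT.Wo_eq]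
    intro e he y hy
    have := aA_Z y
    have := aB_Z y
    have := gg_Z y
    cases e <;> simp only [Wo0, mem_ofPred_eq, Ed.src] at hy he <;> grind

theorem flat1 (h : Pos) (hi : Iot) (hs : Shear) : Flat1 := by
  intro T s hT i
  cases i
  · refine klein h hs T hT.P_f hT.C_f hT.Z_f (by rw [hT.Wo_eq]; rfl) fun y hy => ?_
    obtain ⟨h1, h2, h3⟩ := hy
    rw [hT.Z_t, hT.θ_eq, th1, mem_ofPred_eq, iot_ZU hi,
      ZU_neck h (by linarith [rr_toU y]) (by linarith [gg_toU y]), rr_toU, gg_toU]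
  refine of_win hs T fun b hb h1 h2 => ?_
  have hW : ∀ e : Ed, e.src = true → ∀ y ∈ T.Wo e, -8 ≤ y 2 ∧ y 2 ≤ 53 := by
    rw [hT.Wo_eq]
    intro e he y hy
    have := gg_Z (iot y)
    have := hi.two y
    cases e <;> simp only [Wo1, Wo0, mem_ofPred_eq, Ed.src] at hy he <;> grind
  rw [hT.C_t] at hb
  by_cases h0 : gam b = 0
  · refine hs.int _ _ b ?_
    filter_upwards [ev_win h1 h2, hi.gam_cont.continuousAt.eventually_lt continuousAt_const
      (show gam b < 1 / 6 by rw [h0]; norm_num)] with y ⟨h3, h4⟩ h5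
    have h6 : gam y ≠ 0 → 6 < gam (iot y) := fun e => by
      rw [hi.gam_iot y e, lt_inv_comm₀ (by norm_num) ((hi.gam_nonneg y).lt_of_ne' e)]
      linarith
    have hy : y ∈ T.P true := by
      rw [hT.P_t]
      exact (em _).imp_right fun e => .inl (.inl fun e' => by
        linarith [((hi.tube_iff _).2).1 e', h6 e])
    refine ⟨hy, ?_⟩
    rw [bd_win T hW h3 h4 hy, hT.Z_t, hT.Wo_eq]
    rintro (e | ⟨e, -⟩ | ⟨e, -⟩ | ⟨e, -⟩)
    · linarith [((hi.tube_iff _).1).1 e.2.1.1.1, h6 e.1]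
    · linarith [gam_le e.2.1.2.1, h6 e.1]
    · linarith [gam_le e.2.1.2.1, h6 e.1]
    · linarith [gam_le (r3_lt e.2), h6 e.1]
  have hm : MapsTo iot {y | gam y ≠ 0} {y | gam y ≠ 0} := fun y hy => by
    rw [mem_ofPred_eq, hi.gam_iot y hy]
    exact inv_ne_zero hy
  have ho : IsOpen {y | gam y ≠ 0} := isOpen_ne_fun hi.gam_cont continuous_const
  refine hs.tr _ _ PC (iot ⁻¹' T.Bd true) _ iot iot b ho h0 (hm h0) hi.cont hi.cont hm hm
    (fun y _ => hi.iot_iot y) (fun y _ => hi.iot_iot y)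
    (fun y hy => by rw [hT.P_t]; exact or_iff_right hy)
    (fun y _ _ => by rw [mem_preimage, hi.iot_iot]) ?_
  have hb := hb.resolve_left h0
  have h0 := hm h0
  rw [← hi.two b] at h1 h2
  generalize iot b = b at *
  refine hs.ex (.max eC eS) sg1 _ _ b (by rw [Ex.ok, ok_eC, ok_eS']; rfl)
    (le_max_of_le_left ((eC_nonneg h h1 (by linarith)).2 hb)) ?_
  have cA := fun y h1 h2 => (colAB h (y := y) (.inl h1) h2).2
  have cB := fun y h1 h2 => (colAB h (y := y) (.inr h1) h2).2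
  filter_upwards [ev_win h1 h2, ho.mem_nhds h0,
    ev_or continuous_aA continuous_ff (s := 5) (t := 4) (by have := cA b; grind),
    ev_or continuous_aB continuous_ff (s := 5) (t := 4) (by have := cB b; grind),
    ev_ne continuous_gg continuous_rr (s := 1) (t := 11) (by have := neckK h (y := b); grind)]
    with y ⟨h3, h4⟩ hg h5 h6 h7
  have cA := cA y
  have cB := cB y
  have cK := neckK h (y := y)
  have h8 : y ∈ PC ↔ 0 ≤ (Ex.max eC eS).ev y := by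
    rw [PC_win h3 h4, Ex.ev, le_max_iff, eC_nonneg h h3 (by linarith), eS_nonneg]
    grind
  refine ⟨h8, fun hy => ?_⟩
  have hg' : gam (iot y) ≠ 0 := hm hg
  have kK : y ∈ Wo0 .K ∧ toH y ∈ ZH ↔
      (9 < rr y ∧ rr y < 11 ∧ gg y < 3 / 2) ∧ 10 ≤ rr y ∧ gg y = 1 :=
    and_congr_right fun e => by rw [ZH_iff h (by linarith [e.2.1, tH_toH y]), tH_toH, gg_toH]
  rw [mem_preimage, bd_win T hW (hi.two y ▸ h3) (hi.two y ▸ h4)
    (by rw [hT.P_t]; exact .inr (by rwa [hi.iot_iot])), le_antisymm_iff, and_iff_left (h8.1 hy),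
    Ex.ev, max_le_iff, eC_nonpos h h3 (by linarith), eS_nonpos, hT.Z_t, hT.Z_f, hT.Wo_eq, hT.θ_eq]
  simp only [Wo1, th1, mem_ofPred_eq, iot_ZU hi]
  simp only [hi.iot_iot, hi.two, and_iff_right hg', portA h, portB h, kK, ZU_win h3 h4]
  rw [PC_win h3 h4] at hy
  have := sepAB y
  have := sepAK y
  have := sepBK y
  grind

end Vale.Agent.P260Z.L3
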