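import Vale.Agent.P260Z.L3.Sk

/-!
# P260, layer 3: the folding maps of the plumbing edges
-/

noncomputable section

namespace Vale.Agent.P260Z.L3

open Set Topology

namespace FAB

/-- the clamp to `[a, b]` -/
def cl (a b t : ℝ) : ℝ := max a (min b t)

theorem cl_cont (a b : ℝ) : Continuous (cl a b) := by
  unfold cl; fun_prop

theorem cl_lo {a b t : ℝ} (h : t ≤ a) : cl a b t = a := max_eq_left ((min_le_right _ _).trans h)

theorem cl_hi {a b t : ℝ} (hab : a ≤ b) (h : b ≤ t) : cl a b t = b := by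
  rw [cl, min_eq_left h, max_eq_right hab]

theorem cl_mid {a b t : ℝ} (h : a ≤ t) (h' : t ≤ b) : cl a b t = t := by
  rw [cl, min_eq_right h', max_eq_right h]

theorem cl_ge (a b t : ℝ) : a ≤ cl a b t := le_max_left _ _

theorem cl_le {a b : ℝ} (hab : a ≤ b) (t : ℝ) : cl a b t ≤ b := max_le hab (min_le_left _ _)

/-- the squeeze of the line into `(-7, 7)` -/
def sq (t : ℝ) : ℝ := cl (-6) 6 t + Real.arctan (t - cl (-6) 6 t) / 2

theorem sq_cont : Continuous sq := by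
  have := cl_cont (-6) 6
  have := Real.continuous_arctan
  unfold sq; fun_prop

theorem sq_eq {t : ℝ} (h : |t| ≤ 6) : sq t = t := by
  rw [sq, cl_mid (abs_le.1 h).1 (abs_le.1 h).2]
  simp

theorem sq_lt (t : ℝ) : |sq t| < 7 := by
  have h1 := Real.arctan_lt_pi_div_two (t - cl (-6) 6 t)
  have h2 := Real.neg_pi_div_two_lt_arctan (t - cl (-6) 6 t)
  have h3 := cl_ge (-6) 6 t
  have h4 := cl_le (by norm_num : (-6 : ℝ) ≤ 6) t
  have h5 := Real.pi_lt_four
  rw [abs_lt, sq]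
  constructor <;> linarith

theorem sq_mono : StrictMono sq := by
  intro s t h
  have h1 : cl (-6) 6 s ≤ cl (-6) 6 t := max_le_max le_rfl (min_le_min le_rfl h.le)
  have h2 : s - cl (-6) 6 s ≤ t - cl (-6) 6 t := by
    simp only [cl, max_def, min_def]
    split_ifs <;> linarith
  have h3 := Real.arctan_strictMono.monotone h2
  unfold sq
  rcases h2.lt_or_eq with h4 | h4
  · linarith [Real.arctan_strictMono h4]
  · linarith

theorem sq_ge {t : ℝ} (h : 6 ≤ |t|) : 6 ≤ |sq t| := by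
  rcases le_abs.1 h with h1 | h1
  · exact le_abs.2 (Or.inl ((sq_eq (t := 6) (by norm_num)).ge.trans (sq_mono.monotone h1)))
  · have h2 := (sq_mono.monotone (by linarith : t ≤ -6)).trans (sq_eq (t := -6) (by norm_num)).le
    exact le_abs.2 (Or.inr (by linarith))

/-- the first shear -/
def tt (y : R4) : ℝ := y 3 + cl 0 20 (max (|y 1 - 34| - 6) (y 0 - 44))

/-- the second shear -/
def xx (y : R4) : ℝ := y 0 - 20 * cl 0 4 (tt y - 12)

/-- the scaling factor -/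
def mu (z : ℝ) (y : R4) : ℝ := cl (1 / 7) 1 ((43 - 6 * n2 (xx y - 14) (y 2 - z)) / 7)

/-- the fold -/
def mm (z : ℝ) (y : R4) : R4 :=
  ![14 + sq (xx y - 14), 34 + mu z y * (y 1 - 34), z + sq (y 2 - z), 6 + mu z y * (tt y - 6)]

theorem mm_cont (z : ℝ) : Continuous (mm z) := by
  have h0 := cl_cont
  have h1 := sq_cont
  have h2 : Continuous tt := by unfold tt; fun_prop
  have h3 : Continuous xx := by unfold xx; fun_prop
  have h4 : Continuous (mu z) := by unfold mu n2; fun_prop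
  unfold mm; fun_prop

theorem mu_pos (z : ℝ) (y : R4) : 0 < mu z y := lt_of_lt_of_le (by norm_num) (cl_ge _ _ _)

theorem mm_inj (z : ℝ) : Function.Injective (mm z) := by
  intro y y' h
  have h0 : xx y = xx y' := sub_left_injective (sq_mono.injective (add_left_cancel (congrFun h 0)))
  have h2 : y 2 = y' 2 := sub_left_injective (sq_mono.injective (add_left_cancel (congrFun h 2)))
  have hm : mu z y = mu z y' := by rw [mu, mu, h0, h2]
  have h1 : y 1 = y' 1 := sub_left_injective (mul_left_cancel₀ (mu_pos z y).ne'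
    ((add_left_cancel (congrFun h 1)).trans (by rw [hm])))
  have h3 : tt y = tt y' := sub_left_injective (mul_left_cancel₀ (mu_pos z y).ne'
    ((add_left_cancel (congrFun h 3)).trans (by rw [hm])))
  have h4 : y 0 = y' 0 := by
    rw [xx, xx, h3] at h0
    exact sub_left_injective h0
  have h5 : y 3 = y' 3 := by
    rw [tt, tt, h1, h4] at h3
    exact add_right_cancel h3
  ext j
  fin_cases j
  exacts [h4, h1, h2, h5]

theorem fix {y : R4} (h1 : |y 1 - 34| ≤ 6) (h0 : y 0 ≤ 44) (h3 : y 3 ≤ 12) :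
    tt y = y 3 ∧ xx y = y 0 := by
  have h : tt y = y 3 := by rw [tt, cl_lo (max_le (by linarith) (by linarith)), add_zero]
  exact ⟨h, by rw [xx, h, cl_lo (by linarith), mul_zero, sub_zero]⟩

theorem mm_eq {z : ℝ} {y : R4} (h : n2 (y 0 - 14) (y 2 - z) < 6) (h' : ff y < 6) : mm z y = y := by
  obtain ⟨a1, a2⟩ := max_lt_iff.1 h
  obtain ⟨a3, a4⟩ := max_lt_iff.1 h'
  obtain ⟨e1, e2⟩ := fix a3.le (by linarith [(abs_lt.1 a1).2]) (by linarith [(abs_lt.1 a4).2])
  have e3 : mu z y = 1 := by rw [mu, e2, cl_hi (by norm_num) (by linarith)]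
  rw [mm, e1, e2, e3, sq_eq a1.le, sq_eq a2.le]
  ext j
  fin_cases j <;> simp

/-- the column is clear -/
theorem col {y : R4} (hy : y ∈ UU) (h2 : 23 ≤ y 2) (h2' : y 2 ≤ 53) (hx : 7 ≤ xx y) :
    tt y = y 3 ∧ xx y = y 0 ∧ ff y ≤ 5 := by
  obtain ⟨⟨⟨a0, a0'⟩, ⟨a1, a1'⟩, a3, a3'⟩, hc⟩ := hy
  have c1 := hc 0 ⟨3, 65, 3, 29, 19, 57⟩ (by simp [cav])
  have c2 := hc 0 ⟨43, 65, 3, 65, 19, 57⟩ (by simp [cav])
  have c3 := hc 0 ⟨3, 65, 39, 65, 19, 57⟩ (by simp [cav])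
  rw [sh_zero] at c1 c2 c3
  simp only [Bx.op, mem_ofPred_eq, Int.cast_ofNat] at c1 c2 c3
  have far : max (|y 1 - 34| - 6) (y 0 - 44) < 20 := by
    by_contra h
    have e : tt y = y 3 + 20 := by rw [tt, cl_hi (by norm_num) (not_lt.1 h)]
    rw [xx, e, cl_hi (by norm_num) (by linarith)] at hx
    linarith
  obtain ⟨b1, b2⟩ := max_lt_iff.1 far
  have b3 := abs_lt.1 (sub_lt_iff_lt_add.1 b1)
  have b4 : 3 < y 0 := by
    have := cl_ge 0 4 (tt y - 12)
    rw [xx] at hx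
    linarith
  have z : 19 < y 2 ∧ y 2 < 57 := ⟨by linarith, by linarith⟩
  have d1 : 29 ≤ y 1 := not_lt.1 fun h => c1 ⟨⟨b4, by linarith⟩, ⟨by linarith, h⟩, z⟩
  have d2 : y 0 ≤ 43 := not_lt.1 fun h => c2 ⟨⟨h, by linarith⟩, ⟨by linarith, by linarith⟩, z⟩
  have d3 : y 1 ≤ 39 := not_lt.1 fun h => c3 ⟨⟨b4, by linarith⟩, ⟨h, by linarith⟩, z⟩
  have d4 : |y 1 - 34| ≤ 5 := abs_le.2 ⟨by linarith, by linarith⟩
  obtain ⟨e1, e2⟩ := fix (y := y) (by linarith) (by linarith) (by linarith)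
  exact ⟨e1, e2, max_le d4 (abs_le.2 ⟨by linarith, by linarith⟩)⟩

theorem core {z : ℝ} {y : R4} (hz : 30 ≤ z) (hz' : z ≤ 46) (h1 : |y 1 - 34| ≤ 35)
    (h3 : |y 3 - 6| ≤ 7) (hs : |y 2 - z| ≤ 7 → y ∈ UU)
    (hw : ¬ (n2 (y 0 - 14) (y 2 - z) < 6 ∧ ff y < 6)) :
    n2 (mu z y * (y 1 - 34)) (mu z y * (tt y - 6)) ≤ 5 ∧
      6 ≤ n2 (sq (xx y - 14)) (sq (y 2 - z)) ∧ n2 (sq (xx y - 14)) (sq (y 2 - z)) < 7 := by
  have p := mu_pos z y
  have g : 6 ≤ n2 (xx y - 14) (y 2 - z) → 6 ≤ n2 (sq (xx y - 14)) (sq (y 2 - z)) := fun h =>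
    le_max_iff.2 ((le_max_iff.1 h).imp sq_ge sq_ge)
  have e : n2 (mu z y * (y 1 - 34)) (mu z y * (tt y - 6)) = mu z y * n2 (y 1 - 34) (tt y - 6) := by
    rw [n2, n2, abs_mul, abs_mul, abs_of_pos p, mul_max_of_nonneg _ _ p.le]
  rw [e]
  refine and_assoc.1 ⟨?_, max_lt (sq_lt _) (sq_lt _)⟩
  rcases le_total (n2 (xx y - 14) (y 2 - z)) 7 with h | h
  · obtain ⟨a1, a2⟩ := max_le_iff.1 h
    have a3 := abs_le.1 a2
    obtain ⟨e1, e2, e3⟩ := col (hs a2) (by linarith) (by linarith) (by linarith [(abs_le.1 a1).1])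
    refine ⟨?_, g ?_⟩
    · rw [e1]
      exact (mul_le_of_le_one_left ((abs_nonneg _).trans (le_max_left _ _))
        (cl_le (by norm_num) _)).trans e3
    · rw [e2]
      exact not_lt.1 fun h' => hw ⟨h', by linarith⟩
  · refine ⟨?_, g (by linarith)⟩
    have a1 := cl_ge 0 20 (max (|y 1 - 34| - 6) (y 0 - 44))
    have a2 := cl_le (by norm_num : (0 : ℝ) ≤ 20) (max (|y 1 - 34| - 6) (y 0 - 44))
    have a3 := abs_le.1 h3
    have a4 : n2 (y 1 - 34) (tt y - 6) ≤ 35 :=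
      max_le h1 (abs_le.2 ⟨by rw [tt]; linarith, by rw [tt]; linarith⟩)
    rw [mu, cl_lo (by linarith)]
    linarith

/-- position of the stubs and of the regions behind the ports -/
def Sm (y : R4) : Prop := |y 1 - 34| ≤ 35 ∧ |y 3 - 6| ≤ 7 ∧ -8 ≤ y 2 ∧ y 2 ≤ 51

theorem sm_of {y : R4} (h : y ∈ StA ∪ StB ∪ StK ∨ y ∈ Dr .A ∪ Dr .B ∪ Dr .K) : Sm y := by
  simp only [StA, StB, StK, Dr, aA, aB, ff, rr, gg, n2, mem_union, mem_ofPred_eq, max_le_iff,
    max_lt_iff, abs_le, abs_lt, Sm] at h ⊢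
  rcases h with ((h | h) | h) | ((h | h) | h) <;> refine ⟨⟨?_, ?_⟩, ⟨?_, ?_⟩, ?_, ?_⟩ <;>
    casesm* _ ∧ _ <;> linarith

theorem pos {y : R4} (h : y ∈ PU ∪ per (Dr .A ∪ Dr .B ∪ Dr .K)) :
    |y 1 - 34| ≤ 35 ∧ |y 3 - 6| ≤ 7 ∧ (23 ≤ y 2 → y 2 ≤ 53 →
      y ∈ UU ∨ y ∈ StA ∪ StB ∪ StK ∨ y ∈ Dr .A ∪ Dr .B ∪ Dr .K) := by
  have k : ∀ n : ℤ, (sh n y ∈ StA ∪ StB ∪ StK ∨ sh n y ∈ Dr .A ∪ Dr .B ∪ Dr .K) →
      |y 1 - 34| ≤ 35 ∧ |y 3 - 6| ≤ 7 ∧ (23 ≤ y 2 → y 2 ≤ 53 →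
        y ∈ UU ∨ y ∈ StA ∪ StB ∪ StK ∨ y ∈ Dr .A ∪ Dr .B ∪ Dr .K) := fun n hn => by
    obtain ⟨a1, a2, a3, a4⟩ := sm_of hn
    refine ⟨a1, a2, fun b1 b2 => Or.inr ?_⟩
    change -8 ≤ y 2 + 72 * n at a3
    change y 2 + 72 * n ≤ 51 at a4
    have c1 : ((-1 : ℤ) : ℝ) < n := by push_cast; linarith
    have c2 : (n : ℝ) < (1 : ℤ) := by push_cast; linarith
    obtain rfl : n = 0 := by
      rw [Int.cast_lt] at c1 c2
      omega
    rwa [sh_zero] at hn
  rcases h with (h | ⟨n, h⟩) | ⟨n, h⟩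
  · obtain ⟨-, ⟨a1, a1'⟩, a3, a3'⟩ := h.1
    exact ⟨abs_le.2 ⟨by linarith, by linarith⟩, abs_le.2 ⟨by linarith, by linarith⟩,
      fun _ _ => Or.inl h⟩
  · exact k n (Or.inl h)
  · exact k n (Or.inr h)

end FAB

open FAB

theorem foldAB (_ : Pos) : FoldAB := by
  constructor
  · refine ⟨fun y => thB (mm 30 y), Continuous.continuousOn ?_, fun y _ y' _ h => mm_inj 30 ?_,
      fun y _ hw => congrArg thB (mm_eq hw.1 hw.2), fun y hy hw => ?_⟩
    · have := mm_cont 30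
      unfold thB; fun_prop
    · ext j
      fin_cases j
      exacts [add_right_cancel (congrFun h 1), sub_left_injective (congrFun h 0),
        sub_left_injective (congrFun h 3), add_right_cancel (congrFun h 2)]
    · obtain ⟨a1, a2, a3⟩ := pos hy.1
      have := core le_rfl (by norm_num) a1 a2 (fun h => by
        have b := abs_le.1 h
        rcases a3 (by linarith) (by linarith) with c | ((c | c) | c) | ((c | c) | c)
        · exact c
        · linarith [(abs_le.1 (max_le_iff.1 c.1).2).1]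
        · exact absurd ⟨lt_of_le_of_lt c.1 (by norm_num), c.2⟩ hw
        · linarith [(abs_le.1 (max_le_iff.1 c.2.2).1).2]
        · linarith [(abs_le.1 (max_le_iff.1 c.1).2).1]
        · exact absurd c hy.2
        · linarith [(abs_lt.1 (max_lt_iff.1 c.2.2).1).2]) hw
      simp only [Dr, aA, ff, thB, mm, mem_ofPred_eq, Matrix.cons_val]
      ring_nf at this ⊢
      exact this
  · refine ⟨fun y => thA (mm 46 y), Continuous.continuousOn ?_, fun y _ y' _ h => mm_inj 46 ?_,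
      fun y _ hw => congrArg thA (mm_eq hw.1 hw.2), fun y hy hw => ?_⟩
    · have := mm_cont 46
      unfold thA; fun_prop
    · ext j
      fin_cases j
      exacts [add_right_cancel (congrFun h 1), sub_left_injective (congrFun h 0),
        sub_left_injective (congrFun h 3), add_right_cancel (congrFun h 2)]
    · obtain ⟨a1, a2, a3⟩ := pos hy.1
      have := core (by norm_num) le_rfl a1 a2 (fun h => by
        have b := abs_le.1 h
        rcases a3 (by linarith) (by linarith) with c | ((c | c) | c) | ((c | c) | c)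
        · exact c
        · exact absurd ⟨lt_of_le_of_lt c.1 (by norm_num), c.2⟩ hw
        · linarith [(abs_le.1 (max_le_iff.1 c.1).2).2]
        · linarith [(abs_le.1 (max_le_iff.1 c.2.2).1).2]
        · exact absurd c hy.2
        · linarith [(abs_le.1 (max_le_iff.1 c.1).2).2]
        · linarith [(abs_lt.1 (max_lt_iff.1 c.2.2).1).2]) hw
      simp only [Dr, aB, ff, thA, mm, mem_ofPred_eq, Matrix.cons_val]
      ring_nf at this ⊢
      exact this

end Vale.Agent.P260Z.L3
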