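import Vale.Agent.P260Z.L3.Sk

/-!
# P260, layer 3: the folding maps of the Klein bottle edges and the folding data
-/

set_option linter.all false

noncomputable section

namespace Vale.Agent.P260Z.L3

open Set Topology

namespace FKL

theorem n2_mul {c : ℝ} (hc : 0 ≤ c) (a b : ℝ) : n2 (c * a) (c * b) = c * n2 a b := by
  rw [n2, n2, abs_mul, abs_mul, abs_of_nonneg hc, mul_max_of_nonneg _ _ hc]

theorem cont_rr : Continuous rr := by
  unfold rr n2
  fun_prop

theorem cont_tH : Continuous tH := by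
  unfold tH n2
  fun_prop

theorem gg_kl (a : KJ) (y : R4) : gg (kl a y) = gg y := rfl
theorem rr_sh (n : ℤ) (y : R4) : rr (sh n y) = rr y := rfl
theorem ff_sh (n : ℤ) (y : R4) : ff (sh n y) = ff y := rfl
theorem sh_two (n : ℤ) (y : R4) : sh n y 2 = y 2 + 72 * n := rfl

theorem int_zero {n : ℤ} (h1 : (-72 : ℝ) < 72 * n) (h2 : (72 : ℝ) * n < 72) : n = 0 := by
  have h3 : (-1 : ℝ) < n := by linarith
  have h4 : (n : ℝ) < 1 := by linarith
  have h5 : -1 < n := by exact_mod_cast h3
  have h6 : n < 1 := by exact_mod_cast h4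
  omega

theorem rr_A {y : R4} {r : ℝ} (h : aA y ≤ r) : 20 - r ≤ rr y := by
  have h1 := (abs_le.1 ((le_max_left _ _).trans h)).2
  exact le_trans (by linarith [neg_le_abs (y 0 - 34)]) (le_max_left |y 0 - 34| _)

theorem rr_B {y : R4} {r : ℝ} (h : aB y ≤ r) : 20 - r ≤ rr y := by
  have h1 := (abs_le.1 ((le_max_left _ _).trans h)).2
  exact le_trans (by linarith [neg_le_abs (y 0 - 34)]) (le_max_left |y 0 - 34| _)

/-! ### the edge `K` -/

theorem hlK (h : Pos) {y : R4} (hy : y ∈ Hl .K) :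
    gg y < 2 ∧ ((9 < tH y ∧ gg y < 3 / 2) ∨ 30 ≤ tH y) := by
  obtain ⟨(h1 | ⟨a, h1⟩) | ⟨a, h1⟩, h2⟩ := hy
  · have h3 := h1.2 1
    rw [kl_one] at h3
    exact ⟨by linarith [h1.1], Or.inl ⟨by linarith, by linarith [h1.1]⟩⟩
  · have h3 : gg y < 3 / 2 := h1.2.2
    refine ⟨by linarith, ?_⟩
    by_cases ha : a = 1
    · rw [ha, kl_one] at h1
      exact Or.inl ⟨h1.1, h3⟩
    · exact Or.inr (by linarith [h.far a y ha, h1.2.1])
  · refine ⟨h1.2.1, Or.inr ?_⟩
    have ha : a ≠ 1 := fun ha => h2 (by rwa [ha, kl_one] at h1)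
    linarith [h.far a y ha, h1.1]

theorem pos_K {t : ℝ} (ht : 0 < t) : 4 < max (20 - t) (4 + 55 / t) :=
  lt_max_of_lt_right (by have := div_pos (by norm_num : (0 : ℝ) < 55) ht; linarith)

theorem rr_mK {y : R4} (ht : 0 < tH y) : rr (mK y) = max (20 - tH y) (4 + 55 / tH y) := by
  have h := n2_mul (div_pos (lt_trans (by norm_num) (pos_K ht)) ht).le (y 0) (y 1)
  refine Eq.trans ?_ (h.trans (div_mul_cancel₀ _ ht.ne'))
  simp [rr, mK, toU, rad]

theorem anti_K {s t : ℝ} (hs : 0 < s) (h : s < t) :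
    max (20 - t) (4 + 55 / t) < max (20 - s) (4 + 55 / s) :=
  max_lt_max (by linarith) (by linarith [div_lt_div_of_pos_left (by norm_num : (0 : ℝ) < 55) hs h])

/-! ### the edge `L` -/

/-- a squeeze of the line into `(-2, 2)` -/
def sq (x : ℝ) : ℝ := (2 - 3 / (4 * max |x| (3 / 2))) / max |x| (3 / 2) * x

theorem sq_of_le {x : ℝ} (h : |x| ≤ 3 / 2) : sq x = x := by
  rw [sq, max_eq_right h]
  norm_num

theorem sq_aux {m : ℝ} (h : 3 / 2 ≤ m) : 0 < 3 / (4 * m) ∧ 3 / (4 * m) ≤ 1 / 2 :=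
  ⟨by positivity, by rw [div_le_iff₀ (by linarith)]; linarith⟩

theorem abs_sq {x : ℝ} (h : 3 / 2 ≤ |x|) : |sq x| = 2 - 3 / (4 * |x|) := by
  have h1 := sq_aux h
  have h2 : 0 < |x| := by linarith
  rw [sq, max_eq_left h, abs_mul, abs_of_pos (div_pos (by linarith) h2), div_mul_cancel₀ _ h2.ne']

theorem sq_lt (x : ℝ) : |sq x| < 2 := by
  rcases le_total |x| (3 / 2) with h | h
  · rw [sq_of_le h]
    linarith
  · rw [abs_sq h]
    linarith [(sq_aux h).1]

theorem le_sq {x : ℝ} (h : 3 / 2 ≤ |x|) : 3 / 2 ≤ |sq x| := by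
  rw [abs_sq h]
  linarith [(sq_aux h).2]

theorem sq_inj {x x' : ℝ} (h : sq x = sq x') : x = x' := by
  have h1 : ∀ x : ℝ, max |sq x| (3 / 2) = 2 - 3 / (4 * max |x| (3 / 2)) := fun x => by
    rcases le_total |x| (3 / 2) with h | h
    · rw [sq_of_le h, max_eq_right h]
      norm_num
    · rw [max_eq_left (le_sq h), max_eq_left h, abs_sq h]
  have h2 := h1 x
  rw [h, h1 x'] at h2
  have h3 := le_max_right |x| (3 / 2)
  have h4 := le_max_right |x'| (3 / 2)
  have h5 : max |x| (3 / 2) = max |x'| (3 / 2) := by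
    have h6 := (div_eq_div_iff (by linarith) (by linarith)).1 (sub_right_injective h2)
    linarith
  rw [sq, sq, h5] at h
  exact mul_left_cancel₀ (div_pos (by linarith [(sq_aux h4).2]) (by linarith)).ne' h

theorem cont_sq : Continuous sq := by
  have h : ∀ x : ℝ, 0 < max |x| (3 / 2) := fun x => lt_max_of_lt_right (by norm_num)
  unfold sq
  refine (Continuous.div (continuous_const.sub (continuous_const.div (by fun_prop) fun x => ?_))
    (by fun_prop) fun x => (h x).ne').mul continuous_id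
  exact (mul_pos (by norm_num) (h x)).ne'

/-- the gauge of the neck -/
def NN (y : R4) : ℝ := max (rr y / 10) (|y 2 + 6| / 5)
/-- the new value of the gauge -/
def ph (N : ℝ) : ℝ := max (2 - N) (99 / 100 / N)
/-- the scale -/
def cc (y : R4) : ℝ := ph (NN y) / NN y
/-- the correction of the scale -/
def cr (t : ℝ) : ℝ := (20 - max t 9) / max t 9
/-- the tower is folded into the hole -/
def mL (y : R4) : R4 := ![cc y * (y 0 - 34), cc y * (y 1 - 34),
  sq (cc y * (y 2 + 6) * cr (cc y * rr y)) - 6, 6 + sq (y 3 - 6)]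

theorem hlL {y : R4} (hy : y ∈ Hl .L) : 1 ≤ NN y ∨ y ∈ StK := by
  by_contra! h
  have h1 : rr y < 10 := by linarith [lt_of_le_of_lt (le_max_left _ _) h.1]
  have h2 := abs_lt.1 (show |y 2 + 6| < 5 by linarith [lt_of_le_of_lt (le_max_right _ _) h.1])
  have h3 := abs_lt.1 (lt_of_le_of_lt (le_max_left _ _) h1)
  have h4 := abs_lt.1 (lt_of_le_of_lt (le_max_right _ _) h1)
  have h5 : ∀ n : ℤ, gg (sh n y) < 2 → n = 0 := fun n hn => by
    have h6 := abs_lt.1 (lt_of_le_of_lt (le_max_left _ _) hn)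
    rw [sh_two] at h6
    exact int_zero (by linarith) (by linarith)
  obtain ⟨(a | ⟨n, (a | a) | a⟩) | ⟨n, (a | a) | a⟩, b⟩ := hy
  · refine a.2 0 ⟨24, 44, 24, 44, -11, -1⟩ (by simp [cav]) ?_
    rw [sh_zero]
    refine ⟨⟨?_, ?_⟩, ⟨?_, ?_⟩, ?_, ?_⟩ <;> push_cast <;> linarith
  · linarith [rr_A a.1, rr_sh n y]
  · linarith [rr_B a.1, rr_sh n y]
  · rw [h5 n (by linarith [a.2.2]), sh_zero] at a
    exact h.2 a
  · linarith [rr_A a.1, rr_sh n y]
  · linarith [rr_B a.1, rr_sh n y]
  · rw [h5 n a.2.2, sh_zero] at a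
    exact b a

theorem rr_le (y : R4) : rr y ≤ 10 * NN y := by
  have h : rr y / 10 ≤ NN y := le_max_left _ _
  linarith

theorem lt_NN {y : R4} (hy : y ∈ Hl .L) : 9 / 10 < NN y := by
  rcases hlL hy with h | h
  · linarith
  · linarith [rr_le y, h.1]

theorem ph_pos {N : ℝ} (h : 0 < N) : 0 < ph N := lt_max_of_lt_right (by positivity)

theorem ph_anti {s t : ℝ} (hs : 0 < s) (h : s < t) : ph t < ph s :=
  max_lt_max (by linarith) (div_lt_div_of_pos_left (by norm_num) hs h)

theorem ph_mid {N : ℝ} (h : 9 / 10 < N) (h' : N < 11 / 10) : ph N = 2 - N :=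
  max_eq_left (by rw [div_le_iff₀ (by linarith)]; nlinarith)

theorem ph_le {N b : ℝ} (hb : 0 < b) (h : b ≤ N) : ph N ≤ ph b :=
  h.eq_or_lt.elim (fun e => e ▸ le_rfl) fun e => (ph_anti hb e).le

theorem cc_pos {y : R4} (h : 0 < NN y) : 0 < cc y := div_pos (ph_pos h) h

theorem cc_mul {y : R4} (h : 0 < NN y) : cc y * NN y = ph (NN y) := div_mul_cancel₀ _ h.ne'

theorem t_le {y : R4} (h : 0 < NN y) : cc y * rr y ≤ 10 * ph (NN y) := by
  rw [← cc_mul h]
  nlinarith [cc_pos h, rr_le y]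

theorem tH_mL {y : R4} (h : 0 < NN y) : tH (mL y) = cc y * rr y := n2_mul (cc_pos h).le _ _

theorem gg_mL (y : R4) :
    gg (mL y) = max |sq (cc y * (y 2 + 6) * cr (cc y * rr y))| |sq (y 3 - 6)| := by
  simp [gg, n2, mL]

theorem cr_pos {y : R4} (h : 9 / 10 < NN y) : 0 < cr (cc y * rr y) := by
  have h1 := t_le (y := y) (by linarith)
  have h2 := ph_anti (by norm_num) h
  have h3 : ph (9 / 10) = 11 / 10 := by norm_num [ph]
  have h4 : max (cc y * rr y) 9 < 20 := max_lt (by linarith) (by norm_num)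
  exact div_pos (by linarith) (lt_max_of_lt_right (by norm_num))

theorem mL_inj : InjOn mL (Hl .L) := fun y hy y' hy' e => by
  have a := lt_NN hy
  have a' := lt_NN hy'
  have p : 0 < NN y := by linarith
  have p' : 0 < NN y' := by linarith
  have e0 : cc y * (y 0 - 34) = cc y' * (y' 0 - 34) := congrFun e 0
  have e1 : cc y * (y 1 - 34) = cc y' * (y' 1 - 34) := congrFun e 1
  have e2 := sq_inj (sub_left_injective (congrFun e 2))
  have e3 := sq_inj (add_left_cancel (congrFun e 3))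
  have et : cc y * rr y = cc y' * rr y' := by rw [← tH_mL p, e, tH_mL p']
  rw [et] at e2
  have e4 := mul_right_cancel₀ (cr_pos a').ne' e2
  have h1 : ∀ z, 0 < NN z → ph (NN z) = max (cc z * rr z / 10) (|cc z * (z 2 + 6)| / 5) :=
    fun z hz => by
      rw [← cc_mul hz, abs_mul, abs_of_pos (cc_pos hz), mul_div_assoc, mul_div_assoc,
        ← mul_max_of_nonneg _ _ (cc_pos hz).le]
      rfl
  have h2 : ph (NN y) = ph (NN y') := by rw [h1 y p, h1 y' p', et, e4]
  have h3 : NN y = NN y' := by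
    rcases lt_trichotomy (NN y) (NN y') with h | h | h
    exacts [absurd h2 (ph_anti p h).ne', h, absurd h2 (ph_anti p' h).ne]
  have h4 : cc y = cc y' := by rw [cc, cc, h3]
  rw [h4] at e0 e1 e4
  have c := (cc_pos p').ne'
  ext j
  fin_cases j
  exacts [sub_left_injective (mul_left_cancel₀ c e0), sub_left_injective (mul_left_cancel₀ c e1),
    add_right_cancel (mul_left_cancel₀ c e4), sub_left_injective e3]

theorem mL_cont : ContinuousOn mL (Hl .L) := by
  have h0 : ∀ y ∈ Hl .L, NN y ≠ 0 := fun y hy => (lt_trans (by norm_num) (lt_NN hy)).ne'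
  have h1 : Continuous NN := by
    have := cont_rr
    unfold NN
    fun_prop
  have h2 : ContinuousOn cc (Hl .L) :=
    ((continuous_const.sub h1).continuousOn.sup (continuousOn_const.div h1.continuousOn h0)).div
      h1.continuousOn h0
  have h3 : Continuous cr := Continuous.div (by fun_prop) (by fun_prop) fun t =>
    (lt_max_of_lt_right (by norm_num)).ne'
  have h4 : ∀ j, ContinuousOn (fun y : R4 => y j) (Hl .L) := fun j =>
    (continuous_apply j).continuousOn
  refine continuousOn_pi.2 fun j => ?_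
  fin_cases j
  · exact h2.mul ((h4 0).sub continuousOn_const)
  · exact h2.mul ((h4 1).sub continuousOn_const)
  · exact (cont_sq.comp_continuousOn ((h2.mul ((h4 2).add continuousOn_const)).mul
      (h3.comp_continuousOn (h2.mul cont_rr.continuousOn)))).sub continuousOn_const
  · exact continuousOn_const.add (cont_sq.comp_continuousOn ((h4 3).sub continuousOn_const))

theorem mL_eq {y : R4} (h : y ∈ Wo0 .K) : mL y = th0 .K y := by
  obtain ⟨h1, h2, h3⟩ := h
  have h4 : |y 2 + 6| < 3 / 2 := lt_of_le_of_lt (le_max_left _ _) h3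
  have h5 : |y 3 - 6| < 3 / 2 := lt_of_le_of_lt (le_max_right _ _) h3
  have h6 : NN y = rr y / 10 := max_eq_left (by linarith)
  have h0 : rr y ≠ 0 := by linarith
  have h7 : cc y = (20 - rr y) / rr y := by
    rw [cc, ph_mid (by linarith) (by linarith), h6]
    field_simp
    ring
  have h8 : cc y * rr y = 20 - rr y := by rw [h7, div_mul_cancel₀ _ h0]
  have h9 : cc y * (y 2 + 6) * cr (cc y * rr y) = y 2 + 6 := by
    have : 20 - rr y ≠ 0 := by linarith
    rw [h8, h7, cr, max_eq_left (by linarith)]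
    field_simp
    ring
  rw [mL, h9, sq_of_le h4.le, sq_of_le h5.le, h7, add_sub_cancel_right, add_sub_cancel]
  rfl

theorem mL_maps {y : R4} (hy : y ∈ Hl .L) (h : y ∉ Wo0 .K) : mL y ∈ Dr .L := by
  have a : 1 ≤ NN y := (hlL hy).resolve_right fun b => h ⟨b.1, b.2.1, by linarith [b.2.2]⟩
  have p : 0 < NN y := by linarith
  have h1 := t_le p
  have h2 := ph_le one_pos a
  have h3 : ph 1 = 1 := by norm_num [ph]
  refine ⟨by rw [tH_mL p]; linarith, by rw [gg_mL]; exact max_lt (sq_lt _) (sq_lt _), ?_⟩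
  rw [tH_mL p, gg_mL]
  rintro ⟨b1, b2⟩
  have h4 : NN y < 11 / 10 := by
    by_contra! h4
    have h5 := ph_le (by norm_num) h4
    have h6 : ph (11 / 10) = 9 / 10 := by norm_num [ph]
    linarith
  have h5 := cc_mul p
  rw [ph_mid (by linarith) h4] at h5
  have c := cc_pos p
  have r := rr_le y
  have r0 : 0 < rr y := by
    by_contra! r0
    nlinarith
  have h6 : cc y ≤ 1 := by nlinarith
  refine h ⟨by nlinarith, by linarith, max_lt ?_ ?_⟩
  · by_contra! h7
    refine absurd (lt_of_le_of_lt (le_max_left _ _) b2) (not_lt.2 (le_sq ?_))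
    have h8 : 1 ≤ cc y * cr (cc y * rr y) := by
      rw [cr, max_eq_left b1.le, ← mul_div_assoc, mul_div_mul_left _ _ c.ne', le_div_iff₀ r0]
      have h9 : (cc y + 1) * rr y ≤ (cc y + 1) * (10 * NN y) :=
        mul_le_mul_of_nonneg_left r (by linarith)
      nlinarith
    rw [mul_right_comm, abs_mul, abs_of_pos (by linarith : 0 < cc y * cr (cc y * rr y))]
    nlinarith
  · by_contra! h7
    exact absurd (lt_of_le_of_lt (le_max_right _ _) b2) (not_lt.2 (le_sq h7))

/-! ### positions of the regions behind the ports -/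

/-- the pieces -/
def PP0 : Bool → Set R4
  | true => PU
  | false => PH

theorem dP (h : Pos) (e : Ed) : Disjoint (Dr e) (PP0 e.src) := by
  refine disjoint_left.2 fun y a b => ?_
  cases e
  · rcases (h.PU_A y (by linarith [a.1]) a.2.2.le).1 b with c | c
    exacts [by linarith [a.2.1], by linarith [a.2.1, c.2]]
  · rcases (h.PU_B y (by linarith [a.1]) a.2.2.le).1 b with c | c
    exacts [by linarith [a.2.1], by linarith [a.2.1, c.2]]
  · rcases (h.PU_K y (by linarith [a.2.1]) (by linarith [a.2.2])).1 b with c | c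
    exacts [by linarith [a.2.1], by linarith [a.2.1, c.1]]
  · rcases (h.PH_L y (by linarith [a.1])).2.1 b with c | c
    exacts [a.2.2 ⟨by linarith [c.1], by linarith [c.2]⟩, a.2.2 ⟨c.1, c.2.2⟩]

/-- the height of a port -/
def ht : Ed → ℝ
  | .A => 46
  | .B => 30
  | .K => -6
  | .L => -6

theorem ht_le {e : Ed} {y : R4} (h : y ∈ Dr e) : |y 2 - ht e| ≤ 5 := by
  cases e
  · exact (le_max_right _ _).trans h.1
  · exact (le_max_right _ _).trans h.1
  · have := lt_of_le_of_lt (le_max_left _ _) h.2.2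
    rw [ht, sub_neg_eq_add]
    linarith
  · have := lt_of_le_of_lt (le_max_left _ _) h.2.1
    rw [ht, sub_neg_eq_add]
    linarith

theorem dD (h : Pos) (e e' : Ed) (l : GG) (hl : l ∈ Lam e.src) (y : R4) (hy : y ∈ Dr e)
    (he : e'.src = e.src) (h' : act e.src l y ∈ Dr e') : l = 1 ∧ e' = e := by
  have key : e.src = true → l = 1 ∧ |ht e' - ht e| ≤ 10 := fun hs => by
    rw [hs] at hl h'
    obtain ⟨n, rfl⟩ := hl
    have h1 := abs_le.1 (ht_le hy)
    have h2 := abs_le.1 (ht_le h')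
    simp only [act, lv_tt_zpow, sh_two] at h2
    have h3 : ∀ e, -6 ≤ ht e ∧ ht e ≤ 46 := fun e => by cases e <;> norm_num [ht]
    have h4 := int_zero (n := n) (by linarith [h3 e, h3 e']) (by linarith [h3 e, h3 e'])
    subst h4
    exact ⟨zpow_zero _, abs_le.2 ⟨by push_cast at h2; linarith, by push_cast at h2; linarith⟩⟩
  cases e <;> cases e' <;> try exact absurd he (by decide)
  case L.L =>
    obtain ⟨a, rfl⟩ := hl
    have h1 : kl a y ∈ Dr .L := by simpa [act, Ed.src] using h'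
    have ha : a = 1 := by
      by_contra ha
      linarith [h.far a y ha, h1.1, hy.1]
    exact ⟨by rw [ha, map_one], rfl⟩
  all_goals
    obtain ⟨k1, k2⟩ := key rfl
    first
      | exact ⟨k1, rfl⟩
      | exact absurd k2 (by norm_num [ht, abs_le])

theorem P_sub (h : Pos) (e : Ed) : PP0 e.tgt ⊆ Hl e := fun y hy => by
  have h1 : y ∉ Dr e.bar := fun a => disjoint_left.1 (dP h e.bar) a (by rwa [Ed.src_bar])
  cases e <;> exact ⟨Or.inl hy, h1⟩

theorem D_sub (h : Pos) (e e' : Ed) (l : GG) (hl : l ∈ Lam e.tgt) (he : e'.src = e.tgt)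
    (hne : (l, e') ≠ (1, e.bar)) : MapsTo (act e.tgt l) (Dr e') (Hl e) := fun y hy => by
  have h1 : act e.tgt l y ∉ Dr e.bar := fun a => by
    obtain ⟨b, c⟩ := dD h e' e.bar l (he ▸ hl) y hy (by rw [Ed.src_bar, he]) (he ▸ a)
    exact hne (by rw [b, c])
  have h2 : act e.tgt l⁻¹ (act e.tgt l y) ∈ Dr e' := by rwa [act_inv_act]
  cases e <;> cases e' <;> try exact absurd he (by decide)
  case K.L => exact ⟨Or.inr ⟨_, h2⟩, h1⟩
  all_goals
    refine ⟨Or.inr ⟨lv l⁻¹, ?_⟩, h1⟩
    first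
      | exact Or.inl (Or.inl h2)
      | exact Or.inl (Or.inr h2)
      | exact Or.inr h2

theorem win (h : Pos) (e : Ed) {y : R4} (hy : y ∈ Hl e) (hw : y ∈ Wo0 e.bar) : y ∈ PP0 e.tgt := by
  cases e
  · obtain ⟨a | ⟨n, (a | a) | a⟩, -⟩ := hy
    exacts [a, by linarith [a.2.1, hw.2, ff_sh n y], by linarith [a.2.1, hw.2, ff_sh n y],
      by linarith [a.2.1, rr_B hw.1.le, rr_sh n y]]
  · obtain ⟨a | ⟨n, (a | a) | a⟩, -⟩ := hy
    exacts [a, by linarith [a.2.1, hw.2, ff_sh n y], by linarith [a.2.1, hw.2, ff_sh n y],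
      by linarith [a.2.1, rr_A hw.1.le, rr_sh n y]]
  · obtain ⟨a | ⟨k, a⟩, b⟩ := hy
    · exact a
    · have hk : k ≠ 1 := fun hk => b (by rwa [hk, kl_one] at a)
      linarith [h.far k y hk, a.1, hw.2.1]
  · obtain ⟨a | ⟨n, (a | a) | a⟩, -⟩ := hy
    exacts [a, by linarith [rr_A a.1, hw.2.1, rr_sh n y], by linarith [rr_B a.1, hw.2.1, rr_sh n y],
      by linarith [a.2.1, hw.1, rr_sh n y]]

end FKL

open FKL

theorem foldK (h : Pos) : FoldK := by
  have h0 : ∀ y ∈ Hl .K, 0 < tH y := fun y hy => by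
    rcases (hlK h hy).2 with a | a
    exacts [by linarith [a.1], by linarith]
  refine ⟨?_, fun y hy y' hy' e => ?_, fun y _ hw => ?_, fun y hy hw => ?_⟩
  · have h1 : ContinuousOn (fun y => max (20 - tH y) (4 + 55 / tH y) / tH y) (Hl .K) :=
      ((continuous_const.sub cont_tH).continuousOn.sup (continuousOn_const.add
        (continuousOn_const.div cont_tH.continuousOn fun y hy => (h0 y hy).ne'))).div
        cont_tH.continuousOn fun y hy => (h0 y hy).ne'
    have h4 : ∀ j, ContinuousOn (fun y : R4 => y j) (Hl .K) := fun j =>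
      (continuous_apply j).continuousOn
    refine continuousOn_pi.2 fun j => ?_
    fin_cases j
    exacts [(h1.mul (h4 0)).add continuousOn_const, (h1.mul (h4 1)).add continuousOn_const, h4 2,
      h4 3]
  · have p := h0 y hy
    have p' := h0 y' hy'
    have h1 := rr_mK p
    rw [e, rr_mK p'] at h1
    have h2 : tH y = tH y' := by
      rcases lt_trichotomy (tH y) (tH y') with a | a | a
      exacts [absurd h1 (anti_K p a).ne, a, absurd h1 (anti_K p' a).ne']
    have c := (div_pos (lt_trans (by norm_num) (pos_K p')) p').ne'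
    rw [mK, mK, h2] at e
    ext j
    fin_cases j
    exacts [mul_left_cancel₀ c (add_right_cancel (congrFun e 0)),
      mul_left_cancel₀ c (add_right_cancel (congrFun e 1)), congrFun e 2, congrFun e 3]
  · have h1 : 4 + 55 / tH y ≤ 20 - tH y := by
      have a := hw.1
      have b := hw.2.1
      rw [← le_sub_iff_add_le', div_le_iff₀ (by linarith)]
      nlinarith
    rw [mK, max_eq_left h1]
    rfl
  · have p := h0 y hy
    obtain ⟨a, b⟩ := hlK h hy
    have h1 : 11 ≤ tH y := by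
      rcases b with b | b
      · by_contra! c
        exact hw ⟨b.1, c, b.2⟩
      · linarith
    refine ⟨by rw [rr_mK p]; exact pos_K p, ?_, a⟩
    rw [rr_mK p]
    refine max_le (by linarith) ?_
    rw [← le_sub_iff_add_le', div_le_iff₀ p]
    linarith

theorem foldL (h : Pos) : FoldL :=
  ⟨mL, mL_cont, mL_inj, fun _ _ hw => mL_eq hw, fun _ hy hw => mL_maps hy hw⟩

theorem dv0 (h : Pos) (a : FoldAB) (k : FoldK) (l : FoldL) : Dv0 := by
  intro T hT
  obtain ⟨⟨mA, hA⟩, mB, hB⟩ := a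
  obtain ⟨mL, hL⟩ := l
  obtain ⟨m, hm, hK⟩ : ∃ m : Ed → R4 → R4, (∀ e, Fold e (m e)) ∧ m .K = mK :=
    ⟨fun e => Ed.rec mA mB mK mL e, fun e => by cases e <;> assumption, rfl⟩
  have hP : T.P = PP0 := funext fun i => by cases i; exacts [hT.P_f, hT.P_t]
  have hW : ∀ e, T.W e = PP0 e.src ∩ Wo0 e := fun e => by rw [TG.W, hP, hT.Wo_eq]
  refine ⟨⟨m, Dr, Hl, ?_, D_sub h, fun e => (hm e).1, fun e => (hm e).2.1, fun e y hy => ?_,
    fun e y hy hw => (hm e).2.2.2 y hy fun b => hw ?_, ?_, dD h⟩, rfl, rfl, hK⟩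
  · rw [hP]
    exact P_sub h
  · rw [hW, Ed.src_bar] at hy
    rw [hT.θ_eq]
    exact (hm e).2.2.1 y (P_sub h e hy.1) hy.2
  · rw [hW, Ed.src_bar]
    exact ⟨win h e hy b, b⟩
  · rw [hP]
    exact dP h

end Vale.Agent.P260Z.L3
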