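import Vale.Agent.P260Z.L3.Defs

/-!
# P260, layer 3: square roots in the fundamental group of the chamber
-/

noncomputable section

namespace Vale.Agent.P260Z.L3

namespace GK

open FreeGroup hiding map_one map_mul map_inv
open SemidirectProduct

variable {β H : Type} [Group H]

/-- the inverse letter -/
def bar (x : β × Bool) : β × Bool := (x.1, !x.2)

theorem bar_bar (x : β × Bool) : bar (bar x) = x := by simp [bar]

/-- reduced words -/
def Rd (l : List (β × Bool)) : Prop := l.IsChain fun a b => a ≠ bar b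

theorem rd_iff {l : List (β × Bool)} : Rd l ↔ IsReduced l := by
  refine List.IsChain.iff ?_
  rintro ⟨a, s⟩ ⟨b, t⟩
  cases s <;> cases t <;> simp [bar]

theorem rd_uniq {l l' : List (β × Bool)} (h : Rd l) (h' : Rd l') (e : mk l = mk l') : l = l' := by
  classical
  have := congrArg toWord e
  rwa [toWord_mk, toWord_mk, (rd_iff.1 h).reduce_eq, (rd_iff.1 h').reduce_eq] at this

theorem exists_rd (f : FreeGroup β) : ∃ l, Rd l ∧ f = mk l := by
  classical
  exact ⟨f.toWord, rd_iff.2 isReduced_toWord, mk_toWord.symm⟩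

theorem mk_bar (x : β × Bool) : mk [bar x] * mk [x] = 1 := inv_mul_cancel (mk [x])

theorem mk_cons (x : β × Bool) (l : List (β × Bool)) : mk [x] * mk l = mk (x :: l) := mul_mk

/-- cancellation in a product of two reduced words -/
theorem canc (l' : List (β × Bool)) : ∀ l : List (β × Bool), Rd l → Rd l' →
    ∃ a c b : List (β × Bool), l = a ++ c ∧ l' = (c.map bar).reverse ++ b ∧ Rd (a ++ b) ∧
      mk l * mk l' = mk (a ++ b) := by
  induction l' with
  | nil => exact fun l h _ => ⟨l, [], [], by simp, by simp, by simpa using h, mul_mk⟩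
  | cons r t ih =>
    intro l h h'
    rcases List.eq_nil_or_concat l with rfl | ⟨l0, r', rfl⟩
    · exact ⟨[], [], r :: t, by simp, by simp, by simpa using h', mul_mk⟩
    · rw [List.concat_eq_append] at h ⊢
      by_cases e : r' = bar r
      · subst e
        obtain ⟨a, c, b, rfl, rfl, h1, h2⟩ := ih l0 h.left_of_append h'.tail
        refine ⟨a, c ++ [bar r], b, by simp, by simp [bar_bar], h1, ?_⟩
        rw [← h2, ← mul_mk, ← mk_cons r, mul_assoc, ← mul_assoc (mk [bar r]), mk_bar, one_mul]
      · refine ⟨l0 ++ [r'], [], r :: t, by simp, by simp, ?_, mul_mk⟩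
        refine List.IsChain.append h h' ?_
        simpa using e

variable (ρ : H →* Equiv.Perm β)

/-- the action on letters -/
def lt (h : H) (x : β × Bool) : β × Bool := (ρ h x.1, x.2)

theorem lt_mul (h k : H) (x : β × Bool) : lt ρ (h * k) x = lt ρ h (lt ρ k x) := by simp [lt]

theorem lt_one (x : β × Bool) : lt ρ 1 x = x := by simp [lt]

theorem lt_bar (h : H) (x : β × Bool) : lt ρ h (bar x) = bar (lt ρ h x) := rfl

theorem lt_inj (h : H) : Function.Injective (lt ρ h) := fun x y e => by
  rw [← lt_one ρ x, ← lt_one ρ y, ← inv_mul_cancel h, lt_mul, lt_mul, e]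

theorem lt_ne (h : H) (x : β × Bool) : lt ρ h x ≠ bar x := fun e => by
  simpa [lt, bar] using congrArg Prod.snd e

theorem Rd.map {l : List (β × Bool)} (hl : Rd l) (h : H) : Rd (l.map (lt ρ h)) :=
  (List.isChain_map _).2 (hl.imp fun _ _ hne e => hne (lt_inj ρ h e))

/-- the action on the free group -/
def au : H →* MulAut (FreeGroup β) where
  toFun h := freeGroupCongr (ρ h)
  map_one' := by rw [map_one]; exact freeGroupCongr_refl
  map_mul' h k := by rw [map_mul]; exact (freeGroupCongr_trans (ρ k) (ρ h)).symm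

theorem au_mk (h : H) (l : List (β × Bool)) : au ρ h (mk l) = mk (l.map (lt ρ h)) := map.mk

theorem au_of (h : H) (x : β) : au ρ h (of x) = of (ρ h x) := map.of

variable {ρ} (fr : ∀ h x, ρ h x = x → h = 1) (two : ∀ h : H, h * h = 1 → h = 1)

include fr two in
/-- at most one half of a word cancels against its image -/
theorem canc_le {h : H} {l a c b : List (β × Bool)} (hl : Rd l) (h1 : l = a ++ c)
    (h2 : l.map (lt ρ h) = (c.map bar).reverse ++ b) : c.length ≤ a.length := by
  by_contra hlt
  have hl' : l.length = a.length + c.length := by rw [h1, List.length_append]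
  have key : ∀ j (hj : j < c.length),
      lt ρ h (l[j]'(by omega)) = bar (l[l.length - 1 - j]'(by omega)) := by
    intro j hj
    have e1 : lt ρ h (l[j]'(by omega)) = (l.map (lt ρ h))[j]'(by simp; omega) := by simp
    rw [e1]
    simp only [h2]
    rw [List.getElem_append_left (by simpa using hj), List.getElem_reverse, List.getElem_map]
    subst h1
    rw [List.getElem_append_right (by simp; omega)]
    congr 2
    simp
    omega
  rcases Nat.even_or_odd' l.length with ⟨m, hm | hm⟩
  · have k1 := key (m - 1) (by omega)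
    have k2 := key m (by omega)
    have e1 : l.length - 1 - (m - 1) = m := by omega
    have e2 : l.length - 1 - m = m - 1 := by omega
    simp only [e1] at k1
    simp only [e2] at k2
    have k3 : lt ρ (h * h) (l[m - 1]'(by omega)) = l[m - 1]'(by omega) := by
      rw [lt_mul, k1, lt_bar, k2, bar_bar]
    have k4 := List.isChain_iff_getElem.1 hl (m - 1) (by omega)
    have e3 : m - 1 + 1 = m := by omega
    simp only [e3] at k4
    rw [two h (fr _ _ (congrArg Prod.fst k3)), lt_one] at k1
    exact k4 k1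
  · have k1 := key m (by omega)
    have e1 : l.length - 1 - m = m := by omega
    simp only [e1] at k1
    exact lt_ne ρ h _ k1

/-- both elements are conjugate to the second factor -/
def Cj (u v : FreeGroup β ⋊[au ρ] H) : Prop :=
  ∃ (γ : FreeGroup β ⋊[au ρ] H) (a b : H), γ * u * γ⁻¹ = inr a ∧ γ * v * γ⁻¹ = inr b

theorem Cj.conj {u v γ : FreeGroup β ⋊[au ρ] H} (h : Cj (γ * u * γ⁻¹) (γ * v * γ⁻¹)) :
    Cj u v := by
  obtain ⟨δ, a, b, ha, hb⟩ := h
  exact ⟨δ * γ, a, b, by rw [← ha]; group, by rw [← hb]; group⟩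

include fr two in
/-- the cyclically reduced case -/
theorem red {l : List (β × Bool)} {p : H} {v : FreeGroup β ⋊[au ρ] H}
    (hred : Rd (l ++ l.map (lt ρ p))) (hsq : ⟨mk l, p⟩ * ⟨mk l, p⟩ = v * v)
    (hne : ⟨mk l, p⟩ ≠ v) : Cj ⟨mk l, p⟩ v := by
  obtain ⟨f, q⟩ := v
  obtain ⟨l', hl', rfl⟩ := exists_rd f
  obtain ⟨a, c, b, h1, h2, h3, h6⟩ := canc _ l' hl' (hl'.map ρ q)
  have h4 := canc_le fr two hl' h1 h2
  have e1 : l ++ l.map (lt ρ p) = a ++ b := by
    refine rd_uniq hred h3 ?_
    have := congrArg SemidirectProduct.left hsq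
    simp only [mul_left, au_mk] at this
    rw [← h6, ← this, mul_mk]
  have e2 : p * p = q * q := congrArg SemidirectProduct.right hsq
  have hlen : b.length = a.length := by
    have := congrArg List.length h2
    rw [List.length_map, h1] at this
    simp at this
    omega
  have hlen' : l.length = a.length := by
    have := congrArg List.length e1
    simp at this
    omega
  obtain ⟨e3, e4⟩ := List.append_inj e1 hlen'
  subst e3
  rcases l with _ | ⟨i, t⟩
  · have hc0 : c = [] := List.length_eq_zero_iff.1 (by simpa using h4)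
    subst hc0
    have : l' = [] := by simpa using h1
    subst this
    exact ⟨1, p, q, by rw [one_mul, inv_one, mul_one]; rfl, by rw [one_mul, inv_one, mul_one]; rfl⟩
  exfalso
  rcases List.eq_nil_or_concat c with rfl | ⟨c0, j, rfl⟩
  · have e5 : l' = i :: t := by simpa using h1
    subst e5
    have e6 : lt ρ q i = lt ρ p i := by
      rw [← e4] at h2
      simp only [List.map_cons, List.map_nil, List.reverse_nil, List.nil_append,
        List.cons.injEq] at h2
      exact h2.1
    have e7 : lt ρ (p⁻¹ * q) i = i := by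
      rw [lt_mul, e6, ← lt_mul, inv_mul_cancel, lt_one]
    exact hne (by rw [inv_mul_eq_one.1 (fr _ _ (congrArg Prod.fst e7))])
  · rw [List.concat_eq_append] at h1 h2
    subst h1
    have e5 : lt ρ q i = bar j := by
      simp only [List.cons_append, List.map_cons, List.map_append, List.map_nil,
        List.reverse_append, List.reverse_cons, List.reverse_nil, List.nil_append,
        List.cons.injEq] at h2
      exact h2.1
    have e6 : lt ρ q j = lt ρ p ((i :: t).getLast (by simp)) := by
      have h7 := congrArg List.getLast? h2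
      rw [← e4, ← List.append_assoc, List.map_append, List.getLast?_append, List.getLast?_append,
        List.getLast?_map, List.getLast?_map (l := i :: t),
        List.getLast?_eq_some_getLast (l := i :: t) (by simp)] at h7
      simpa using h7
    have e7 : (i :: t).getLast (by simp) = bar (lt ρ p i) := by
      refine lt_inj ρ p ?_
      rw [← e6, lt_bar, ← lt_mul, e2, lt_mul, e5, lt_bar, bar_bar]
    exact (List.isChain_append.1 hred).2.2 _
      (by rw [List.getLast?_eq_some_getLast (l := i :: t) (by simp)]; rfl) (lt ρ p i) (by simp) e7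

include fr two in
theorem step : ∀ (N : ℕ) (l : List (β × Bool)) (p : H) (v : FreeGroup β ⋊[au ρ] H),
    l.length = N → Rd l → ⟨mk l, p⟩ * ⟨mk l, p⟩ = v * v → ⟨mk l, p⟩ ≠ v → Cj ⟨mk l, p⟩ v := by
  intro N
  induction N using Nat.strong_induction_on with
  | _ N ihN =>
  intro l p v hN hc hsq hne
  by_cases hred : Rd (l ++ l.map (lt ρ p))
  · exact red fr two hred hsq hne
  rcases l with _ | ⟨i, t⟩
  · exact absurd List.isChain_nil hred
  have hj : (i :: t).getLast (by simp) = bar (lt ρ p i) := by
    by_contra hj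
    refine hred (List.IsChain.append hc (hc.map ρ p) ?_)
    rw [List.getLast?_eq_some_getLast (l := i :: t) (by simp)]
    simpa using hj
  rcases List.eq_nil_or_concat t with rfl | ⟨m, j, rfl⟩
  · exact absurd (by rw [← bar_bar (lt ρ p i), ← hj]; rfl) (lt_ne ρ p i)
  rw [List.concat_eq_append] at *
  have hj' : j = bar (lt ρ p i) := by simpa using hj
  have e1 : (inl (mk [i]))⁻¹ * (⟨mk (i :: (m ++ [j])), p⟩ : FreeGroup β ⋊[au ρ] H) *
      (inl (mk [i]))⁻¹⁻¹ = ⟨mk m, p⟩ := by
    rw [inv_inv, ← map_inv]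
    ext
    · simp only [mul_left, mul_right, left_inl, right_inl, map_one, MulAut.one_apply, one_mul,
        au_mk, List.map_cons, List.map_nil]
      rw [← mk_cons i (m ++ [j]), ← mul_mk, inv_mul_cancel_left, mul_assoc, hj', mk_bar, mul_one]
    · simp
  refine Cj.conj (γ := (inl (mk [i]))⁻¹) ?_
  rw [e1]
  refine ihN m.length (by rw [← hN]; simp) m p _ rfl hc.tail.left_of_append ?_ ?_
  · rw [← e1, conj_mul, conj_mul, hsq]
  · rw [← e1]
    simpa using hne

include fr two in
theorem key {u v : FreeGroup β ⋊[au ρ] H} (hsq : u * u = v * v) (hne : u ≠ v) : Cj u v := by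
  obtain ⟨f, p⟩ := u
  obtain ⟨l, hl, rfl⟩ := exists_rd f
  exact step fr two _ l p v rfl hl hsq hne

/-! ### the free product as a semidirect product -/

/-- left multiplication on the first coordinate -/
def rh : KJ →* Equiv.Perm (KJ × Bool) where
  toFun h := (Equiv.mulLeft h).prodCongr (Equiv.refl Bool)
  map_one' := by ext <;> simp
  map_mul' h k := by ext : 2 <;> simp [mul_assoc]

theorem rh_apply (h : KJ) (x : KJ × Bool) : rh h x = (h * x.1, x.2) := rfl

theorem rh_free (h : KJ) (x : KJ × Bool) (e : rh h x = x) : h = 1 :=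
  mul_eq_right.1 (congrArg Prod.fst e)

theorem kj_two (h : KJ) (e : h * h = 1) : h = 1 := by
  have h1 := congrArg KJ.n e
  have h2 := congrArg KJ.m e
  rw [KJ.mul_n, KJ.one_n] at h1
  have h3 : h.n = 0 := by omega
  rw [KJ.mul_m, KJ.one_m, h3, sg_zero] at h2
  ext
  · rw [KJ.one_m]; omega
  · exact h3

/-- the map to the semidirect product -/
def Ph : GG →* FreeGroup (KJ × Bool) ⋊[au rh] KJ :=
  Monoid.Coprod.lift (FreeGroup.lift fun c => inl (of (1, c))) inr

/-- the map back -/
def Ps : FreeGroup (KJ × Bool) ⋊[au rh] KJ →* GG :=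
  SemidirectProduct.lift
    (FreeGroup.lift fun x => jj x.1 * Monoid.Coprod.inl (of x.2) * (jj x.1)⁻¹) jj fun h => by
      ext x
      simp [au_of, rh_apply, mul_assoc]

theorem Ps_inr (a : KJ) : Ps (inr a) = jj a := lift_inr _ _ _ a

theorem Ps_Ph (g : GG) : Ps (Ph g) = g := by
  have : Ps.comp Ph = MonoidHom.id GG := by
    refine Monoid.Coprod.hom_ext ?_ ?_
    · ext c
      simp [Ps, Ph]
    · ext a
      exact Ps_inr a
  exact DFunLike.congr_fun this g

theorem main (a b : GG) (h : a ^ 2 = b ^ 2) (hne : a ≠ b) :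
    ∃ (g : GG) (p q : KJ), g * a * g⁻¹ = jj p ∧ g * b * g⁻¹ = jj q := by
  obtain ⟨γ, p, q, h1, h2⟩ := key rh_free kj_two (u := Ph a) (v := Ph b)
    (by rw [← map_mul, ← map_mul, ← pow_two, ← pow_two, h])
    fun e => hne (by rw [← Ps_Ph a, e, Ps_Ph])
  refine ⟨Ps γ, p, q, ?_, ?_⟩
  · rw [← Ps_inr, ← h1, map_mul, map_mul, map_inv, Ps_Ph]
  · rw [← Ps_inr, ← h2, map_mul, map_mul, map_inv, Ps_Ph]

end GK

theorem GG_two (g : GG) (h : g ^ 2 = 1) : g = 1 := by
  by_contra hne
  obtain ⟨γ, p, -, h1, -⟩ := GK.main g 1 (by rw [h, one_pow]) hne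
  have h2 : p * p = 1 := by
    rw [← kj_jj (p * p), map_mul jj, ← h1, conj_mul, ← pow_two, h, mul_one, mul_inv_cancel, map_one]
  rw [GK.kj_two p h2, map_one, mul_inv_eq_one, mul_eq_left] at h1
  exact hne h1

theorem GG_gk (a b : GG) (h : a ^ 2 = b ^ 2) (hne : a ≠ b) :
    ∃ g : GG, g * a * g⁻¹ ∈ Lam false ∧ g * b * g⁻¹ ∈ Lam false := by
  obtain ⟨g, p, q, h1, h2⟩ := GK.main a b h hne
  exact ⟨g, ⟨p, h1.symm⟩, q, h2.symm⟩

end Vale.Agent.P260Z.L3
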