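import Vale.Agent.P260Z.L3.Defs
import Vale.Agent.P215.H788.Defs

/-!
# P260, layer 3: the tower, its complement and the Klein bottle piece

Coordinates are `X, Y, Z, T`, four times the coordinates of the layout; the period in `Z` is `72`.
-/

noncomputable section

namespace Vale.Agent.P260Z.L3

open Set Topology

/-- the sup norm of a pair -/
def n2 (a b : ℝ) : ℝ := max |a| |b|

def aA (y : R4) : ℝ := n2 (y 0 - 14) (y 2 - 46)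
def aB (y : R4) : ℝ := n2 (y 0 - 14) (y 2 - 30)
def ff (y : R4) : ℝ := n2 (y 1 - 34) (y 3 - 6)
def rr (y : R4) : ℝ := n2 (y 0 - 34) (y 1 - 34)
def gg (y : R4) : ℝ := n2 (y 2 + 6) (y 3 - 6)
def tH (y : R4) : ℝ := n2 (y 0) (y 1)
/-- the radius of the sphere round the ring -/
def r3 (y : R4) : ℝ := max |y 0 - 34| (ff y)

/-- a box in the first three coordinates -/
structure Bx where
  /-- lower bound of `X` -/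
  x : ℤ
  /-- upper bound of `X` -/
  x' : ℤ
  /-- lower bound of `Y` -/
  y : ℤ
  /-- upper bound of `Y` -/
  y' : ℤ
  /-- lower bound of `Z` -/
  z : ℤ
  /-- upper bound of `Z` -/
  z' : ℤ

def Bx.op (c : Bx) : Set R4 :=
  {p | (c.x < p 0 ∧ p 0 < c.x') ∧ (c.y < p 1 ∧ p 1 < c.y') ∧ (c.z < p 2 ∧ p 2 < c.z')}
def Bx.cl (c : Bx) : Set R4 :=
  {p | (c.x ≤ p 0 ∧ p 0 ≤ c.x') ∧ (c.y ≤ p 1 ∧ p 1 ≤ c.y') ∧ (c.z ≤ p 2 ∧ p 2 ≤ c.z')}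

/-- the caves of the level `0`: exit, stem, neck, channel (two boxes), ring (three boxes) -/
def cav : List Bx :=
  [⟨31, 37, 31, 69, -61, -55⟩, ⟨31, 37, 31, 37, -61, 9⟩, ⟨24, 44, 24, 44, -11, -1⟩,
    ⟨31, 37, 11, 37, 3, 9⟩, ⟨31, 37, 11, 17, 3, 21⟩, ⟨3, 65, 3, 29, 19, 57⟩,
    ⟨43, 65, 3, 65, 19, 57⟩, ⟨3, 65, 39, 65, 19, 57⟩]

def tube : Set R4 := {y | (1 ≤ y 0 ∧ y 0 ≤ 67) ∧ (1 ≤ y 1 ∧ y 1 ≤ 67) ∧ (1 ≤ y 3 ∧ y 3 ≤ 11)}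
def tubeO : Set R4 := {y | (1 < y 0 ∧ y 0 < 67) ∧ (1 < y 1 ∧ y 1 < 67) ∧ (1 < y 3 ∧ y 3 < 11)}

/-- the union of the translates of a set -/
def per (A : Set R4) : Set R4 := {y | ∃ n : ℤ, sh n y ∈ A}
def orbJ (A : Set R4) : Set R4 := {y | ∃ a : KJ, kl a y ∈ A}

/-- the tower -/
def UU : Set R4 := {y | y ∈ tube ∧ ∀ n : ℤ, ∀ c ∈ cav, sh n y ∉ c.op}
/-- the closed complement of the tower -/
def UC : Set R4 := {y | y ∉ tubeO ∨ ∃ n : ℤ, ∃ c ∈ cav, sh n y ∈ c.cl}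

def StA : Set R4 := {y | aA y ≤ 5 ∧ ff y < 6}
def StB : Set R4 := {y | aB y ≤ 5 ∧ ff y < 6}
def StK : Set R4 := {y | 9 < rr y ∧ rr y < 11 ∧ gg y ≤ 1}
def PU : Set R4 := UU ∪ per (StA ∪ StB ∪ StK)
def PC : Set R4 := UC ∪ per ((StA ∪ StB) ∩ {y | 4 < ff y} ∪ StK)
/-- the interiors of the stubs -/
def StO : Set R4 :=
  {y | (aA y < 5 ∧ ff y < 6) ∨ (aB y < 5 ∧ ff y < 6) ∨ (9 < rr y ∧ rr y < 11 ∧ gg y < 1)}
def ZU : Set R4 := (UU ∩ UC) \ per StO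

/-- the plane with holes times the fibre -/
def CH : Set R4 := {y | gg y ≤ 1 ∧ ∀ a : KJ, 10 ≤ tH (kl a y)}
def PH : Set R4 := CH ∪ orbJ {y | 9 < tH y ∧ tH y ≤ 10 ∧ gg y < 3 / 2}
def ZH : Set R4 := {y | y ∈ CH ∧ gg y = 1}

def Wo0 : Ed → Set R4
  | .A => {y | aA y < 6 ∧ ff y < 6}
  | .B => {y | aB y < 6 ∧ ff y < 6}
  | .K => {y | 9 < rr y ∧ rr y < 11 ∧ gg y < 3 / 2}
  | .L => {y | 9 < tH y ∧ tH y < 11 ∧ gg y < 3 / 2}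

def thA (y : R4) : R4 := ![y 1 - 20, y 0 + 20, y 3 + 24, y 2 - 40]
def thB (y : R4) : R4 := ![y 1 - 20, y 0 + 20, y 3 + 40, y 2 - 24]
def toH (y : R4) : R4 := ![y 0 - 34, y 1 - 34, y 2, y 3]
def toU (y : R4) : R4 := ![y 0 + 34, y 1 + 34, y 2, y 3]
/-- scaling of the first two coordinates -/
def rad (c : ℝ) (y : R4) : R4 := ![c * y 0, c * y 1, y 2, y 3]
/-- the radial reflection at the radius `10` -/
def rfl10 (y : R4) : R4 := rad ((20 - tH y) / tH y) y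

def th0 : Ed → R4 → R4
  | .A => thA
  | .B => thB
  | .K => fun y => rfl10 (toH y)
  | .L => fun y => toU (rfl10 y)

/-- the gauge of the tube with respect to the axis `X = Y = 2`, `T = 6` -/
def gam (y : R4) : ℝ :=
  max (max (max ((y 0 - 2) / 65) (2 - y 0)) (max ((y 1 - 2) / 65) (2 - y 1))) (|y 3 - 6| / 5)
/-- the inversion in the boundary of the tube -/
def iot (y : R4) : R4 :=
  ![2 + (y 0 - 2) / gam y ^ 2, 2 + (y 1 - 2) / gam y ^ 2, y 2, 6 + (y 3 - 6) / gam y ^ 2]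
/-- the inverted set, with the axis -/
def inv (A : Set R4) : Set R4 := {y | gam y = 0 ∨ iot y ∈ A}

/-- the shell round the ring -/
def Sh : Set R4 := {y | 14 < r3 y ∧ r3 y < 26 ∧ ¬ (y 0 ≤ 34 ∧ ff y ≤ 4)}

/-- a parametrisation of the shell -/
structure Psi where
  /-- from the column to the shell -/
  ψ : R4 → R4
  /-- the inverse -/
  χ : R4 → R4
  ψ_cont : ContinuousOn ψ {y | |y 0 - 14| ≤ 6 ∧ ff y ≤ 6}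
  χ_cont : ContinuousOn χ {y | 14 ≤ r3 y ∧ r3 y ≤ 26 ∧ ¬ (y 0 ≤ 34 ∧ ff y < 4)}
  ψ_mem : ∀ y, |y 0 - 14| ≤ 6 → ff y ≤ 6 → r3 (ψ y) = 34 - y 0 ∧ ψ y 2 = y 2 ∧
    ¬ (ψ y 0 ≤ 34 ∧ ff (ψ y) < 4)
  χ_mem : ∀ y, 14 ≤ r3 y → r3 y ≤ 26 → ¬ (y 0 ≤ 34 ∧ ff y < 4) →
    χ y 0 = 34 - r3 y ∧ χ y 2 = y 2 ∧ ff (χ y) ≤ 6
  χ_ψ : ∀ y, |y 0 - 14| ≤ 6 → ff y ≤ 6 → χ (ψ y) = y
  ψ_χ : ∀ y, 14 ≤ r3 y → r3 y ≤ 26 → ¬ (y 0 ≤ 34 ∧ ff y < 4) → ψ (χ y) = y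
  ψ_ring : ∀ y, |y 0 - 14| ≤ 6 → 4 ≤ ff y → ff y ≤ 6 → ψ y =
    ![y 0, 34 + (10 - ff y) / ff y * (y 1 - 34), y 2, 6 + (10 - ff y) / ff y * (y 3 - 6)]
  ψ_in : ∀ y, |y 0 - 14| ≤ 6 → ff y ≤ 4 → ¬ (ψ y 0 ≤ 34 ∧ ff (ψ y) < 6)

def Wo1 : Ed → Set R4
  | .A => {y | gam y ≠ 0 ∧ iot y ∈ Sh ∧ |y 2 - 46| < 6}
  | .B => {y | gam y ≠ 0 ∧ iot y ∈ Sh ∧ |y 2 - 30| < 6}
  | .K => {y | gam y ≠ 0 ∧ iot y ∈ Wo0 .K}
  | .L => Wo0 .L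

def th1 (s : Psi) : Ed → R4 → R4
  | .A => fun y => iot (s.ψ (thA (s.χ (iot y))))
  | .B => fun y => iot (s.ψ (thB (s.χ (iot y))))
  | .K => fun y => toH (iot y)
  | .L => fun y => iot (toU y)

/-- the data of a glued space -/
structure TG.Is (T : TG) (P C Z : Set R4) (Wo : Ed → Set R4) (θ : Ed → R4 → R4) : Prop where
  P_t : T.P true = P
  P_f : T.P false = PH
  C_t : T.C true = C
  C_f : T.C false = CH
  Z_t : T.Zc true = Z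
  Z_f : T.Zc false = ZH
  Wo_eq : T.Wo = Wo
  θ_eq : T.θ = θ

/-- the filling by the tower -/
abbrev TG.Is0 (T : TG) : Prop := T.Is PU UU ZU Wo0 th0
/-- the filling by the complement -/
abbrev TG.Is1 (T : TG) (s : Psi) : Prop :=
  T.Is (inv PC) (inv UC) {y | gam y ≠ 0 ∧ iot y ∈ ZU} Wo1 (th1 s)

/-- the regions behind the ports -/
def Dr : Ed → Set R4
  | .A => {y | aA y ≤ 5 ∧ 6 ≤ ff y ∧ ff y < 7}
  | .B => {y | aB y ≤ 5 ∧ 6 ≤ ff y ∧ ff y < 7}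
  | .K => {y | 4 < rr y ∧ rr y ≤ 9 ∧ gg y < 2}
  | .L => {y | tH y ≤ 10 ∧ gg y < 2 ∧ ¬ (9 < tH y ∧ gg y < 3 / 2)}

/-- the domains of the folding maps -/
def Hl : Ed → Set R4
  | .A => (PU ∪ per (Dr .A ∪ Dr .B ∪ Dr .K)) \ Dr .B
  | .B => (PU ∪ per (Dr .A ∪ Dr .B ∪ Dr .K)) \ Dr .A
  | .K => (PH ∪ orbJ (Dr .L)) \ Dr .L
  | .L => (PU ∪ per (Dr .A ∪ Dr .B ∪ Dr .K)) \ Dr .K

/-- the piece of the Klein bottle side is folded into the neck -/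
def mK (y : R4) : R4 := toU (rad (max (20 - tH y) (4 + 55 / tH y) / tH y) y)

/-- a folding map for the edge `e` -/
def Fold (e : Ed) (m : R4 → R4) : Prop :=
  ContinuousOn m (Hl e) ∧ InjOn m (Hl e) ∧
    (∀ y ∈ Hl e, y ∈ Wo0 e.bar → m y = th0 e.bar y) ∧ ∀ y ∈ Hl e, y ∉ Wo0 e.bar → m y ∈ Dr e

open P215.H788 in
/-- a disc seen in the charts of a finite tower, with disjoint translates -/
structure LS (n r : ℕ) where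
  /-- the coordinates -/
  f : FreeGroup (Fin (n + 1)) → Disc → R4
  /-- the part of the disc in a chart -/
  V : FreeGroup (Fin (n + 1)) → Set Disc
  cont : ∀ g, Continuous (f g)
  equiv : ∀ g (i : Fin (n + 1)) x,
    f (g * FreeGroup.of i) x = sh (i : ℕ) (thA (sh (-(i : ℕ)) (f g x)))
  isOpen : ∀ g, IsOpen (V g)
  cover : ∀ x, ∃ g, x ∈ V g
  mem : ∀ g, ∀ x ∈ V g, f g x ∈ PU ∪ per (Dr .K) ∧ 0 < f g x 2 ∧ f g x 2 < 72 * n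
  two : ∀ g g' x, x ∈ V g → x ∈ V g' → g = g' ∨
    (∃ i : Fin (n + 1), g' = g * FreeGroup.of i ∧ sh (-(i : ℕ)) (f g x) ∈ Wo0 .A) ∨
    (∃ i : Fin (n + 1), g = g' * FreeGroup.of i ∧ sh (-(i : ℕ)) (f g' x) ∈ Wo0 .A)
  toB : ∀ g (i : Fin (n + 1)), ∀ x ∈ V g, sh (-(i : ℕ)) (f g x) ∈ Wo0 .A →
    x ∈ V (g * FreeGroup.of i)
  toA : ∀ g (i : Fin (n + 1)), ∀ x ∈ V (g * FreeGroup.of i), sh (-(i : ℕ)) (f g x) ∈ Wo0 .A →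
    x ∈ V g
  sep : ∀ g g' x y, x ∈ V g → y ∈ V g' → f g x = f g' y → g = g'
  bd : ∀ z : Circ, z.toDisc ∈ V 1 ∧ rr (f 1 z.toDisc) < 6 ∧
    |f 1 z.toDisc 2 - 72 * (r + 1) + 6| < 2 ∧
    (z.1.2 = -1 → f 1 z.toDisc 1 < 32) ∧ (z.1.1 = 1 → 36 < f 1 z.toDisc 0) ∧
    (z.1.2 = 1 → 36 < f 1 z.toDisc 1) ∧ (z.1.1 = -1 → f 1 z.toDisc 0 < 32)
  free : ∀ g, g ≠ 1 → ∀ x ∈ V g, ¬ (rr (f g x) < 6 ∧ |f g x 2 - 72 * (r + 1) + 6| < 2)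

end Vale.Agent.P260Z.L3
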