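import Vale.Agent.P260Z.L3.Sk

/-!
# P260, layer 3: the grid lemma
-/

noncomputable section

namespace Vale.Agent.P260Z.L3

open Set Topology

namespace GridP

/-- a rectangle times the fibre -/
def box (a b c d : ℝ) : Set R4 :=
  {y | gg y ≤ 1 ∧ (a ≤ y 0 ∧ y 0 ≤ b) ∧ (c ≤ y 1 ∧ y 1 ≤ d)}

theorem box_eq (a b c d : ℝ) : box a b c d =
    Set.pi univ fun j : Fin 4 => Icc (![a, c, -7, 5] j) (![b, d, -5, 7] j) := by
  ext y
  constructor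
  · rintro ⟨h, h5, h6⟩ j -
    simp only [gg, n2, max_le_iff, abs_le] at h
    obtain ⟨⟨h1, h2⟩, h3, h4⟩ := h
    fin_cases j
    · exact h5
    · exact h6
    · change (-7 : ℝ) ≤ y 2 ∧ y 2 ≤ -5
      exact ⟨by linarith, by linarith⟩
    · change (5 : ℝ) ≤ y 3 ∧ y 3 ≤ 7
      exact ⟨by linarith, by linarith⟩
  · intro h
    have h2 : (-7 : ℝ) ≤ y 2 ∧ y 2 ≤ -5 := h 2 trivial
    have h3 : (5 : ℝ) ≤ y 3 ∧ y 3 ≤ 7 := h 3 trivial
    refine ⟨max_le (abs_le.2 ⟨?_, ?_⟩) (abs_le.2 ⟨?_, ?_⟩), h 0 trivial, h 1 trivial⟩ <;>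
      linarith [h2.1, h2.2, h3.1, h3.2]

theorem isCompact_box (a b c d : ℝ) : IsCompact (box a b c d) := by
  rw [box_eq]
  exact isCompact_univ_pi fun _ => isCompact_Icc

theorem ae_box (h1 : AE1) {a b c d : ℝ} (hab : a ≤ b) (hcd : c ≤ d) : AE (box a b c d) := by
  rw [box_eq]
  refine h1.pi fun j => h1.icc ?_
  fin_cases j
  · exact hab
  · exact hcd
  · change (-7 : ℝ) ≤ -5
    norm_num
  · change (5 : ℝ) ≤ 7
    norm_num

theorem odd_far (k : ℤ) : (10 : ℝ) ≤ |20 * (k : ℝ) + 10| := by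
  rcases le_or_gt 0 k with h | h
  · have : (0 : ℝ) ≤ k := by exact_mod_cast h
    exact le_abs.2 (Or.inl (by linarith))
  · have h' : k ≤ -1 := by omega
    have : (k : ℝ) ≤ -1 := by exact_mod_cast h'
    exact le_abs.2 (Or.inr (by linarith))

theorem sg_cases (n : ℤ) : sg n = 1 ∨ sg n = -1 := by
  rcases Int.units_eq_one_or (Int.negOnePow n) with h | h <;> simp [sg, h]

theorem box_sub_x (k : ℤ) (c d : ℝ) : box (20 * k + 10) (20 * k + 10) c d ⊆ CH := by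
  rintro y ⟨h1, ⟨h2, h3⟩, -⟩
  refine ⟨h1, fun a => le_max_of_le_left ?_⟩
  have e : y 0 = 20 * k + 10 := le_antisymm h3 h2
  change 10 ≤ |(sg a.n : ℝ) * y 0 + 40 * a.m|
  rcases sg_cases a.n with h | h
  · have := odd_far (k + 2 * a.m)
    rw [h, e]
    push_cast at this ⊢
    rwa [show (1 : ℝ) * (20 * k + 10) + 40 * a.m = 20 * (k + 2 * a.m) + 10 by ring]
  · have := odd_far (2 * a.m - k - 1)
    rw [h, e]
    push_cast at this ⊢
    rwa [show (-1 : ℝ) * (20 * k + 10) + 40 * a.m = 20 * (2 * a.m - k - 1) + 10 by ring]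

theorem box_sub_y (k : ℤ) (a b : ℝ) : box a b (20 * k + 10) (20 * k + 10) ⊆ CH := by
  rintro y ⟨h1, -, ⟨h2, h3⟩⟩
  refine ⟨h1, fun a => le_max_of_le_right ?_⟩
  have e : y 1 = 20 * k + 10 := le_antisymm h3 h2
  change 10 ≤ |y 1 + 40 * a.n|
  have := odd_far (k + 2 * a.n)
  rw [e]
  push_cast at this
  rwa [show (20 * k + 10 : ℝ) + 40 * a.n = 20 * (k + 2 * a.n) + 10 by ring]

/-- the intervals of radius `10` round the multiples of `20` fill an interval -/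
theorem ex_cell {a a' : ℤ} (h : a ≤ a') (t : ℝ) :
    (∃ i, (a ≤ i ∧ i ≤ a') ∧ |t - 20 * (i : ℤ)| ≤ 10) ↔ 20 * (a : ℝ) - 10 ≤ t ∧ t ≤ 20 * a' + 10 := by
  constructor
  · rintro ⟨i, ⟨h1, h2⟩, h3⟩
    have h1' : (a : ℝ) ≤ i := by exact_mod_cast h1
    have h2' : (i : ℝ) ≤ a' := by exact_mod_cast h2
    rw [abs_le] at h3
    exact ⟨by linarith [h3.1], by linarith [h3.2]⟩
  · rintro ⟨h1, h2⟩
    induction a', h using Int.leInduction with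
    | base => exact ⟨a, ⟨le_rfl, le_rfl⟩, abs_le.2 ⟨by linarith, by linarith⟩⟩
    | succ m hm ih =>
      rcases le_total t (20 * m + 10) with h3 | h3
      · obtain ⟨i, ⟨h4, h5⟩, h6⟩ := ih h3
        exact ⟨i, ⟨h4, by omega⟩, h6⟩
      · push_cast at h2
        refine ⟨m + 1, ⟨by omega, le_rfl⟩, abs_le.2 ⟨?_, ?_⟩⟩ <;> push_cast <;> linarith

theorem ex_rect {a a' b b' : ℤ} (ha : a ≤ a') (hb : b ≤ b') (y : R4) :
    (∃ c ∈ Icc (a, b) (a', b'), n2 (y 0 - 20 * (c : ℤ × ℤ).1) (y 1 - 20 * c.2) ≤ 10) ↔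
      (20 * (a : ℝ) - 10 ≤ y 0 ∧ y 0 ≤ 20 * a' + 10) ∧
        (20 * (b : ℝ) - 10 ≤ y 1 ∧ y 1 ≤ 20 * b' + 10) := by
  rw [← ex_cell ha, ← ex_cell hb]
  constructor
  · rintro ⟨c, ⟨⟨h1, h2⟩, h3, h4⟩, h5⟩
    exact ⟨⟨c.1, ⟨h1, h3⟩, (max_le_iff.1 h5).1⟩, c.2, ⟨h2, h4⟩, (max_le_iff.1 h5).2⟩
  · rintro ⟨⟨i, ⟨h1, h3⟩, h5⟩, j, ⟨h2, h4⟩, h6⟩
    exact ⟨(i, j), ⟨⟨h1, h2⟩, h3, h4⟩, max_le h5 h6⟩

variable {X : Type} {φ : R4 → X} {Y : ℤ × ℤ → Set X}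

theorem inter_eq
    (hY : ∀ c c', c ≠ c' → Y c ∩ Y c' = φ '' {y | gg y ≤ 1 ∧
      n2 (y 0 - 20 * c.1) (y 1 - 20 * c.2) ≤ 10 ∧ n2 (y 0 - 20 * c'.1) (y 1 - 20 * c'.2) ≤ 10})
    {A A' : Set (ℤ × ℤ)} (hA : ∀ c ∈ A, ∀ c' ∈ A', c ≠ c') :
    (⋃ c ∈ A, Y c) ∩ (⋃ c ∈ A', Y c) = φ '' {y | gg y ≤ 1 ∧
      (∃ c ∈ A, n2 (y 0 - 20 * c.1) (y 1 - 20 * c.2) ≤ 10) ∧
      ∃ c ∈ A', n2 (y 0 - 20 * c.1) (y 1 - 20 * c.2) ≤ 10} := by
  ext x
  simp only [mem_inter_iff, mem_iUnion, exists_prop]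
  constructor
  · rintro ⟨⟨c, hc, hx⟩, c', hc', hx'⟩
    have : x ∈ Y c ∩ Y c' := ⟨hx, hx'⟩
    rw [hY c c' (hA c hc c' hc')] at this
    obtain ⟨y, ⟨h1, h2, h3⟩, rfl⟩ := this
    exact ⟨y, ⟨h1, ⟨c, hc, h2⟩, c', hc', h3⟩, rfl⟩
  · rintro ⟨y, ⟨h1, ⟨c, hc, h2⟩, c', hc', h3⟩, rfl⟩
    have : φ y ∈ Y c ∩ Y c' := by
      rw [hY c c' (hA c hc c' hc')]
      exact ⟨y, ⟨h1, h2, h3⟩, rfl⟩
    exact ⟨⟨c, hc, this.1⟩, c', hc', this.2⟩

end GridP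

open GridP in
theorem grid (h1 : AE1) (h2 : AE2) : Grid := by
  intro X _ _ φ Y hc hi hY hI n
  have hcl : ∀ p q : ℤ × ℤ, IsClosed (⋃ c ∈ Icc p q, Y c) := fun p q =>
    (Set.finite_Icc p q).isClosed_biUnion fun c _ => (hY c).1
  have hbox : ∀ a b c d : ℝ, a ≤ b → c ≤ d → box a b c d ⊆ CH → AE (φ '' box a b c d) :=
    fun a b c d hab hcd hs =>
      h1.cpt (isCompact_box a b c d) (hc.mono hs) (hi.mono hs) (ae_box h1 hab hcd)
  have one : ∀ c : ℤ × ℤ, AE (⋃ c' ∈ Icc c c, Y c') := fun c => by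
    rw [Icc_self, biUnion_singleton]
    exact (hY c).2
  have row : ∀ a b a' : ℤ, a ≤ a' → AE (⋃ c ∈ Icc (a, b) (a', b), Y c) := by
    intro a b a' h
    induction a', h using Int.leInduction with
    | base => exact one _
    | succ m hm ih =>
      have e : Icc (a, b) (m + 1, b) = Icc (a, b) (m, b) ∪ Icc (m + 1, b) (m + 1, b) := by
        ext ⟨i, j⟩
        simp only [mem_Icc, mem_union, Prod.mk_le_mk]
        omega
      rw [e, biUnion_union]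
      refine h2.union (hcl _ _) (hcl _ _) ih (one _) ?_
      rw [inter_eq hI (by
        rintro ⟨i, j⟩ hij ⟨i', j'⟩ hij' hh
        simp only [mem_Icc, Prod.mk_le_mk, Prod.mk.injEq] at hij hij' hh
        omega)]
      have e' : {y : R4 | gg y ≤ 1 ∧
          (∃ c ∈ Icc (a, b) (m, b), n2 (y 0 - 20 * (c : ℤ × ℤ).1) (y 1 - 20 * c.2) ≤ 10) ∧
          ∃ c ∈ Icc (m + 1, b) (m + 1, b), n2 (y 0 - 20 * (c : ℤ × ℤ).1) (y 1 - 20 * c.2) ≤ 10} =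
          box (20 * m + 10) (20 * m + 10) (20 * b - 10) (20 * b + 10) := by
        ext y
        have hm' : (a : ℝ) ≤ m := by exact_mod_cast hm
        rw [mem_ofPred_eq, ex_rect hm le_rfl, ex_rect le_rfl le_rfl]
        push_cast
        constructor
        · rintro ⟨g1, ⟨⟨-, g2⟩, g3⟩, ⟨g4, -⟩, -⟩
          exact ⟨g1, ⟨by linarith, g2⟩, g3⟩
        · rintro ⟨g1, ⟨g2, g3⟩, g4⟩
          exact ⟨g1, ⟨⟨by linarith, g3⟩, g4⟩, ⟨by linarith, by linarith⟩, g4⟩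
      rw [e']
      exact hbox _ _ _ _ le_rfl (by linarith) (box_sub_x _ _ _)
  have rect : ∀ a a' b b' : ℤ, a ≤ a' → b ≤ b' → AE (⋃ c ∈ Icc (a, b) (a', b'), Y c) := by
    intro a a' b b' ha h
    induction b', h using Int.leInduction with
    | base => exact row _ _ _ ha
    | succ m hm ih =>
      have e : Icc (a, b) (a', m + 1) = Icc (a, b) (a', m) ∪ Icc (a, m + 1) (a', m + 1) := by
        ext ⟨i, j⟩
        simp only [mem_Icc, mem_union, Prod.mk_le_mk]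
        omega
      rw [e, biUnion_union]
      refine h2.union (hcl _ _) (hcl _ _) ih (row _ _ _ ha) ?_
      rw [inter_eq hI (by
        rintro ⟨i, j⟩ hij ⟨i', j'⟩ hij' hh
        simp only [mem_Icc, Prod.mk_le_mk, Prod.mk.injEq] at hij hij' hh
        omega)]
      have ha' : (a : ℝ) ≤ a' := by exact_mod_cast ha
      have e' : {y : R4 | gg y ≤ 1 ∧
          (∃ c ∈ Icc (a, b) (a', m), n2 (y 0 - 20 * (c : ℤ × ℤ).1) (y 1 - 20 * c.2) ≤ 10) ∧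
          ∃ c ∈ Icc (a, m + 1) (a', m + 1), n2 (y 0 - 20 * (c : ℤ × ℤ).1) (y 1 - 20 * c.2) ≤ 10} =
          box (20 * a - 10) (20 * a' + 10) (20 * m + 10) (20 * m + 10) := by
        ext y
        have hm' : (b : ℝ) ≤ m := by exact_mod_cast hm
        rw [mem_ofPred_eq, ex_rect ha hm, ex_rect ha le_rfl]
        push_cast
        constructor
        · rintro ⟨g1, ⟨g3, -, g2⟩, -, g4, -⟩
          exact ⟨g1, g3, by linarith, g2⟩
        · rintro ⟨g1, g4, g2, g3⟩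
          exact ⟨g1, ⟨g4, by linarith, g3⟩, g4, by linarith, by linarith⟩
      rw [e']
      exact hbox _ _ _ _ (by linarith) le_rfl (box_sub_y _ _ _)
  exact rect _ _ _ _ (by omega) (by omega)

end Vale.Agent.P260Z.L3
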