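import Vale.Agent.P260Z.L3.Sk

/-!
# P260, layer 3: half space charts of the glued space and maps between boundaries
-/

noncomputable section

namespace Vale.Agent.P260Z.L3

open Set Topology Filter

namespace TG

theorem hsg (T : TG) (h1 : T.Api1) (h2 : T.Api2) : T.HSG := by
  intro hF Z j hj x
  obtain ⟨g, i, b, hb, rfl⟩ := h1.surj x
  obtain ⟨O, N, φ, ψ, hO, hN, hbO, hφ, hψ, mφ, mψ, l, r, bd⟩ := hF i b hb
  have hc : MapsTo (T.crd g i) (T.pt g i '' (T.P i ∩ O)) (T.P i ∩ O) := by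
    rintro _ ⟨y, hy, rfl⟩
    rw [h1.crd_pt g hy.1]
    exact hy
  refine ⟨T.pt g i '' (T.P i ∩ O), N, φ ∘ T.crd g i, T.pt g i ∘ ψ, h1.opn g i hO, hN,
    ⟨b, ⟨T.C_sub i hb, hbO⟩, rfl⟩, ?_, ?_, mφ.comp hc, ?_, ?_, ?_, ?_⟩
  · exact hφ.comp ((h1.crd_cont g i).mono (image_mono inter_subset_left)) hc
  · exact (h1.cont g i).comp hψ fun v hv => (mψ hv).1
  · exact fun v hv => ⟨ψ v, mψ hv, rfl⟩
  · rintro _ ⟨y, hy, rfl⟩
    simp only [Function.comp, h1.crd_pt g hy.1, l y hy]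
  · intro v hv
    simp only [Function.comp, h1.crd_pt g (mψ hv).1, r v hv]
  · rintro _ ⟨y, hy, rfl⟩
    simp only [Function.comp, h1.crd_pt g hy.1, hj, h2.mem_ZX g hy.1, bd y hy]

theorem jZ_emb (T : TG) (h2 : T.Api2) : IsClosedEmbedding T.jZ ∧ range T.jZ = T.ZX :=
  ⟨h2.closed_ZX.isClosedEmbedding_subtypeVal, Subtype.range_val⟩

variable {T T' : TG} {β β' : Bool → R4 → R4}

theorem Z_P (T : TG) {i : Bool} {y : R4} (hy : y ∈ T.Zc i) : y ∈ T.P i :=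
  T.C_sub i (T.Z_sub i hy)

theorem ZIso.symm (h : T.ZIso T' β β') : T'.ZIso T β' β where
  cont := h.cont'
  cont' := h.cont
  maps := h.maps'
  maps' := h.maps
  left := h.right
  right := h.left
  equi i l hl y hy := by
    have hz := h.maps' i hy
    have e := h.equi i l hl _ hz
    rw [h.right i y hy] at e
    rw [← e, h.left i _ (T.Z_act i l hl hz)]
  edge := h.edge'
  edge' := h.edge

theorem ZIso.wd (h : T.ZIso T' β β') (h1 : T.Api1) (h1' : T'.Api1) {g i y g' i' y'}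
    (hy : y ∈ T.Zc i) (hy' : y' ∈ T.Zc i') (e : T.pt g i y = T.pt g' i' y') :
    T'.pt g i (β i y) = T'.pt g' i' (β i' y') := by
  rw [h1'.pt_eq (T'.Z_P (h.maps i hy)) (T'.Z_P (h.maps i' hy'))]
  rcases (h1.pt_eq (T.Z_P hy) (T.Z_P hy')).1 e with
    ⟨rfl, hl, rfl⟩ | ⟨ed, l, hl, l', hl', rfl, rfl, hW, hg, hθ⟩
  · exact Or.inl ⟨rfl, hl, h.equi _ _ hl _ hy'⟩
  · have a := T.Z_act _ l hl hy
    have a' := T.Z_act _ l' hl' hy'
    obtain ⟨b, b'⟩ := h.edge ed _ a hW (hθ ▸ a')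
    rw [h.equi _ _ hl _ hy] at b b'
    refine Or.inr ⟨ed, l, hl, l', hl', rfl, rfl, b, hg, ?_⟩
    rw [b', ← hθ, h.equi _ _ hl' _ hy']

theorem ZIso.fn (h : T.ZIso T' β β') (h1 : T.Api1) (h2 : T.Api2) (h1' : T'.Api1) :
    ∃ f : T.X → T'.X, ContinuousOn f T.ZX ∧
      ∀ g i, ∀ y ∈ T.Zc i, f (T.pt g i y) = T'.pt g i (β i y) := by
  have ex : ∀ x : T.X, ∃ x' : T'.X, ∀ g i, ∀ y ∈ T.Zc i, x = T.pt g i y →
      x' = T'.pt g i (β i y) := by
    intro x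
    by_cases hx : x ∈ T.ZX
    · obtain ⟨g, i, y, hy, rfl⟩ := hx
      exact ⟨T'.pt g i (β i y), fun g' i' y' hy' e => h.wd h1 h1' hy hy' e⟩
    · exact ⟨T'.pt 1 true 0, fun g i y hy e => absurd ⟨g, i, y, hy, e⟩ hx⟩
  choose f hf using ex
  have key : ∀ g i, ∀ y ∈ T.Zc i, f (T.pt g i y) = T'.pt g i (β i y) :=
    fun g i y hy => hf _ g i y hy rfl
  refine ⟨f, h2.contOn T.Zc f T.closed_Z T.Z_sub T.Z_act fun g i => ?_, key⟩
  exact (((h1'.cont g i).comp (h.cont i) fun y hy => T'.Z_P (h.maps i hy))).congr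
    fun y hy => key g i y hy

theorem zmap (T T' : TG) (h1 : T.Api1) (h2 : T.Api2) (h1' : T'.Api1) (h2' : T'.Api2) :
    T.ZMap T' := by
  intro β β' h
  obtain ⟨f, fc, hf⟩ := h.fn h1 h2 h1'
  obtain ⟨f', fc', hf'⟩ := h.symm.fn h1' h2' h1
  have mf : MapsTo f T.ZX T'.ZX := by
    rintro _ ⟨g, i, y, hy, rfl⟩
    exact ⟨g, i, _, h.maps i hy, hf g i y hy⟩
  have mf' : MapsTo f' T'.ZX T.ZX := by
    rintro _ ⟨g, i, y, hy, rfl⟩
    exact ⟨g, i, _, h.maps' i hy, hf' g i y hy⟩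
  have l : ∀ x ∈ T.ZX, f' (f x) = x := by
    rintro _ ⟨g, i, y, hy, rfl⟩
    rw [hf g i y hy, hf' g i _ (h.maps i hy), h.left i y hy]
  have r : ∀ x ∈ T'.ZX, f (f' x) = x := by
    rintro _ ⟨g, i, y, hy, rfl⟩
    rw [hf' g i y hy, hf g i _ (h.maps' i hy), h.right i y hy]
  let H : T.ZX ≃ₜ T'.ZX :=
    { toFun := mf.restrict f _ _
      invFun := mf'.restrict f' _ _
      left_inv := fun z => Subtype.ext (l z.1 z.2)
      right_inv := fun z => Subtype.ext (r z.1 z.2)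
      continuous_toFun := fc.mapsToRestrict mf
      continuous_invFun := fc'.mapsToRestrict mf' }
  refine ⟨fun z => f z.1, h2'.closed_ZX.isClosedEmbedding_subtypeVal.comp H.isClosedEmbedding,
    ?_, ?_⟩
  · rintro a ⟨_, g, i, y, hy, rfl⟩
    change f (a • T.pt g i y) = a • f (T.pt g i y)
    rw [T.smul_pt a g (T.Z_P hy), hf _ i y hy, hf g i y hy,
      T'.smul_pt a g (T'.Z_P (h.maps i hy))]
  · ext x
    exact ⟨fun ⟨z, hz⟩ => hz ▸ mf z.2, fun hx => ⟨⟨f' x, mf' hx⟩, r x hx⟩⟩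

end TG

end Vale.Agent.P260Z.L3
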