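import Vale.Agent.P260Z.L3.Sk

/-!
# P260, layer 3: elementary lemmas, and the piece of the Klein bottle side
-/

noncomputable section

namespace Vale.Agent.P260Z.L3.Kl

open Set Topology

theorem n2_le {a b r : ℝ} : n2 a b ≤ r ↔ (-r ≤ a ∧ a ≤ r) ∧ -r ≤ b ∧ b ≤ r := by
  simp only [n2, max_le_iff, abs_le]

theorem n2_lt {a b r : ℝ} : n2 a b < r ↔ (-r < a ∧ a < r) ∧ -r < b ∧ b < r := by
  simp only [n2, max_lt_iff, abs_lt]

theorem n2_nonneg (a b : ℝ) : 0 ≤ n2 a b := le_max_of_le_left (abs_nonneg a)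

theorem n2_mul {c : ℝ} (hc : 0 ≤ c) (a b : ℝ) : n2 (c * a) (c * b) = c * n2 a b := by
  simp only [n2, abs_mul, abs_of_nonneg hc, mul_max_of_nonneg _ _ hc]

theorem n2_sg (n : ℤ) (a b : ℝ) : n2 (sg n * a) b = n2 a b := by
  rcases Int.units_eq_one_or (Int.negOnePow n) with h | h <;> simp [n2, sg, h]

@[fun_prop] theorem continuous_n2 {X : Type} [TopologicalSpace X] {f g : X → ℝ}
    (hf : Continuous f) (hg : Continuous g) : Continuous fun x => n2 (f x) (g x) :=
  hf.abs.max hg.abs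

@[fun_prop] theorem continuous_aA : Continuous aA := by unfold aA; fun_prop
@[fun_prop] theorem continuous_aB : Continuous aB := by unfold aB; fun_prop
@[fun_prop] theorem continuous_ff : Continuous ff := by unfold ff; fun_prop
@[fun_prop] theorem continuous_rr : Continuous rr := by unfold rr; fun_prop
@[fun_prop] theorem continuous_gg : Continuous gg := by unfold gg; fun_prop
@[fun_prop] theorem continuous_tH : Continuous tH := by unfold tH; fun_prop
@[fun_prop] theorem continuous_thA : Continuous thA := by unfold thA; fun_prop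
@[fun_prop] theorem continuous_thB : Continuous thB := by unfold thB; fun_prop
@[fun_prop] theorem continuous_toH : Continuous toH := by unfold toH; fun_prop
@[fun_prop] theorem continuous_toU : Continuous toU := by unfold toU; fun_prop

theorem tH_toH (y : R4) : tH (toH y) = rr y := rfl
theorem gg_toH (y : R4) : gg (toH y) = gg y := rfl
theorem gg_toU (y : R4) : gg (toU y) = gg y := rfl
theorem gg_rad (c : ℝ) (y : R4) : gg (rad c y) = gg y := rfl
theorem gg_rfl10 (y : R4) : gg (rfl10 y) = gg y := rfl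
theorem gg_kl (a : KJ) (y : R4) : gg (kl a y) = gg y := rfl
theorem ff_sh (n : ℤ) (y : R4) : ff (sh n y) = ff y := rfl
theorem rr_sh (n : ℤ) (y : R4) : rr (sh n y) = rr y := rfl
theorem sh_two (n : ℤ) (y : R4) : sh n y 2 = y 2 + 72 * n := rfl
theorem rr_toU (y : R4) : rr (toU y) = tH y := by simp [rr, toU, tH]
theorem toU_toH (y : R4) : toU (toH y) = y := by ext j; fin_cases j <;> simp [toU, toH]
theorem toH_toU (y : R4) : toH (toU y) = y := by ext j; fin_cases j <;> simp [toU, toH]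
theorem thB_thA (y : R4) : thB (thA y) = y := by
  ext j; fin_cases j <;> simp [thA, thB]
theorem thA_thB (y : R4) : thA (thB y) = y := by
  ext j; fin_cases j <;> simp [thA, thB]
theorem aB_thA (y : R4) : aB (thA y) = ff y := by
  simp only [aB, ff, thA]; congr 1 <;> simp <;> ring
theorem ff_thA (y : R4) : ff (thA y) = aA y := by
  simp only [aA, ff, thA]; congr 1 <;> simp <;> ring
theorem aA_thB (y : R4) : aA (thB y) = ff y := by
  simp only [aA, ff, thB]; congr 1 <;> simp <;> ring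
theorem ff_thB (y : R4) : ff (thB y) = aB y := by
  simp only [aB, ff, thB]; congr 1 <;> simp <;> ring

theorem tH_rad {c : ℝ} (hc : 0 ≤ c) (y : R4) : tH (rad c y) = c * tH y := n2_mul hc _ _

theorem tH_rfl10 {y : R4} (h0 : 0 < tH y) (h1 : tH y ≤ 20) : tH (rfl10 y) = 20 - tH y := by
  rw [rfl10, tH_rad (div_nonneg (by linarith) h0.le), div_mul_cancel₀ _ h0.ne']

theorem rfl10_rfl10 {y : R4} (h0 : 0 < tH y) (h1 : tH y < 20) : rfl10 (rfl10 y) = y := by
  have h2 : 20 - tH y ≠ 0 := by linarith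
  have h3 := h0.ne'
  rw [rfl10, tH_rfl10 h0 h1.le]
  ext j
  fin_cases j <;> simp [rfl10, rad] <;> field_simp

theorem rfl10_ten {y : R4} (h : tH y = 10) : rfl10 y = y := by
  ext j
  fin_cases j <;> simp [rfl10, rad, h] <;> norm_num

theorem continuousOn_rfl10 : ContinuousOn rfl10 {y | tH y ≠ 0} := by
  have : ContinuousOn (fun y => (20 - tH y) / tH y) {y | tH y ≠ 0} :=
    ContinuousOn.div (by fun_prop) (by fun_prop) fun _ h => h
  refine continuousOn_pi.2 fun j => ?_
  fin_cases j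
  · exact this.mul (continuous_apply 0).continuousOn
  · exact this.mul (continuous_apply 1).continuousOn
  · exact (continuous_apply 2).continuousOn
  · exact (continuous_apply 3).continuousOn

/-! ### the stabilisers -/

theorem tt_mem (n : ℤ) : tt ^ n ∈ Lam true := ⟨n, rfl⟩
theorem jj_mem (a : KJ) : jj a ∈ Lam false := ⟨a, rfl⟩
theorem act_tt (n : ℤ) : act true (tt ^ n) = sh n := congrArg sh (lv_tt_zpow n)
theorem act_jj (a : KJ) : act false (jj a) = kl a := congrArg kl (kj_jj a)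
theorem act_true (l : GG) : act true l = sh (lv l) := rfl
theorem act_false (l : GG) : act false l = kl (kj l) := rfl

theorem eq_one_true {l : GG} (hl : l ∈ Lam true) (h : lv l = 0) : l = 1 := by
  obtain ⟨n, rfl⟩ := hl
  obtain rfl : n = 0 := (lv_tt_zpow n).symm.trans h
  rfl

theorem eq_one_false {l : GG} (hl : l ∈ Lam false) (h : kj l = 1) : l = 1 := by
  obtain ⟨a, rfl⟩ := hl
  rw [kj_jj] at h
  rw [h, map_one]

/-! ### periodic sets -/

theorem sh_per {A : Set R4} (n : ℤ) (y : R4) : sh n y ∈ per A ↔ y ∈ per A :=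
  ⟨fun ⟨m, h⟩ => ⟨m + n, by rwa [sh_add]⟩,
    fun ⟨m, h⟩ => ⟨m - n, by rwa [← sh_add, sub_add_cancel]⟩⟩

theorem kl_orbJ {A : Set R4} (a : KJ) (y : R4) : kl a y ∈ orbJ A ↔ y ∈ orbJ A :=
  ⟨fun ⟨b, h⟩ => ⟨b * a, by rwa [kl_mul]⟩,
    fun ⟨b, h⟩ => ⟨b * a⁻¹, by rwa [← kl_mul, inv_mul_cancel_right]⟩⟩

theorem per_eq (A : Set R4) : per A = ⋃ n : ℤ, sh n ⁻¹' A := by
  ext; simp [per]

theorem isOpen_per {A : Set R4} (hA : IsOpen A) : IsOpen (per A) := by
  rw [per_eq]
  exact isOpen_iUnion fun n => hA.preimage (continuous_sh n)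

theorem isClosed_per {A : Set R4} (hA : IsClosed A) {r : ℝ} (hb : ∀ y ∈ A, |y 2| ≤ r) :
    IsClosed (per A) := by
  rw [per_eq]
  refine LocallyFinite.isClosed_iUnion (fun x => ⟨{y | |y 2 - x 2| < 1}, ?_, ?_⟩)
    fun n => hA.preimage (continuous_sh n)
  · exact (isOpen_lt (by fun_prop) continuous_const).mem_nhds (by simp)
  · obtain ⟨N, hN⟩ := exists_nat_ge (r + |x 2| + 1)
    refine (finite_Icc (-(N : ℤ)) N).subset ?_
    rintro n ⟨y, h1, h2⟩
    have a1 := abs_le.1 (hb _ h1)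
    have a2 := abs_lt.1 (show |y 2 - x 2| < 1 from h2)
    have a3 := abs_le.1 (le_refl |x 2|)
    have a4 : (0 : ℝ) ≤ N := N.cast_nonneg
    rw [sh_two] at a1
    constructor
    · exact_mod_cast (by linarith : -(N : ℝ) ≤ n)
    · exact_mod_cast (by linarith : (n : ℝ) ≤ N)

theorem exists_sh (y : R4) : ∃ n : ℤ, 0 ≤ sh n y 2 ∧ sh n y 2 < 72 := by
  refine ⟨-⌊y 2 / 72⌋, ?_⟩
  have a1 := Int.floor_le (y 2 / 72)
  have a2 := Int.lt_floor_add_one (y 2 / 72)
  rw [sh_two]
  push_cast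
  constructor <;> linarith

theorem exists_kl (y : R4) : ∃ a : KJ, tH (kl a y) ≤ 20 := by
  have e : ∀ t : ℝ, ∃ m : ℤ, -20 ≤ t + 40 * m ∧ t + 40 * m ≤ 20 := fun t => by
    have := abs_le.1 (abs_sub_round (t / 40))
    refine ⟨-round (t / 40), ?_⟩
    push_cast
    constructor <;> linarith
  obtain ⟨n, hn⟩ := e (y 1)
  obtain ⟨m, hm⟩ := e (sg n * y 0)
  exact ⟨⟨m, n⟩, n2_le.2 ⟨hm, hn⟩⟩

theorem lc_of {s : Set R4} (h : ∀ x ∈ s, ∃ U F : Set R4, x ∈ U ∧ IsOpen U ∧ IsClosed F ∧
    ∀ y ∈ U, y ∈ s ↔ y ∈ F) : IsLocallyClosed s :=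
  ((isLocallyClosed_tfae s).out 3 0).1 fun x hx => by
    obtain ⟨U, F, h1, h2, h3, h4⟩ := h x hx
    exact ⟨U, h1, h2, fun y hy => (h4 y hy.1).2
      (closure_minimal (fun z hz => (h4 z hz.1).1 hz.2) h3 (h2.inter_closure hy))⟩

theorem bdd_of {s : Set R4} (r : ℝ) (h : ∀ y ∈ s, ∀ j, -r ≤ y j ∧ y j ≤ r) :
    Bornology.IsBounded s :=
  (Metric.isBounded_Icc (fun _ => -r) fun _ => r).subset fun y hy =>
    ⟨fun j => (h y hy j).1, fun j => (h y hy j).2⟩

theorem isOpen_Wo0 (e : Ed) : IsOpen (Wo0 e) := by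
  cases e
  · exact (isOpen_lt continuous_aA continuous_const).inter
      (isOpen_lt continuous_ff continuous_const)
  · exact (isOpen_lt continuous_aB continuous_const).inter
      (isOpen_lt continuous_ff continuous_const)
  · exact (isOpen_lt continuous_const continuous_rr).inter ((isOpen_lt continuous_rr
      continuous_const).inter (isOpen_lt continuous_gg continuous_const))
  · exact (isOpen_lt continuous_const continuous_tH).inter ((isOpen_lt continuous_tH
      continuous_const).inter (isOpen_lt continuous_gg continuous_const))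

theorem bdd_Wo0 (e : Ed) : Bornology.IsBounded (Wo0 e) := by
  refine bdd_of 100 fun y hy j => ?_
  cases e <;> simp only [Wo0, mem_ofPred_eq, aA, aB, ff, rr, gg, tH, n2_lt] at hy <;>
    fin_cases j <;> simp <;> constructor <;> linarith [hy.1, hy.2.1, hy.2.2]

/-! ### the Klein bottle side -/

theorem kl_CH (a : KJ) (y : R4) : kl a y ∈ CH ↔ y ∈ CH :=
  and_congr Iff.rfl ⟨fun h b => by simpa [← kl_mul] using h (b * a⁻¹),
    fun h b => by simpa [← kl_mul] using h (b * a)⟩

theorem kl_PH (a : KJ) (y : R4) : kl a y ∈ PH ↔ y ∈ PH :=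
  or_congr (kl_CH a y) (kl_orbJ a y)

theorem kl_ZH (a : KJ) (y : R4) : kl a y ∈ ZH ↔ y ∈ ZH :=
  and_congr (kl_CH a y) Iff.rfl

theorem isClosed_CH : IsClosed CH := by
  refine (isClosed_le continuous_gg continuous_const).inter ?_
  change IsClosed {y | ∀ a : KJ, 10 ≤ tH (kl a y)}
  rw [ofPred_forall]
  exact isClosed_iInter fun a =>
    isClosed_le continuous_const (continuous_tH.comp (continuous_kl a))

theorem isClosed_ZH : IsClosed ZH :=
  isClosed_CH.inter (isClosed_eq continuous_gg continuous_const)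

theorem CH_tH {y : R4} (hy : y ∈ CH) : 10 ≤ tH y := by simpa [kl_one] using hy.2 1

theorem lc_PH (h : Pos) : IsLocallyClosed PH := lc_of fun x hx => by
  obtain ⟨a, ha⟩ := exists_kl x
  have h1 := (h.PH_L _ (by linarith)).2.1 ((kl_PH a x).2 hx)
  refine ⟨kl a ⁻¹' {y | (9 < tH y ∧ tH y < 29) ∧ gg y < 3 / 2},
    kl a ⁻¹' {y | (10 ≤ tH y ∧ gg y ≤ 1) ∨ tH y ≤ 10}, ?_, IsOpen.preimage (continuous_kl a) ?_,
    IsClosed.preimage (continuous_kl a) ?_, fun y hy => ?_⟩
  · simp only [mem_preimage, mem_ofPred_eq]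
    grind
  · exact ((isOpen_lt continuous_const continuous_tH).inter (isOpen_lt continuous_tH
      continuous_const)).inter (isOpen_lt continuous_gg continuous_const)
  · exact ((isClosed_le continuous_const continuous_tH).inter (isClosed_le continuous_gg
      continuous_const)).union (isClosed_le continuous_tH continuous_const)
  · rw [← kl_PH a, (h.PH_L _ hy.1.2.le).2]
    simp only [mem_preimage, mem_ofPred_eq] at hy ⊢
    grind

theorem cpt_CH : ∃ K, IsCompact K ∧ K ⊆ CH ∧ ∀ y ∈ CH, ∃ l ∈ Lam false, act false l y ∈ K := by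
  refine ⟨CH ∩ {y | tH y ≤ 20}, Metric.isCompact_of_isClosed_isBounded
    (isClosed_CH.inter (isClosed_le continuous_tH continuous_const))
    (bdd_of 100 fun y hy j => ?_), inter_subset_left, fun y hy => ?_⟩
  · have a1 := n2_le.1 hy.1.1
    have a2 := n2_le.1 hy.2
    fin_cases j <;> simp <;> constructor <;> linarith [a1.1, a1.2, a2.1, a2.2]
  · obtain ⟨a, ha⟩ := exists_kl y
    exact ⟨_, jj_mem a, by rw [act_jj]; exact ⟨(kl_CH a y).2 hy, ha⟩⟩

theorem disj_L (h : Pos) {l : GG} (hl : l ∈ Lam false) {y : R4} (h1 : y ∈ Wo0 .L)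
    (h2 : act false l y ∈ Wo0 .L) : l = 1 :=
  eq_one_false hl (by_contra fun hn => by
    have := h.far _ y hn
    linarith [h1.2.1, show tH (kl (kj l) y) < 11 from h2.2.1])

/-- the points of the piece outside the core -/
theorem cover_H {y : R4} (hy : y ∈ PH) : y ∈ CH ∨ ∃ l ∈ Lam false,
    act false l y ∈ Wo0 .L ∧ tH (act false l y) ≤ 10 := by
  rcases hy with hy | ⟨a, h1, h2, h3⟩
  · exact Or.inl hy
  · exact Or.inr ⟨_, jj_mem a, by rw [act_jj]; exact ⟨⟨h1, by linarith, h3⟩, h2⟩⟩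

theorem PH_near (h : Pos) {y : R4} (hy : y ∈ PH) (h1 : tH y ≤ 29) : 9 < tH y ∧ gg y < 3 / 2 := by
  have := (h.PH_L y h1).2.1 hy
  grind

end Vale.Agent.P260Z.L3.Kl
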