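import Vale.Agent.P260Z.L3.Sk

/-!
# P260, layer 3: endomorphisms of the Klein bottle group
-/

noncomputable section

namespace Vale.Agent.P260Z.L3

open Set Topology

namespace Ln

theorem sg_two (q : ℤ) : sg (2 * q) = 1 := by
  rw [two_mul, sg_add, sg_mul_self]

theorem sg_one : sg 1 = -1 := by simp [sg]

/-- the Klein bottle group as a subgroup -/
def jr : KJ →* Lam false := jj.rangeRestrict

theorem kj_jr (a : KJ) : kj (jr a : GG) = a := kj_jj a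

theorem jr_kj (j : Lam false) : jr (kj (j : GG)) = j := by
  obtain ⟨_, a, rfl⟩ := j
  exact Subtype.ext (congrArg jj (kj_jj a))

theorem smul_even (p q : ℤ) (u : ℝ × ℝ) :
    (letI := actE; jr ⟨2 * p, 2 * q⟩ • u) = (u.1 + 80 * p, u.2 + 80 * q) := by
  change (_, _) = _
  rw [kj_jr]
  simp only [sg_two]
  refine Prod.ext ?_ ?_ <;> simp <;> ring

theorem ex_fl (s : ℝ) : ∃ p : ℤ, s - 80 * p ∈ Icc (0 : ℝ) 80 :=
  ⟨⌊s / 80⌋, by have := Int.floor_le (s / 80); linarith,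
    by have := Int.lt_floor_add_one (s / 80); linarith⟩

theorem sg_even (φ : KJ →* KJ) (p q : ℤ) : sg (φ ⟨2 * p, 2 * q⟩).n = 1 := by
  have h : (⟨2 * p, 2 * q⟩ : KJ) = ⟨p, 0⟩ * ⟨p, 0⟩ * (⟨0, q⟩ * ⟨0, q⟩) := by
    ext <;> simp <;> ring
  rw [h]
  simp only [map_mul, KJ.mul_n, sg_add, sg_mul_self, mul_one]

/-- the induced map of the lattice -/
def lat (φ : KJ →* KJ) : ℤ × ℤ →+ ℤ × ℤ :=
  AddMonoidHom.mk' (fun x => ((φ ⟨2 * x.1, 2 * x.2⟩).m, (φ ⟨2 * x.1, 2 * x.2⟩).n)) fun x y => by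
    have h : (⟨2 * (x + y).1, 2 * (x + y).2⟩ : KJ) = ⟨2 * x.1, 2 * x.2⟩ * ⟨2 * y.1, 2 * y.2⟩ := by
      ext <;> simp [sg_two] <;> ring
    rw [h, map_mul]
    simp [sg_even]

theorem lat_inj {φ : KJ →* KJ} (h : Function.Injective φ) : Function.Injective (lat φ) := by
  intro x y hxy
  have h1 : φ ⟨2 * x.1, 2 * x.2⟩ = φ ⟨2 * y.1, 2 * y.2⟩ :=
    KJ.ext (congrArg Prod.fst hxy) (congrArg Prod.snd hxy)
  have h2 := h h1
  have h3 : 2 * x.1 = 2 * y.1 := congrArg KJ.m h2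
  have h4 : 2 * x.2 = 2 * y.2 := congrArg KJ.n h2
  exact Prod.ext (by omega) (by omega)

theorem add_eq (F : ℤ × ℤ →+ ℤ × ℤ) (p q : ℤ) :
    F (p, q) = (p * (F (1, 0)).1 + q * (F (0, 1)).1, p * (F (1, 0)).2 + q * (F (0, 1)).2) := by
  have h : (p, q) = p • ((1 : ℤ), (0 : ℤ)) + q • ((0 : ℤ), (1 : ℤ)) := by simp
  rw [h, map_add, map_zsmul, map_zsmul]
  rfl

theorem det_ne {F : ℤ × ℤ →+ ℤ × ℤ} (h : Function.Injective F) :
    (F (1, 0)).1 * (F (0, 1)).2 - (F (1, 0)).2 * (F (0, 1)).1 ≠ 0 := by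
  intro h0
  have h1 : F ((F (0, 1)).2, -(F (1, 0)).2) = F 0 := by
    rw [add_eq, map_zero]
    exact Prod.ext (by simp only [Prod.fst_zero]; linarith) (by simp only [Prod.snd_zero]; ring)
  have h2 : F ((F (0, 1)).1, -(F (1, 0)).1) = F 0 := by
    rw [add_eq, map_zero]
    exact Prod.ext (by simp only [Prod.fst_zero]; ring) (by simp only [Prod.snd_zero]; linarith)
  have h3 : -(F (1, 0)).2 = 0 := congrArg Prod.snd (h h1)
  have h4 : -(F (1, 0)).1 = 0 := congrArg Prod.snd (h h2)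
  have h5 : F (1, 0) = F 0 := by
    rw [map_zero]
    exact Prod.ext (neg_eq_zero.1 h4) (neg_eq_zero.1 h3)
  exact one_ne_zero (congrArg Prod.fst (h h5))

theorem exists_L {a b c d : ℝ} (h : a * d - b * c ≠ 0) : ∃ L : (ℝ × ℝ) ≃L[ℝ] (ℝ × ℝ),
    ∀ u, L u = ((u.1 * a + u.2 * c) / 2, (u.1 * b + u.2 * d) / 2) := by
  let f : (ℝ × ℝ) →ₗ[ℝ] (ℝ × ℝ) :=
    { toFun := fun u => ((u.1 * a + u.2 * c) / 2, (u.1 * b + u.2 * d) / 2)
      map_add' := fun u v => by ext <;> simp <;> ring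
      map_smul' := fun r u => by ext <;> simp <;> ring }
  have hf : Function.Injective f := by
    refine (injective_iff_map_eq_zero f).2 fun u hu => ?_
    have h1 : (u.1 * a + u.2 * c) / 2 = 0 := congrArg Prod.fst hu
    have h2 : (u.1 * b + u.2 * d) / 2 = 0 := congrArg Prod.snd hu
    have h3 : u.1 * (a * d - b * c) = 0 := by linear_combination 2 * d * h1 - 2 * c * h2
    have h4 : u.2 * (a * d - b * c) = 0 := by linear_combination 2 * a * h2 - 2 * b * h1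
    exact Prod.ext ((mul_eq_zero.1 h3).resolve_right h) ((mul_eq_zero.1 h4).resolve_right h)
  exact ⟨(LinearEquiv.ofInjectiveEndo f hf).toContinuousLinearEquiv, fun u => rfl⟩

theorem cnt : Countable GG := by
  have h1 : Countable KJ := Function.Injective.countable (f := fun a : KJ => (a.m, a.n))
    fun a b h => KJ.ext (congrArg Prod.fst h) (congrArg Prod.snd h)
  have h2 : Countable (FreeMonoid (FreeGroup Bool ⊕ KJ)) :=
    inferInstanceAs (Countable (List (FreeGroup Bool ⊕ KJ)))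
  exact Monoid.Coprod.mk_surjective.countable

theorem gen : Subgroup.closure {jr ⟨0, 1⟩, jr ⟨1, 1⟩} = ⊤ := by
  set H := Subgroup.closure {jr ⟨0, 1⟩, jr ⟨1, 1⟩} with hH
  have hu : jr ⟨0, 1⟩ ∈ H := Subgroup.subset_closure (by simp)
  have hv : jr ⟨1, 1⟩ ∈ H := Subgroup.subset_closure (by simp)
  have ha : jr ⟨1, 0⟩ ∈ H := by
    have h : (⟨1, 0⟩ : KJ) = ⟨1, 1⟩ * (⟨0, 1⟩ : KJ)⁻¹ := by ext <;> simp
    rw [h, map_mul, map_inv]
    exact mul_mem hv (inv_mem hu)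
  have hm : ∀ m : ℤ, jr ⟨m, 0⟩ ∈ H := by
    intro m
    induction m using Int.induction_on with
    | zero => exact (map_one jr).symm ▸ one_mem H
    | succ i hi =>
      have h : (⟨i + 1, 0⟩ : KJ) = ⟨i, 0⟩ * ⟨1, 0⟩ := by ext <;> simp
      rw [h, map_mul]
      exact mul_mem hi ha
    | pred i hi =>
      have h : (⟨-i - 1, 0⟩ : KJ) = ⟨-i, 0⟩ * (⟨1, 0⟩ : KJ)⁻¹ := by ext <;> simp [sub_eq_add_neg]
      rw [h, map_mul, map_inv]
      exact mul_mem hi (inv_mem ha)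
  have hn : ∀ n : ℤ, jr ⟨0, n⟩ ∈ H := by
    intro m
    induction m using Int.induction_on with
    | zero => exact (map_one jr).symm ▸ one_mem H
    | succ i hi =>
      have h : (⟨0, i + 1⟩ : KJ) = ⟨0, i⟩ * ⟨0, 1⟩ := by ext <;> simp
      rw [h, map_mul]
      exact mul_mem hi hu
    | pred i hi =>
      have h : (⟨0, -i - 1⟩ : KJ) = ⟨0, -i⟩ * (⟨0, 1⟩ : KJ)⁻¹ := by ext <;> simp [sub_eq_add_neg]
      rw [h, map_mul, map_inv]
      exact mul_mem hi (inv_mem hu)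
  refine (Subgroup.eq_top_iff' _).2 fun j => ?_
  rw [← jr_kj j]
  have h : kj (j : GG) = ⟨(kj (j : GG)).m, 0⟩ * ⟨0, (kj (j : GG)).n⟩ := by ext <;> simp
  rw [h, map_mul]
  exact mul_mem (hm _) (hn _)

end Ln

open Ln

theorem lin : Lin := by
  intro ψ hψ
  let φ : KJ →* KJ := (kj.comp (Lam false).subtype).comp (ψ.comp jr)
  have hφ : Function.Injective φ := by
    intro a b h
    have h1 : ψ (jr a) = ψ (jr b) := by
      rw [← jr_kj (ψ (jr a)), ← jr_kj (ψ (jr b))]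
      exact congrArg jr h
    rw [← kj_jr a, ← kj_jr b, hψ h1]
  have hd := det_ne (lat_inj hφ)
  obtain ⟨L, hL⟩ := exists_L (a := (lat φ (1, 0)).1) (b := (lat φ (1, 0)).2)
    (c := (lat φ (0, 1)).1) (d := (lat φ (0, 1)).2) (by exact_mod_cast hd)
  refine ⟨L, Icc 0 80 ×ˢ Icc 0 80, isCompact_Icc.prod isCompact_Icc, fun u => ?_⟩
  obtain ⟨p, hp⟩ := ex_fl u.1
  obtain ⟨q, hq⟩ := ex_fl u.2
  refine ⟨jr ⟨2 * p, 2 * q⟩, (u.1 - 80 * p, u.2 - 80 * q), ⟨hp, hq⟩, ?_, fun y => ?_⟩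
  · rw [smul_even]
    simp
  · have h1 : (φ ⟨2 * p, 2 * q⟩).m = _ := congrArg Prod.fst (add_eq (lat φ) p q)
    have h2 : (φ ⟨2 * p, 2 * q⟩).n = _ := congrArg Prod.snd (add_eq (lat φ) p q)
    change kl (φ ⟨2 * p, 2 * q⟩) y = _
    unfold kl
    rw [sg_even, h1, h2, hL]
    congr 1
    · simp
      ring
    · congr 1
      simp
      ring

theorem gk_all (h2 : ∀ g : GG, g ^ 2 = 1 → g = 1) (hk : ∀ a b : GG, a ^ 2 = b ^ 2 → a ≠ b →
    ∃ g : GG, g * a * g⁻¹ ∈ Lam false ∧ g * b * g⁻¹ ∈ Lam false) : GK where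
  cnt := cnt
  two := h2
  gk := hk
  gen := ⟨jr ⟨0, 1⟩, jr ⟨1, 1⟩, by
    have h : (⟨0, 1⟩ : KJ) * ⟨0, 1⟩ = ⟨1, 1⟩ * ⟨1, 1⟩ := by ext <;> simp [sg_one]
    rw [← map_pow, ← map_pow, pow_two, pow_two, h], fun h => by
      have h1 := congrArg (fun j : Lam false => (kj (j : GG)).m) h
      simp only [kj_jr] at h1
      exact zero_ne_one h1, gen⟩
  cptE := ⟨Icc 0 80 ×ˢ Icc 0 80, isCompact_Icc.prod isCompact_Icc, fun u => by
    obtain ⟨p, hp⟩ := ex_fl u.1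
    obtain ⟨q, hq⟩ := ex_fl u.2
    refine ⟨jr ⟨2 * -p, 2 * -q⟩, ?_⟩
    rw [smul_even]
    exact ⟨by simpa [sub_eq_add_neg] using hp, by simpa [sub_eq_add_neg] using hq⟩⟩

end Vale.Agent.P260Z.L3
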