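import Vale.Agent.P260Z.L3.Sk

/-!
# P260, layer 3: adjacent pieces and ping pong for the plumbings
-/

noncomputable section

namespace Vale.Agent.P260Z.L3

namespace NbPP

theorem val_append (l l' : List Port) : val (l ++ l') = val l * val l' := by
  induction l with
  | nil => simp [val]
  | cons p l ih => simp [val, ih, mul_assoc]

theorem ty_append (i : Bool) (l l' : List Port) : ty i (l ++ l') = ty (ty i l) l' := by
  induction l generalizing i with
  | nil => rfl
  | cons p l ih => exact ih _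

theorem red_concat {i : Bool} {l : List Port} {p : Port} : Red i (l ++ [p]) ↔
    Red i l ∧ p.2.src = ty i l ∧ p.1 ∈ Lam (ty i l) ∧ ∀ q ∈ l.getLast?, p ≠ (1, q.2.bar) := by
  induction l generalizing i with
  | nil => simp [Red, ty]
  | cons q l ih =>
    cases l with
    | nil => simp [Red, ty, and_assoc]
    | cons r l =>
      rw [List.cons_append, Red, ih, Red, List.getLast?_cons_cons]
      simp only [List.cons_append, List.head?_cons, Red, ty]
      tauto

end NbPP

open NbPP in
theorem nb (h : Tree) : Nb := by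
  intro i l l' e a a' hl hl' t t' ha ha' E
  by_cases hr : Red i (l ++ [(a, e)])
  · have h1 : val (l ++ [(a, e)]) = val l' * a' := by simp [val_append, val, E, mul_assoc]
    have h2 := h.uniq i l' _ hl' hr (by rw [ty_append, t']; rfl)
      (by rw [h1, inv_mul_cancel_left, t']; exact ha')
    rw [← h2] at h1
    exact Or.inl ⟨left_eq_mul.1 h1, h2⟩
  · rw [red_concat] at hr
    obtain ⟨q, hq, e1⟩ : ∃ q ∈ l.getLast?, (a, e) = (1, q.2.bar) := by
      by_contra hc
      exact hr ⟨hl, t.symm, t ▸ ha, fun q hq e => hc ⟨q, hq, e⟩⟩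
    obtain ⟨l₀, rfl⟩ := List.getLast?_eq_some_iff.1 hq
    obtain ⟨rfl, rfl⟩ := Prod.ext_iff.1 e1
    obtain ⟨b1, b2, b3, -⟩ := red_concat.1 hl
    have h1 : val l' * a' = val l₀ * q.1 := by simp [val_append, val, E, mul_assoc]
    have t0 : ty i l' = ty i l₀ := by rw [t', Ed.tgt_bar, b2]
    have h2 := h.uniq i l' l₀ hl' b1 t0 (by
      have : (val l')⁻¹ * val l₀ = a' * q.1⁻¹ := by
        rw [inv_mul_eq_iff_eq_mul, ← mul_assoc, h1, mul_inv_cancel_right]
      rw [this]
      exact mul_mem (t' ▸ ha') (inv_mem (t0 ▸ b3)))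
    subst h2
    exact Or.inr ⟨rfl, by rw [mul_left_cancel h1, Ed.bar_bar]⟩

namespace NbPP

variable (lo : ℤ) {k : ℕ}

/-- the level of a letter -/
def lev (q : Fin k × Bool) : ℤ := lo + (q.1 : ℕ)

/-- the edge of a letter -/
def ed (b : Bool) : Ed := cond b .A .B

/-- the address of a word followed by an address -/
def ad : ℤ → List (Fin k × Bool) → List Port → List Port
  | _, [], [] => []
  | c, [], p :: l => (tt ^ (-c) * p.1, p.2) :: l
  | c, q :: w, l => (tt ^ (lev lo q - c), ed q.2) :: ad (lev lo q) w l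

/-- the last level -/
def en : ℤ → List (Fin k × Bool) → ℤ
  | c, [] => c
  | _, q :: w => en (lev lo q) w

/-- the remainder -/
def tl (c : ℤ) (w : List (Fin k × Bool)) : List Port → GG
  | [] => tt ^ en lo c w
  | _ :: _ => 1

theorem tt_mem (n : ℤ) : tt ^ n ∈ Lam true := ⟨n, rfl⟩

theorem tl_mem (c : ℤ) (w : List (Fin k × Bool)) (l : List Port) :
    tl lo c w l ∈ Lam (ty true l) := by
  cases l
  · exact tt_mem _
  · exact one_mem _

theorem en_concat (c : ℤ) (w : List (Fin k × Bool)) (q : Fin k × Bool) :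
    en lo c (w ++ [q]) = lev lo q := by
  induction w generalizing c with
  | nil => rfl
  | cons r w ih => exact ih _

theorem eta_cons (q : Fin k × Bool) (w : List (Fin k × Bool)) :
    eta lo k (FreeGroup.mk (q :: w)) =
      tt ^ lev lo q * (ed q.2).s * (tt ^ lev lo q)⁻¹ * eta lo k (FreeGroup.mk w) := by
  obtain ⟨i, b⟩ := q
  cases b <;> simp [eta, FreeGroup.lift_mk, ed, Ed.s, lev, mul_assoc]

theorem val_ad (c : ℤ) (w : List (Fin k × Bool)) (l : List Port) :
    val (ad lo c w l) = tt ^ (-c) * (eta lo k (FreeGroup.mk w) * val l) * tl lo c w l := by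
  induction w generalizing c with
  | nil =>
    have : eta lo k (FreeGroup.mk []) = 1 := map_one _
    cases l <;> simp [ad, val, tl, en, this, mul_assoc]
  | cons q w ih =>
    have : tl lo c (q :: w) l = tl lo (lev lo q) w l := by cases l <;> rfl
    rw [ad, val, ih, eta_cons, this, sub_eq_neg_add, zpow_add, zpow_neg tt (lev lo q)]
    simp only [mul_assoc]

theorem ed_tgt (b : Bool) : (ed b).tgt = true := by cases b <;> rfl

theorem ed_src (b : Bool) : (ed b).src = true := by cases b <;> rfl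

theorem ed_ne (b : Bool) : ed b ≠ .K := by cases b <;> simp [ed]

theorem ed_bar (b : Bool) : (ed b).bar = ed (!b) := by cases b <;> rfl

theorem ed_inj {b b' : Bool} (h : ed b = ed b') : b = b' := by
  cases b <;> cases b' <;> simp_all [ed]

theorem tt_inj {m n : ℤ} (h : tt ^ m = tt ^ n) : m = n := by
  simpa using congrArg lv h

theorem lev_inj {q q' : Fin k × Bool} (h : lev lo q = lev lo q') : q.1 = q'.1 :=
  Fin.ext (by simpa [lev] using h)

theorem ty_ad (c : ℤ) (w : List (Fin k × Bool)) (l : List Port) :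
    ty true (ad lo c w l) = ty true l := by
  induction w generalizing c with
  | nil => cases l <;> rfl
  | cons q w ih => rw [ad, ty, ed_tgt, ih]

theorem red_ad (c : ℤ) {w : List (Fin k × Bool)} (hw : FreeGroup.IsReduced w) {l : List Port}
    (hl : Jk l) : Red true (ad lo c w l) := by
  induction w generalizing c with
  | nil =>
    cases l with
    | nil => trivial
    | cons p l => exact ⟨hl.1.1, mul_mem (tt_mem _) hl.1.2.1, hl.1.2.2⟩
  | cons q w ih =>
    refine ⟨ed_src _, tt_mem _, by rw [ed_tgt]; exact ih _ (List.IsChain.tail hw), ?_⟩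
    rw [ed_bar]
    cases w with
    | nil =>
      cases l with
      | nil => simp [ad]
      | cons p l =>
        exact fun e => ed_ne _ ((congrArg Prod.snd (Option.some.inj e)).symm.trans (hl.2 p rfl))
    | cons r w =>
      intro e
      obtain ⟨e1, e2⟩ := Prod.ext_iff.1 (Option.some.inj e)
      have e3 := lev_inj lo (sub_eq_zero.1 (tt_inj (e1.trans (zpow_zero tt).symm)))
      have e4 := (List.isChain_cons_cons.1 hw).1 e3.symm
      have e5 := ed_inj e2
      rw [← e4] at e5
      simp at e5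

theorem head_eq {c : ℤ} {q q' : Fin k × Bool}
    (h : ((tt ^ (lev lo q - c), ed q.2) : Port) = (tt ^ (lev lo q' - c), ed q'.2)) : q = q' :=
  Prod.ext (lev_inj lo (sub_left_inj.1 (tt_inj (congrArg Prod.fst h))))
    (ed_inj (congrArg Prod.snd h))

theorem ad_inj {c : ℤ} {w w' : List (Fin k × Bool)} {l l' : List Port} (hl : Jk l) (hl' : Jk l')
    (h : ad lo c w l = ad lo c w' l') : w = w' ∧ l = l' := by
  induction w generalizing c w' with
  | nil =>
    cases w' with
    | nil =>
      cases l <;> cases l' <;> simp only [ad, reduceCtorEq, List.cons.injEq, Prod.mk.injEq,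
        mul_right_inj, true_and] at h ⊢
      exact ⟨Prod.ext h.1.1 h.1.2, h.2⟩
    | cons q w' =>
      cases l with
      | nil => simp [ad] at h
      | cons p l =>
        exact (ed_ne _ ((congrArg Prod.snd (List.cons.inj h).1).symm.trans (hl.2 p rfl))).elim
  | cons q w ih =>
    cases w' with
    | nil =>
      cases l' with
      | nil => simp [ad] at h
      | cons p l' =>
        exact (ed_ne _ ((congrArg Prod.snd (List.cons.inj h).1).trans (hl'.2 p rfl))).elim
    | cons q' w' =>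
      obtain ⟨h1, h2⟩ := List.cons.inj h
      obtain rfl := head_eq lo h1
      obtain ⟨rfl, rfl⟩ := ih h2
      exact ⟨rfl, rfl⟩

theorem ad_concat {c : ℤ} {w w' : List (Fin k × Bool)} {l l' : List Port} {p : Port} (hl : Jk l)
    (hl' : Jk l') (h : ad lo c w' l' = ad lo c w l ++ [p]) : w = w' ∨ (l = [] ∧ l' = [] ∧
      ∃ q, w' = w ++ [q] ∧ p = (tt ^ (lev lo q - en lo c w), ed q.2)) := by
  induction w generalizing c w' with
  | nil =>
    cases w' with
    | nil => exact Or.inl rfl
    | cons q w' =>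
      cases l with
      | cons p l =>
        exact (ed_ne _ ((congrArg Prod.snd (List.cons.inj h).1).trans (hl.2 p rfl))).elim
      | nil =>
        obtain ⟨h1, h2⟩ := List.cons.inj h
        cases w' with
        | cons r w' => simp [ad] at h2
        | nil =>
          cases l' with
          | cons r l' => simp [ad] at h2
          | nil => exact Or.inr ⟨rfl, rfl, q, rfl, h1.symm⟩
  | cons q w ih =>
    cases w' with
    | nil =>
      cases l' with
      | nil => simp [ad] at h
      | cons p l' =>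
        exact (ed_ne _ ((congrArg Prod.snd (List.cons.inj h).1).symm.trans (hl'.2 p rfl))).elim
    | cons q' w' =>
      obtain ⟨h1, h2⟩ := List.cons.inj h
      obtain rfl := head_eq lo h1
      rcases ih h2 with rfl | ⟨a1, a2, r, rfl, a3⟩
      · exact Or.inl rfl
      · exact Or.inr ⟨a1, a2, r, rfl, a3⟩

theorem val_eq (w : FreeGroup (Fin k)) (l : List Port) :
    val (ad lo 0 w.toWord l) = eta lo k w * val l * tl lo 0 w.toWord l := by
  rw [val_ad, FreeGroup.mk_toWord, neg_zero, zpow_zero, one_mul]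

theorem same (h : Tree) (w w' : FreeGroup (Fin k)) (l l' : List Port) (hl : Jk l) (hl' : Jk l')
    (t : ty true l = ty true l')
    (E : (eta lo k w * val l)⁻¹ * (eta lo k w' * val l') ∈ Lam (ty true l)) : w = w' ∧ l = l' := by
  have h1 := h.uniq true _ _ (red_ad lo 0 (FreeGroup.isReduced_toWord (x := w)) hl)
    (red_ad lo 0 (FreeGroup.isReduced_toWord (x := w')) hl') (by rw [ty_ad, ty_ad, t]) (by
      rw [ty_ad, val_eq, val_eq, mul_inv_rev, mul_assoc, ← mul_assoc _ _ (tl lo 0 _ l')]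
      exact mul_mem (inv_mem (tl_mem lo _ _ _)) (mul_mem E (t ▸ tl_mem lo _ _ _)))
  exact (ad_inj lo hl hl' h1).imp_left fun e => FreeGroup.toWord_injective e

theorem half {w w' : FreeGroup (Fin k)} {l l' : List Port} {e : Ed} {a a' : GG} (hl : Jk l)
    (hl' : Jk l') (h1 : (tl lo 0 w'.toWord l')⁻¹ * a' = 1)
    (h2 : ad lo 0 w'.toWord l' = ad lo 0 w.toWord l ++ [((tl lo 0 w.toWord l)⁻¹ * a, e)]) :
    w = w' ∨ (l = [] ∧ l' = [] ∧ ∃ i : Fin k, a = tt ^ (lo + (i : ℕ)) ∧ a' = a ∧
      ((e = .A ∧ w' = w * FreeGroup.of i) ∨ (e = .B ∧ w = w' * FreeGroup.of i))) := by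
  rcases ad_concat lo hl hl' h2 with h | ⟨rfl, rfl, ⟨i, b⟩, h3, h4⟩
  · exact Or.inl (FreeGroup.toWord_injective h)
  obtain ⟨h4, h5⟩ := Prod.ext_iff.1 h4
  have h6 : a = tt ^ lev lo (i, b) := by
    rw [inv_mul_eq_iff_eq_mul.1 h4, tl, ← zpow_add, add_sub_cancel]
  have h7 : w' = w * FreeGroup.mk [(i, b)] := by
    rw [← FreeGroup.mk_toWord (x := w'), h3, ← FreeGroup.mul_mk, FreeGroup.mk_toWord]
  refine Or.inr ⟨rfl, rfl, i, h6, ?_, ?_⟩
  · rw [← inv_mul_eq_one.1 h1, h6, tl, h3, en_concat]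
  · cases b
    · refine Or.inr ⟨h5, ?_⟩
      rw [h7, show FreeGroup.mk [(i, false)] = (FreeGroup.of i)⁻¹ from rfl, inv_mul_cancel_right]
    · exact Or.inl ⟨h5, h7⟩

theorem ex_aux (L : List Port) (hL : Red true L) (c : ℤ) : ∃ N : ℕ, ∀ (lo : ℤ) (k : ℕ),
    lo ≤ -N → N ≤ lo + k → ∃ w l, Jk l ∧ ty true l = ty true L ∧
      (eta lo k w * val l)⁻¹ * (tt ^ c * val L) ∈ Lam (ty true L) := by
  induction L generalizing c with
  | nil => exact ⟨0, fun lo k _ _ => ⟨1, [], ⟨trivial, by simp⟩, rfl, by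
      simpa [val, ty] using tt_mem c⟩⟩
  | cons p L ih =>
    obtain ⟨a, e⟩ := p
    obtain ⟨h1, ⟨m, rfl⟩, h3, h4⟩ := hL
    have key : ∀ b, e = ed b → ∃ N : ℕ, ∀ (lo : ℤ) (k : ℕ), lo ≤ -N → N ≤ lo + k → ∃ w l, Jk l ∧
        ty true l = ty true ((tt ^ m, e) :: L) ∧ (eta lo k w * val l)⁻¹ *
          (tt ^ c * val ((tt ^ m, e) :: L)) ∈ Lam (ty true ((tt ^ m, e) :: L)) := by
      rintro b rfl
      obtain ⟨N, hN⟩ := ih (by simpa only [ed_tgt] using h3) (c + m)
      refine ⟨N + ((c + m).natAbs + 1), fun lo k a1 a2 => ?_⟩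
      obtain ⟨w, l, b1, b2, b3⟩ := hN lo k (by omega) (by omega)
      have b4 : lev lo ((⟨(c + m - lo).toNat, by omega⟩, b) : Fin k × Bool) = c + m := by
        simp only [lev]
        omega
      refine ⟨FreeGroup.mk [(⟨(c + m - lo).toNat, by omega⟩, b)] * w, l, b1,
        by rw [ty, ed_tgt, b2], ?_⟩
      have b5 : eta lo k (FreeGroup.mk []) = 1 := map_one _
      rw [ty, ed_tgt, map_mul, eta_cons, b4, b5, val]
      refine (congrArg (· ∈ Lam (ty true L)) ?_).mp b3
      simp only [zpow_add]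
      group
    cases e
    · exact key true rfl
    · exact key false rfl
    · exact ⟨0, fun lo k _ _ => ⟨1, (tt ^ c * tt ^ m, .K) :: L,
        ⟨⟨rfl, mul_mem (tt_mem _) (tt_mem _), h3, h4⟩, by simp⟩, rfl, by simp [val, mul_assoc]⟩⟩
    · exact absurd h1 (by simp [Ed.src])

end NbPP

open NbPP in
theorem pp (h : Tree) (h' : Nb) : PP where
  same lo _ := same lo h
  adj lo k w w' l l' e a a' hl hl' t t' ha ha' E := by
    rcases h' true _ _ e ((tl lo 0 w.toWord l)⁻¹ * a) ((tl lo 0 w'.toWord l')⁻¹ * a')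
      (red_ad lo 0 (FreeGroup.isReduced_toWord (x := w)) hl)
      (red_ad lo 0 (FreeGroup.isReduced_toWord (x := w')) hl') (by rw [ty_ad, t])
      (by rw [ty_ad, t']) (mul_mem (inv_mem (t ▸ tl_mem lo _ _ _)) ha)
      (mul_mem (inv_mem (t' ▸ tl_mem lo _ _ _)) ha')
      (by rw [val_eq, val_eq, mul_assoc, mul_inv_cancel_left, E, mul_assoc _ (tl lo 0 _ l),
        mul_inv_cancel_left]) with ⟨h1, h2⟩ | ⟨h1, h2⟩
    · exact half lo hl hl' h1 h2
    · rcases half lo hl' hl h1 h2 with h3 | ⟨h3, h4, i, h5, h6, h7⟩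
      · exact Or.inl h3.symm
      · refine Or.inr ⟨h4, h3, i, h6.trans h5, h6.symm, ?_⟩
        cases e <;> simp_all [Ed.bar]
  ex g i := by
    obtain ⟨L, h1, rfl, h3⟩ := h.ex true g i
    obtain ⟨N, hN⟩ := ex_aux L h1 0
    refine ⟨N, fun lo k a1 a2 => ?_⟩
    obtain ⟨w, l, b1, b2, b3⟩ := hN lo k a1 a2
    refine ⟨w, l, b1, b2, ?_⟩
    simpa [mul_assoc] using mul_mem b3 h3
  notJ lo k w hw := by
    have h1 : Jk [(1, Ed.K)] := ⟨⟨rfl, one_mem _, trivial, by simp⟩, by simp⟩
    exact (same lo h 1 w _ _ h1 h1 rfl (by simpa [val, Ed.s, ty, Ed.tgt] using hw)).1.symm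

end Vale.Agent.P260Z.L3
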