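import Vale.Agent.P260Z.L3.Sk

/-!
# P260, layer 3: the plane in the filling by the complement
-/

noncomputable section

namespace Vale.Agent.P260Z.L3

open Set Topology Filter

set_option linter.unusedVariables false

namespace Pln

/-- the plane of the fibre coordinates `(-6, 6)` -/
def q (u : ℝ × ℝ) : R4 := ![u.1, u.2, -6, 6]

theorem continuous_q : Continuous q := by unfold q; fun_prop

theorem continuous_tH : Continuous tH := by unfold tH n2; fun_prop

theorem continuous_toU : Continuous toU := by unfold toU; fun_prop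

theorem gg_kl (a : KJ) (u : ℝ × ℝ) : gg (kl a (q u)) = 0 := by simp [gg, n2, kl, q]

theorem gg_q (u : ℝ × ℝ) : gg (q u) = 0 := by simp [gg, n2, q]

theorem rr_toU (y : R4) : rr (toU y) = tH y := by simp [rr, tH, toU]

theorem abs_sg (n : ℤ) : |(sg n : ℝ)| = 1 := by
  have h : (sg n : ℝ) * sg n = 1 := by exact_mod_cast sg_mul_self n
  rcases mul_self_eq_one_iff.1 h with h | h <;> simp [h]

theorem tH_near (a : KJ) {u v : ℝ × ℝ} (h : dist v u < 1) (hu : 11 ≤ tH (kl a (q u))) :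
    10 ≤ tH (kl a (q v)) := by
  rw [Prod.dist_eq, max_lt_iff, Real.dist_eq, Real.dist_eq] at h
  change 11 ≤ max |sg a.n * u.1 + 40 * a.m| |u.2 + 40 * a.n| at hu
  change 10 ≤ max |sg a.n * v.1 + 40 * a.m| |v.2 + 40 * a.n|
  rcases le_max_iff.1 hu with h1 | h1
  · have h2 := abs_sub_abs_le_abs_sub (sg a.n * u.1 + 40 * a.m) (sg a.n * v.1 + 40 * a.m)
    rw [add_sub_add_right_eq_sub, ← mul_sub, abs_mul, abs_sg, one_mul, abs_sub_comm] at h2
    exact le_max_of_le_left (by linarith [h.1])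
  · have h2 := abs_sub_abs_le_abs_sub (u.2 + 40 * a.n) (v.2 + 40 * a.n)
    rw [add_sub_add_right_eq_sub, abs_sub_comm] at h2
    exact le_max_of_le_right (by linarith [h.2])

theorem lam_true {l : GG} (hl : l ∈ Lam true) {y : R4} {c r : ℝ} (hy : y 2 = -6)
    (h : |act true l y 2 - c| < r) : ∃ k : ℤ, l = tt ^ k ∧ |72 * (k : ℝ) - 6 - c| < r := by
  obtain ⟨k, rfl⟩ := Subgroup.mem_zpowers_iff.1 hl
  refine ⟨k, rfl, ?_⟩
  have e : act true (tt ^ k) y 2 = y 2 + 72 * (lv (tt ^ k) : ℝ) := rfl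
  rw [e, lv_tt_zpow, hy] at h
  convert h using 2
  ring

theorem lam_one {l : GG} (hl : l ∈ Lam true) {y : R4} (hy : y 2 = -6)
    (h : |act true l y 2 + 6| < 2) : l = 1 := by
  obtain ⟨k, rfl, hk⟩ := lam_true (c := -6) hl hy (by rwa [sub_neg_eq_add])
  obtain ⟨h1, h2⟩ := abs_lt.1 hk
  have h3 : (-1 : ℝ) < k := by linarith
  have h4 : (k : ℝ) < 1 := by linarith
  obtain rfl : k = 0 := by
    have h5 : -1 < k := by exact_mod_cast h3
    have h6 : k < 1 := by exact_mod_cast h4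
    omega
  exact zpow_zero _

theorem lam_not {l : GG} (hl : l ∈ Lam true) {y : R4} (hy : y 2 = -6) {c : ℝ} (h1 : 6 ≤ c)
    (h2 : c ≤ 60) : ¬ |act true l y 2 - c| < 6 := fun h => by
  obtain ⟨k, -, hk⟩ := lam_true hl hy h
  obtain ⟨h3, h4⟩ := abs_lt.1 hk
  have h5 : (0 : ℝ) < k := by linarith
  have h6 : (k : ℝ) < 1 := by linarith
  have h7 : 0 < k := by exact_mod_cast h5
  have h8 : k < 1 := by exact_mod_cast h6
  omega

variable {T : TG} {s : Psi}

/-- the points of the level `-6` in the pieces at the Klein bottle subgroup -/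
theorem mem_of_rel (hi : Iot) (hT : T.Is1 s) {g : GG} {c c' : KJ} {i i' : Bool} {y y' : R4}
    (hy : y 2 = -6) (hy' : y' 2 = -6) (h : T.Rel (g * jj c) i y (jj c') i' y') :
    g ∈ Lam false := by
  have key : ∀ l ∈ Lam false, ∀ l' ∈ Lam false, jj c' * l'⁻¹ = g * jj c * l⁻¹ → g ∈ Lam false :=
    fun l hl l' hl' e => by
      have e2 : g = jj c' * l'⁻¹ * l * (jj c)⁻¹ := by rw [e]; group
      exact e2 ▸ mul_mem (mul_mem (mul_mem ⟨c', rfl⟩ (inv_mem hl')) hl) (inv_mem ⟨c, rfl⟩)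
  rcases h with ⟨rfl, h1, h2⟩ | ⟨e, l, hl, l', hl', rfl, rfl, h1, h2, h3⟩
  · cases i
    · exact key 1 (one_mem _) _ h1 (by group)
    · have h3 := lam_one h1 hy' (by rw [← h2, hy]; norm_num)
      exact key 1 (one_mem _) 1 (one_mem _) (by rw [inv_mul_eq_one.1 h3])
  · rw [hT.Wo_eq] at h1
    rw [hT.θ_eq] at h3
    cases e
    · exact absurd h1.2.2 (lam_not hl hy (by norm_num) (by norm_num))
    · exact absurd h1.2.2 (lam_not hl hy (by norm_num) (by norm_num))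
    · have h4 : |iot (act true l y) 2 + 6| < 3 / 2 := (le_max_left _ _).trans_lt h1.2.2.2
      rw [hi.two] at h4
      obtain rfl := lam_one hl hy (h4.trans (by norm_num))
      exact key 1 (one_mem _) _ hl' (h2.trans (mul_one _))
    · have h4 : act true l' y' 2 = y 2 := (congrFun h3 2).trans (hi.two _)
      obtain rfl := lam_one hl' hy' (by rw [h4, hy]; norm_num)
      exact key _ hl 1 (one_mem _) (h2.trans (mul_one _))

variable (T) in
open Classical in
/-- the plane -/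
def pl (u : ℝ × ℝ) : T.X :=
  if h : ∃ a, tH (kl a (q u)) < 11 then
    T.pt (jj h.choose⁻¹) true (iot (toU (kl h.choose (q u))))
  else T.pt 1 false (q u)

theorem toU_mem (h : Pos) {a : KJ} {u : ℝ × ℝ} (hu : tH (kl a (q u)) < 11) :
    toU (kl a (q u)) ∈ PC :=
  (h.PC_K (toU (kl a (q u))) (by rw [rr_toU]; exact hu.le) ((gg_kl a u).trans_le (by norm_num))).2
    (Or.inr ⟨by rwa [rr_toU], (gg_kl a u).trans_le zero_le_one⟩)

theorem mem_t (h : Pos) (hi : Iot) (hT : T.Is1 s) {a : KJ} {u : ℝ × ℝ}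
    (hu : tH (kl a (q u)) < 11) : iot (toU (kl a (q u))) ∈ T.P true :=
  hT.P_t ▸ Or.inr ((hi.iot_iot _).symm ▸ toU_mem h hu)

theorem mem_f (hT : T.Is1 s) {u : ℝ × ℝ} (hu : ∀ a, 10 ≤ tH (kl a (q u))) : q u ∈ T.P false :=
  hT.P_f ▸ Or.inl ⟨(gg_q u).trans_le zero_le_one, hu⟩

theorem pl_t (h : Pos) {a : KJ} {u : ℝ × ℝ} (hu : tH (kl a (q u)) < 11) :
    pl T u = T.pt (jj a⁻¹) true (iot (toU (kl a (q u)))) := by
  have h1 : ∃ a, tH (kl a (q u)) < 11 := ⟨a, hu⟩
  have h2 : h1.choose = a := by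
    by_contra hne
    have h3 := h.far (h1.choose * a⁻¹) (kl a (q u)) fun e => hne (mul_inv_eq_one.1 e)
    rw [← kl_mul, inv_mul_cancel_right] at h3
    linarith [h1.choose_spec]
  rw [pl, dif_pos h1, h2]

theorem pl_f (h : Pos) (hT : T.Is1 s) (h1 : T.Api1) {u : ℝ × ℝ}
    (hu : ∀ a, 10 ≤ tH (kl a (q u))) : pl T u = T.pt 1 false (q u) := by
  by_cases h2 : ∃ a, tH (kl a (q u)) < 11
  · obtain ⟨a, ha⟩ := h2
    have e : act false (jj a) (q u) = kl a (q u) := congrArg (kl · (q u)) (kj_jj a)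
    have h3 := h1.pt_lam (jj a⁻¹) (i := false) (l := jj a) ⟨a, rfl⟩ (mem_f hT hu)
    have h4 := h1.pt_edge (jj a⁻¹) (e := .L) (y := kl a (q u))
      ⟨e ▸ T.P_act false _ ⟨a, rfl⟩ (mem_f hT hu), hT.Wo_eq ▸
        ⟨by linarith [hu a], ha, (gg_kl a u).trans_lt (by norm_num)⟩⟩
    rw [← map_mul, inv_mul_cancel, map_one, e] at h3
    rw [hT.θ_eq] at h4
    rw [pl_t h ha, h3]
    exact (congrArg (T.pt · true _) (mul_one _).symm).trans h4
  · exact dif_neg h2

theorem far_le {u : ℝ × ℝ} (hu : ¬ ∃ a, tH (kl a (q u)) < 11) (a : KJ) : 11 ≤ tH (kl a (q u)) :=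
  not_lt.1 fun h => hu ⟨a, h⟩

theorem far_le' {u : ℝ × ℝ} (hu : ¬ ∃ a, tH (kl a (q u)) < 11) (a : KJ) : 10 ≤ tH (kl a (q u)) :=
  le_trans (by norm_num) (far_le hu a)

theorem pl_cont (h : Pos) (hi : Iot) (hT : T.Is1 s) (h1 : T.Api1) : Continuous (pl T) := by
  refine continuous_iff_continuousAt.2 fun u => ?_
  by_cases h2 : ∃ a, tH (kl a (q u)) < 11
  · obtain ⟨a, ha⟩ := h2
    have hc := (continuous_kl a).comp continuous_q
    have h3 : {v | tH (kl a (q v)) < 11} ∈ 𝓝 u :=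
      (isOpen_lt (continuous_tH.comp hc) continuous_const).mem_nhds ha
    refine (ContinuousOn.congr ((h1.cont (jj a⁻¹) true).comp (hi.cont.comp
      (continuous_toU.comp hc).continuousOn fun v hv e => ?_) fun v hv => mem_t h hi hT hv)
      fun v hv => pl_t h hv).continuousAt h3
    have := hi.low _ (toU_mem h hv)
    rw [show gam (toU (kl a (q v))) = 0 from e] at this
    norm_num at this
  · have h3 : ∀ v ∈ Metric.ball u 1, ∀ a, 10 ≤ tH (kl a (q v)) := fun v hv a =>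
      tH_near a hv (far_le h2 a)
    exact (ContinuousOn.congr ((h1.cont 1 false).comp continuous_q.continuousOn
      fun v hv => mem_f hT (h3 v hv)) fun v hv => pl_f h hT h1 (h3 v hv)).continuousAt
        (Metric.ball_mem_nhds u one_pos)

theorem pl_smul (h : Pos) (hi : Iot) (hT : T.Is1 s) (h1 : T.Api1) (b : KJ) {u v : ℝ × ℝ}
    (e : q v = kl b (q u)) : pl T v = jj b • pl T u := by
  by_cases h2 : ∃ a, tH (kl a (q u)) < 11
  · obtain ⟨a, ha⟩ := h2
    have e2 : kl (a * b⁻¹) (q v) = kl a (q u) := by rw [e, ← kl_mul, inv_mul_cancel_right]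
    rw [pl_t h ha, T.smul_pt _ _ (mem_t h hi hT ha), pl_t h (a := a * b⁻¹) (e2.symm ▸ ha), e2,
      ← map_mul, mul_inv_rev, inv_inv]
  · have h3 := far_le' h2
    rw [pl_f h hT h1 h3, T.smul_pt _ _ (mem_f hT h3),
      pl_f h hT h1 fun a => by rw [e, ← kl_mul]; exact h3 _, mul_one, ← one_mul (jj b),
      h1.pt_lam 1 (i := false) ⟨b, rfl⟩ (mem_f hT h3), e]
    exact congrArg (fun a => T.pt 1 false (kl a (q u))) (kj_jj b).symm

theorem pl_form (h : Pos) (hi : Iot) (hT : T.Is1 s) (h1 : T.Api1) (u : ℝ × ℝ) :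
    ∃ c i y, y ∈ T.P i ∧ y 2 = -6 ∧ pl T u = T.pt (jj c) i y := by
  by_cases h2 : ∃ a, tH (kl a (q u)) < 11
  · obtain ⟨a, ha⟩ := h2
    exact ⟨_, _, _, mem_t h hi hT ha, hi.two _, pl_t h ha⟩
  · exact ⟨1, _, _, mem_f hT (far_le' h2), rfl, map_one jj ▸ pl_f h hT h1 (far_le' h2)⟩

end Pln

open Pln in
theorem plane1 (ht : Tree) (h : Pos) (hi : Iot) : Plane1 := by
  intro T s hT h1 _
  refine ⟨pl T, fun _ _ e => e, pl_cont h hi hT h1, ?_, fun g hg u u' e => hg ?_⟩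
  · rintro ⟨_, b, rfl⟩ u
    exact pl_smul h hi hT h1 b (congrArg (kl · (q u)) (kj_jj b))
  · obtain ⟨c, i, y, h2, h3, h4⟩ := pl_form h hi hT h1 u
    obtain ⟨c', i', y', h5, h6, h7⟩ := pl_form h hi hT h1 u'
    rw [h4, h7, T.smul_pt _ _ h2] at e
    exact mem_of_rel hi hT h3 h6 ((h1.pt_eq h2 h5).1 e)

end Vale.Agent.P260Z.L3
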