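import Vale.Agent.P260Z.L3.Sk

/-!
# P260, layer 3: the elementary position facts and the inversion
-/

set_option linter.all false

noncomputable section

namespace Vale.Agent.P260Z.L3

open Set Topology Filter

namespace Ps

variable {y : R4} {n : ℤ} {c : Bx}

@[simp] theorem sh0 : sh n y 0 = y 0 := rfl
@[simp] theorem sh1 : sh n y 1 = y 1 := rfl
@[simp] theorem sh2 : sh n y 2 = y 2 + 72 * n := rfl
@[simp] theorem sh3 : sh n y 3 = y 3 := rfl

theorem cav_bd (h : c ∈ cav) : (3 : ℝ) ≤ c.x ∧ (-61 : ℝ) ≤ c.z ∧ (c.z' : ℝ) ≤ 57 := by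
  have : ∀ c ∈ cav, 3 ≤ c.x ∧ -61 ≤ c.z ∧ c.z' ≤ 57 := by decide
  exact_mod_cast this c h

theorem int_two (h1 : (-144 : ℝ) < 72 * n) (h2 : (72 * n : ℝ) < 72) : n = 0 ∨ n = -1 := by
  have h3 : -144 < 72 * n := by exact_mod_cast h1
  have h4 : 72 * n < 72 := by exact_mod_cast h2
  omega

theorem int_one (h1 : (-72 : ℝ) < 72 * n) (h2 : (72 * n : ℝ) < 72) : n = 0 := by
  have h3 : -72 < 72 * n := by exact_mod_cast h1
  have h4 : 72 * n < 72 := by exact_mod_cast h2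
  omega

theorem sh_UU (n : ℤ) (y : R4) : sh n y ∈ UU ↔ y ∈ UU :=
  and_congr Iff.rfl ⟨fun h m => by simpa only [← sh_add, sub_add_cancel] using h (m - n),
    fun h m => by simpa only [← sh_add] using h (m + n)⟩

theorem sh_UC (n : ℤ) (y : R4) : sh n y ∈ UC ↔ y ∈ UC :=
  or_congr Iff.rfl ⟨fun ⟨m, h⟩ => ⟨m + n, by simpa only [← sh_add] using h⟩,
    fun ⟨m, h⟩ => ⟨m - n, by simpa only [← sh_add, sub_add_cancel] using h⟩⟩

theorem open_op (c : Bx) : IsOpen c.op := by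
  unfold Bx.op
  simp only [setOf_and]
  refine .inter (.inter ?_ ?_) (.inter (.inter ?_ ?_) (.inter ?_ ?_)) <;>
    exact isOpen_lt (by fun_prop) (by fun_prop)

theorem closed_cl (c : Bx) : IsClosed c.cl := by
  unfold Bx.cl
  simp only [setOf_and]
  refine .inter (.inter ?_ ?_) (.inter (.inter ?_ ?_) (.inter ?_ ?_)) <;>
    exact isClosed_le (by fun_prop) (by fun_prop)

theorem tube_iff (y : R4) : (y ∈ tube ↔ gam y ≤ 1) ∧ (y ∈ tubeO ↔ gam y < 1) := by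
  simp only [tube, tubeO, gam, mem_setOf_eq, max_le_iff, max_lt_iff, abs_le, abs_lt,
    div_le_one (show (0 : ℝ) < 5 by norm_num), div_lt_one (show (0 : ℝ) < 5 by norm_num)]
  grind

theorem gam_cont : Continuous gam := by
  unfold gam
  fun_prop

theorem closed_UU : IsClosed UU := by
  have h : UU = {y | gam y ≤ 1} ∩ ⋂ n : ℤ, ⋂ c ∈ cav, (sh n ⁻¹' c.op)ᶜ := Set.ext fun y => by
    simp only [UU, mem_setOf_eq, (tube_iff y).1, mem_inter_iff, mem_iInter, mem_compl_iff,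
      mem_preimage]
  rw [h]
  exact (isClosed_le gam_cont continuous_const).inter (isClosed_iInter fun n =>
    isClosed_biInter fun c _ => ((open_op c).preimage (continuous_sh n)).isClosed_compl)

theorem UU_iff (y : R4) (h1 : -15 ≤ y 2) (h2 : y 2 ≤ 75) :
    y ∈ UU ↔ y ∈ tube ∧ ∀ c ∈ cav, y ∉ c.op ∧ sh (-1) y ∉ c.op := by
  refine and_congr Iff.rfl ⟨fun h c hc => ⟨sh_zero y ▸ h 0 c hc, h _ c hc⟩, fun h n c hc hn => ?_⟩
  obtain ⟨-, h3, h4⟩ := cav_bd hc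
  obtain ⟨-, -, h5, h6⟩ := id hn
  rw [sh2] at h5 h6
  obtain rfl | rfl := int_two (n := n) (by linarith) (by linarith)
  · exact (h c hc).1 (sh_zero y ▸ hn)
  · exact (h c hc).2 hn

theorem UC_iff (y : R4) (h1 : -15 < y 2) (h2 : y 2 < 75) :
    y ∈ UC ↔ y ∉ tubeO ∨ ∃ c ∈ cav, y ∈ c.cl ∨ sh (-1) y ∈ c.cl := by
  refine or_congr Iff.rfl ⟨fun ⟨n, c, hc, hn⟩ => ⟨c, hc, ?_⟩, fun ⟨c, hc, h⟩ =>
    h.elim (fun h => ⟨0, c, hc, (sh_zero y).symm ▸ h⟩) fun h => ⟨_, c, hc, h⟩⟩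
  obtain ⟨-, h3, h4⟩ := cav_bd hc
  obtain ⟨-, -, h5, h6⟩ := id hn
  rw [sh2] at h5 h6
  obtain rfl | rfl := int_two (n := n) (by linarith) (by linarith)
  · exact .inl (sh_zero y ▸ hn)
  · exact .inr hn

theorem closed_UC : IsClosed UC := by
  have h : IsClosed {y | y ∉ tubeO ∨ ∃ c ∈ cav, y ∈ c.cl ∨ sh (-1) y ∈ c.cl} := by
    simp only [(tube_iff _).2, not_lt, setOf_or, ← exists_prop, setOf_exists]
    exact (isClosed_le continuous_const gam_cont).union ((List.finite_toSet cav).isClosed_biUnion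
      fun c _ => (closed_cl c).union ((closed_cl c).preimage (continuous_sh _)))
  refine isClosed_iff_frequently.2 fun y hy => ?_
  obtain ⟨n, h1, h2⟩ : ∃ n, -15 < sh n y 2 ∧ sh n y 2 < 75 := ⟨-⌊y 2 / 72⌋, by
    have := Int.floor_le (y 2 / 72)
    have := Int.lt_floor_add_one (y 2 / 72)
    rw [sh2, Int.cast_neg]
    constructor <;> linarith⟩
  have h3 := ((continuous_apply 2).comp (continuous_sh n)).continuousAt.eventually
    (Ioo_mem_nhds h1 h2)
  rw [← sh_UC n, UC_iff _ h1 h2]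
  exact isClosed_iff_frequently.1 (h.preimage (continuous_sh n)) y ((hy.and_eventually h3).mono
    fun x hx => (UC_iff _ hx.2.1 hx.2.2).1 ((sh_UC n x).2 hx.1))

theorem colU (y : R4) (h1 : |y 0 - 14| ≤ 7) (h2 : ff y ≤ 7) (h3 : 23 ≤ y 2) (h4 : y 2 ≤ 53) :
    (y ∈ UU ↔ ff y ≤ 5) ∧ (y ∈ UC ↔ 5 ≤ ff y) := by
  rw [UU_iff y (by linarith) (by linarith), UC_iff y (by linarith) (by linarith)]
  simp only [ff, n2, max_le_iff, le_max_iff, abs_le, le_abs, cav, List.mem_cons, forall_eq_or_imp,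
    exists_eq_or_imp, List.not_mem_nil, false_imp_iff, false_and, exists_false, implies_true,
    Bx.op, Bx.cl, tube, tubeO, mem_setOf_eq, sh0, sh1, sh2, sh3] at *
  push_cast
  grind

theorem shell (y : R4) (h1 : 14 ≤ r3 y) (h2 : r3 y ≤ 26) (h3 : 23 ≤ y 2) (h4 : y 2 ≤ 53) :
    y ∈ UC ↔ ¬ (y 0 ≤ 34 ∧ ff y < 5) := by
  rw [UC_iff y (by linarith) (by linarith)]
  simp only [r3, ff, n2, max_le_iff, le_max_iff, max_lt_iff, abs_le, abs_lt, le_abs, cav,
    List.mem_cons, exists_eq_or_imp, List.not_mem_nil, false_and, exists_false,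
    Bx.cl, tubeO, mem_setOf_eq, sh0, sh1, sh2, sh3] at *
  push_cast
  grind

theorem neck (y : R4) (h1 : rr y ≤ 11) (h2 : |y 2 + 6| ≤ 4) (h3 : |y 3 - 6| ≤ 4) :
    (y ∈ UU ↔ 10 ≤ rr y) ∧ (y ∈ UC ↔ rr y ≤ 10) := by
  rw [abs_le] at h2
  rw [UU_iff y (by linarith) (by linarith), UC_iff y (by linarith) (by linarith)]
  simp only [rr, n2, max_le_iff, le_max_iff, abs_le, le_abs, cav, List.mem_cons, forall_eq_or_imp,
    exists_eq_or_imp, List.not_mem_nil, false_imp_iff, false_and, exists_false, implies_true,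
    Bx.op, Bx.cl, tube, tubeO, mem_setOf_eq, sh0, sh1, sh2, sh3] at *
  push_cast
  grind

/-- a periodic set near the level `0` -/
theorem mem_per {A : Set R4} (h : ∀ n, sh n y ∈ A → |(72 * n : ℝ)| < 72) : y ∈ per A ↔ y ∈ A :=
  ⟨fun ⟨n, hn⟩ => by
    obtain rfl := int_one (abs_lt.1 (h n hn)).1 (abs_lt.1 (h n hn)).2
    exact sh_zero y ▸ hn, fun h => ⟨0, (sh_zero y).symm ▸ h⟩⟩

theorem PU_A (y : R4) (h1 : aA y ≤ 7) (h2 : ff y ≤ 7) :
    y ∈ PU ↔ ff y ≤ 5 ∨ (aA y ≤ 5 ∧ ff y < 6) := by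
  have h3 := h1
  simp only [aA, n2, max_le_iff, abs_le] at h3
  rw [PU, mem_union, (colU y (abs_le.2 h3.1) h2 (by linarith) (by linarith)).1, mem_per] <;>
    simp only [StA, StB, StK, aA, aB, rr, gg, n2, max_le_iff, max_lt_iff, abs_le, abs_lt,
      mem_union, mem_setOf_eq, sh0, sh1, sh2, sh3] <;> grind

theorem PU_B (y : R4) (h1 : aB y ≤ 7) (h2 : ff y ≤ 7) :
    y ∈ PU ↔ ff y ≤ 5 ∨ (aB y ≤ 5 ∧ ff y < 6) := by
  have h3 := h1
  simp only [aB, n2, max_le_iff, abs_le] at h3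
  rw [PU, mem_union, (colU y (abs_le.2 h3.1) h2 (by linarith) (by linarith)).1, mem_per] <;>
    simp only [StA, StB, StK, aA, aB, rr, gg, n2, max_le_iff, max_lt_iff, abs_le, abs_lt,
      mem_union, mem_setOf_eq, sh0, sh1, sh2, sh3] <;> grind

theorem PU_K (y : R4) (h1 : rr y ≤ 11) (h2 : gg y ≤ 4) :
    y ∈ PU ↔ 10 ≤ rr y ∨ (9 < rr y ∧ gg y ≤ 1) := by
  have h3 := h1
  simp only [rr, gg, n2, max_le_iff] at h2 h3
  rw [PU, mem_union, (neck y h1 h2.1 h2.2).1, mem_per] <;>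
    simp only [StA, StB, StK, aA, aB, gg, n2, max_le_iff, max_lt_iff, abs_le, abs_lt,
      mem_union, mem_setOf_eq, sh0, sh1, sh2, sh3] at * <;> grind

theorem PC_K (y : R4) (h1 : rr y ≤ 11) (h2 : gg y ≤ 4) :
    y ∈ PC ↔ rr y ≤ 10 ∨ (rr y < 11 ∧ gg y ≤ 1) := by
  have h3 := h1
  simp only [rr, gg, n2, max_le_iff] at h2 h3
  rw [PC, mem_union, (neck y h1 h2.1 h2.2).2, mem_per] <;>
    simp only [StA, StB, StK, aA, aB, gg, n2, max_le_iff, max_lt_iff, abs_le, abs_lt,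
      mem_union, mem_inter_iff, mem_setOf_eq, sh0, sh1, sh2, sh3] at * <;> grind

theorem far (a : KJ) (y : R4) (h : a ≠ 1) : 40 ≤ tH y + tH (kl a y) := by
  have k : ∀ (m : ℤ) (x : ℝ), m ≠ 0 → 40 ≤ |x| + |x + 40 * m| := fun m x hm => by
    have h1 : (1 : ℝ) ≤ |(m : ℝ)| := by exact_mod_cast Int.one_le_abs hm
    grind
  by_cases hn : a.n = 0
  · refine (k a.m (y 0) fun hm => h (KJ.ext hm hn)).trans
      (add_le_add (le_max_left _ _) (le_max_of_le_left ?_))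
    simp [kl, hn]
  · exact (k a.n (y 1) hn).trans (add_le_add (le_max_right _ _) (le_max_right _ _))

theorem PH_L (y : R4) (h : tH y ≤ 29) : (y ∈ CH ↔ 10 ≤ tH y ∧ gg y ≤ 1) ∧
    (y ∈ PH ↔ (10 ≤ tH y ∧ gg y ≤ 1) ∨ (9 < tH y ∧ tH y ≤ 10 ∧ gg y < 3 / 2)) := by
  have h1 : y ∈ CH ↔ 10 ≤ tH y ∧ gg y ≤ 1 := ⟨fun h => ⟨kl_one y ▸ h.2 1, h.1⟩, fun h' =>
    ⟨h'.2, fun a => by
      by_cases ha : a = 1
      · rw [ha, kl_one]
        exact h'.1
      · linarith [far a y ha]⟩⟩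
  refine ⟨h1, or_congr h1 ⟨fun ⟨a, ha⟩ => ?_, fun h => ⟨1, (kl_one y).symm ▸ h⟩⟩⟩
  by_cases h1 : a = 1
  · rwa [h1, kl_one] at ha
  · linarith [far a y h1, ha.2.1]

theorem gam_nonneg (y : R4) : 0 ≤ gam y := le_max_of_le_right (by positivity)

theorem gam_scale (y : R4) {s : ℝ} (h : 0 ≤ s) :
    gam ![2 + (y 0 - 2) * s, 2 + (y 1 - 2) * s, y 2, 6 + (y 3 - 6) * s] = gam y * s := by
  simp only [gam, max_mul_of_nonneg _ _ h, Matrix.cons_val, add_sub_cancel_left, abs_mul,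
    abs_of_nonneg h, sub_add_cancel_left, mul_div_right_comm, ← neg_mul, neg_sub]

theorem gam_iot (y : R4) (h : gam y ≠ 0) : gam (iot y) = (gam y)⁻¹ := by
  simp only [iot, div_eq_mul_inv]
  rw [gam_scale y (by positivity)]
  field_simp

theorem iot_iot (y : R4) : iot (iot y) = y := by
  by_cases h : gam y = 0
  · have h1 := h.le
    simp only [gam, max_le_iff, div_le_iff₀ (show (0 : ℝ) < 5 by norm_num), abs_le] at h1
    have h2 : iot y = y := by
      ext j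
      fin_cases j <;> simp [iot, h] <;> linarith [h1.1.1.1, h1.1.1.2, h1.1.2.1, h1.1.2.2, h1.2.1,
        h1.2.2]
    rw [h2, h2]
  · rw [iot, gam_iot y h]
    ext j
    fin_cases j <;> simp [iot] <;> field_simp <;> ring

theorem iot_cont : ContinuousOn iot {y | gam y ≠ 0} := by
  have h : ∀ (j : Fin 4) (c : ℝ), ContinuousOn (fun y => c + (y j - c) / gam y ^ 2) {y | gam y ≠ 0} :=
    fun j c => continuousOn_const.add (ContinuousOn.div (by fun_prop) (gam_cont.pow 2).continuousOn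
      fun y hy => pow_ne_zero 2 hy)
  refine continuousOn_pi.2 fun j => ?_
  fin_cases j
  exacts [h 0 2, h 1 2, (continuous_apply 2).continuousOn, h 3 6]

theorem low (y : R4) (h : y ∈ PC) : 1 / 65 ≤ gam y := by
  have k : 3 ≤ y 0 → 1 / 65 ≤ gam y := fun h =>
    le_max_of_le_left (le_max_of_le_left (le_max_of_le_left (by linarith)))
  rcases h with (h | ⟨n, c, hc, h⟩) | ⟨n, h⟩
  · linarith [not_lt.1 (mt (tube_iff y).2.2 h)]
  · exact k ((cav_bd hc).1.trans h.1.1)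
  · refine k ?_
    simp only [StA, StB, StK, aA, aB, rr, n2, max_le_iff, max_lt_iff, abs_le, abs_lt,
      mem_union, mem_inter_iff, mem_setOf_eq, sh0, sh1, sh2, sh3] at h
    grind

end Ps

open Ps

theorem pos : Pos :=
  ⟨sh_UU, sh_UC, closed_UU, closed_UC, UU_iff, UC_iff, colU, shell, neck, PU_A, PU_B, PU_K, PC_K,
    PH_L, far⟩

theorem iot_all (h : Pos) : Iot where
  gam_cont := gam_cont
  gam_nonneg := gam_nonneg
  gam_iot := gam_iot
  iot_iot := iot_iot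
  cont := iot_cont
  two _ := rfl
  sh_iot _ _ := rfl
  gam_sh _ _ := rfl
  tube_iff := tube_iff
  low := low
  closed A hA _ _ := isOpen_compl_iff.1 <| by
    convert iot_cont.isOpen_inter_preimage (isOpen_ne_fun gam_cont continuous_const)
      hA.isOpen_compl using 1
    exact Set.ext fun y => not_or
  fix y h := by
    ext j
    fin_cases j <;> simp [iot, h]

end Vale.Agent.P260Z.L3
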