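import Vale.Agent.P260Z.L3.Sk

/-!
# P260, layer 3: the parametrisation of the shell
-/

noncomputable section

namespace Vale.Agent.P260Z.L3

open Set Topology

namespace PsiB

/-- the length along the profile of the cube -/
def dd (r ρ : ℝ) : ℝ := min ((r - 3 / 2) * ρ) (4 * r - 10 + ρ)
/-- the first coordinate on the profile -/
def xd (r d : ℝ) : ℝ := max (-r) (min r (2 * r - d))
/-- the second coordinate on the profile -/
def fd (r d : ℝ) : ℝ := min d (min r (4 * r - d))
/-- the scaling factor -/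
def mu (r ρ : ℝ) : ℝ := min (r - 3 / 2) (min r (4 * r - dd r ρ) / max ρ (1 / 2))
/-- the length of a point of the profile -/
def di (r x f : ℝ) : ℝ := 2 * r - x - max (f - r) (min x (r - f))
/-- the inverse of `dd` -/
def ri (r d : ℝ) : ℝ := max (d / max (r - 3 / 2) 1) (d - 4 * r + 10)
/-- the inverse scaling factor -/
def nu (r x f : ℝ) : ℝ := max (1 / max (r - 3 / 2) 1) (ri r (di r x f) / max f 1)

theorem dd_lo {r ρ : ℝ} (hr : 14 ≤ r) (h : ρ ≤ 4) : dd r ρ = (r - 3 / 2) * ρ := by
  unfold dd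
  apply min_eq_left
  nlinarith

theorem dd_hi {r ρ : ℝ} (hr : 14 ≤ r) (h : 4 ≤ ρ) : dd r ρ = 4 * r - 10 + ρ := by
  unfold dd
  apply min_eq_right
  nlinarith

theorem dd_mem {r ρ : ℝ} (hr : 14 ≤ r) (h0 : 0 ≤ ρ) (h6 : ρ ≤ 6) :
    0 ≤ dd r ρ ∧ dd r ρ ≤ 4 * r - 4 := by
  unfold dd
  exact ⟨le_min (by nlinarith) (by linarith), (min_le_right _ _).trans (by linarith)⟩

theorem ri_lo {r d : ℝ} (hr : 14 ≤ r) (h : d ≤ 4 * r - 6) : ri r d = d / (r - 3 / 2) := by
  unfold ri
  rw [max_eq_left (by linarith : (1 : ℝ) ≤ r - 3 / 2)]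
  apply max_eq_left
  rw [le_div_iff₀ (by linarith)]
  nlinarith

theorem ri_hi {r d : ℝ} (hr : 14 ≤ r) (h : 4 * r - 6 ≤ d) : ri r d = d - 4 * r + 10 := by
  unfold ri
  rw [max_eq_left (by linarith : (1 : ℝ) ≤ r - 3 / 2)]
  apply max_eq_right
  rw [div_le_iff₀ (by linarith)]
  nlinarith

theorem ri_dd {r ρ : ℝ} (hr : 14 ≤ r) : ri r (dd r ρ) = ρ := by
  rcases le_total ρ 4 with h | h
  · rw [dd_lo hr h, ri_lo hr (by nlinarith)]
    exact mul_div_cancel_left₀ _ (by linarith)
  · rw [dd_hi hr h, ri_hi hr (by linarith)]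
    ring

theorem dd_ri {r d : ℝ} (hr : 14 ≤ r) : dd r (ri r d) = d := by
  rcases le_total d (4 * r - 6) with h | h
  · rw [ri_lo hr h, dd_lo hr (by rw [div_le_iff₀ (by linarith)]; linarith)]
    exact mul_div_cancel₀ _ (by linarith)
  · rw [ri_hi hr h, dd_hi hr (by linarith)]
    ring

theorem ri_mem {r d : ℝ} (hr : 14 ≤ r) (h0 : 0 ≤ d) (h1 : d ≤ 4 * r - 4) :
    0 ≤ ri r d ∧ ri r d ≤ 6 := by
  rcases le_total d (4 * r - 6) with h | h
  · rw [ri_lo hr h]
    exact ⟨div_nonneg h0 (by linarith), by rw [div_le_iff₀ (by linarith)]; linarith⟩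
  · rw [ri_hi hr h]
    exact ⟨by linarith, by linarith⟩

theorem mu_nonneg {r ρ : ℝ} (hr : 14 ≤ r) (h0 : 0 ≤ ρ) (h6 : ρ ≤ 6) : 0 ≤ mu r ρ := by
  have h := dd_mem hr h0 h6
  unfold mu
  exact le_min (by linarith)
    (div_nonneg (le_min (by linarith) (by linarith)) (le_max_of_le_left h0))

theorem mu_mul {r ρ : ℝ} (hr : 14 ≤ r) (h0 : 0 ≤ ρ) : mu r ρ * ρ = fd r (dd r ρ) := by
  unfold mu fd
  rcases le_total ρ (1 / 2) with h | h
  · have e := dd_lo hr (by linarith : ρ ≤ 4)
    have h1 : (r - 3 / 2) * ρ ≤ r := by nlinarith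
    rw [max_eq_right h, e, min_eq_left (by linarith : r ≤ 4 * r - (r - 3 / 2) * ρ),
      min_eq_left h1, min_eq_left (by rw [le_div_iff₀ (by norm_num)]; linarith)]
  · have hp : 0 < ρ := by linarith
    rw [max_eq_left h, min_mul_of_nonneg _ _ h0, div_mul_cancel₀ _ hp.ne']
    rcases le_total ρ 4 with h4 | h4
    · rw [dd_lo hr h4]
    · rw [dd_hi hr h4, min_eq_right (le_trans (min_le_left _ _) (by nlinarith)),
        min_eq_right (le_trans (min_le_left _ _) (by linarith))]

theorem prof {r d : ℝ} (hr : 14 ≤ r) (h0 : 0 ≤ d) (h1 : d ≤ 4 * r - 4) :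
    max |xd r d| (fd r d) = r ∧ di r (xd r d) (fd r d) = d ∧ ¬ (xd r d ≤ 0 ∧ fd r d < 4) ∧
      (d ≤ 4 * r - 6 → ¬ (xd r d ≤ 0 ∧ fd r d < 6)) := by
  rcases le_total d r with h | h
  · have ex : xd r d = r := by
      unfold xd
      rw [min_eq_left (by linarith), max_eq_right (by linarith)]
    have ef : fd r d = d := by
      unfold fd
      exact min_eq_left (le_min h (by linarith))
    rw [ex, ef, abs_of_nonneg (by linarith)]
    refine ⟨max_eq_left h, ?_, fun hh => by linarith [hh.1], fun _ hh => by linarith [hh.1]⟩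
    unfold di
    rw [min_eq_right (by linarith), max_eq_right (by linarith)]
    ring
  · rcases le_total d (3 * r) with h' | h'
    · have ex : xd r d = 2 * r - d := by
        unfold xd
        rw [min_eq_right (by linarith), max_eq_right (by linarith)]
      have ef : fd r d = r := by
        unfold fd
        rw [min_eq_left (by linarith : r ≤ 4 * r - d), min_eq_right h]
      rw [ex, ef]
      refine ⟨max_eq_right (abs_le.2 ⟨by linarith, by linarith⟩), ?_,
        fun hh => by linarith [hh.2], fun _ hh => by linarith [hh.2]⟩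
      unfold di
      rw [sub_self, max_eq_left (min_le_right _ _)]
      ring
    · have ex : xd r d = -r := by
        unfold xd
        rw [min_eq_right (by linarith), max_eq_left (by linarith)]
      have ef : fd r d = 4 * r - d := by
        unfold fd
        rw [min_eq_right (by linarith : 4 * r - d ≤ r), min_eq_right (by linarith)]
      rw [ex, ef, abs_neg, abs_of_nonneg (by linarith)]
      refine ⟨max_eq_left (by linarith), ?_, fun hh => by linarith [hh.2],
        fun _ hh => by linarith [hh.2]⟩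
      unfold di
      rw [min_eq_left (by linarith), max_eq_left (by linarith)]
      ring

theorem prof' {r x f : ℝ} (hr : 14 ≤ r) (h0 : 0 ≤ f) (e : max |x| f = r)
    (hn : ¬ (x ≤ 0 ∧ f < 4)) :
    0 ≤ di r x f ∧ di r x f ≤ 4 * r - 4 ∧ xd r (di r x f) = x ∧ fd r (di r x f) = f ∧
      nu r x f * f = ri r (di r x f) := by
  have hf : f ≤ r := e ▸ le_max_right _ _
  have hx : |x| ≤ r := e ▸ le_max_left _ _
  have hx' := abs_le.1 hx
  have hc : max (r - 3 / 2) 1 = r - 3 / 2 := max_eq_left (by linarith)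
  have key : 1 ≤ f → f ≤ di r x f → nu r x f * f = ri r (di r x f) := by
    intro h1 h2
    have hp : 0 < f := by linarith
    unfold nu
    rw [max_eq_left h1, max_eq_right, div_mul_cancel₀ _ hp.ne']
    rw [le_div_iff₀ hp, one_div_mul_eq_div]
    refine le_trans ?_ (le_max_left _ _)
    exact div_le_div_of_nonneg_right h2 (by rw [hc]; linarith)
  rcases max_choice |x| f with h | h
  · rw [e] at h
    rcases le_total 0 x with hs | hs
    · rw [abs_of_nonneg hs] at h
      subst h
      have ed : di r r f = f := by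
        unfold di
        rw [min_eq_right (by linarith), max_eq_right (by linarith)]
        ring
      refine ⟨by rw [ed]; exact h0, by rw [ed]; linarith, ?_, ?_, ?_⟩
      · rw [ed]
        unfold xd
        rw [min_eq_left (by linarith), max_eq_right (by linarith)]
      · rw [ed]
        unfold fd
        exact min_eq_left (le_min hf (by linarith))
      · rcases le_total 1 f with h1 | h1
        · exact key h1 ed.ge
        · unfold nu
          rw [ed, ri_lo hr (by linarith), hc, max_eq_right h1, div_one, max_eq_left,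
            one_div_mul_eq_div]
          exact div_le_div_of_nonneg_right h1 (by linarith)
    · rw [abs_of_nonpos hs] at h
      have h4 : 4 ≤ f := by
        by_contra h4
        exact hn ⟨hs, not_le.1 h4⟩
      obtain rfl : x = -r := by linarith
      have ed : di r (-r) f = 4 * r - f := by
        unfold di
        rw [min_eq_left (by linarith), max_eq_left (by linarith)]
        ring
      refine ⟨by rw [ed]; linarith, by rw [ed]; linarith, ?_, ?_,
        key (by linarith) (by rw [ed]; linarith)⟩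
      · rw [ed]
        unfold xd
        rw [min_eq_right (by linarith), max_eq_left (by linarith)]
      · rw [ed]
        unfold fd
        rw [min_eq_right (by linarith : 4 * r - (4 * r - f) ≤ r), min_eq_right (by linarith)]
        ring
  · rw [e] at h
    subst h
    have ed : di r x r = 2 * r - x := by
      unfold di
      rw [sub_self, max_eq_left (min_le_right _ _)]
      ring
    refine ⟨by rw [ed]; linarith, by rw [ed]; linarith, ?_, ?_,
      key (by linarith) (by rw [ed]; linarith)⟩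
    · rw [ed]
      unfold xd
      rw [min_eq_right (by linarith), max_eq_right (by linarith)]
      ring
    · rw [ed]
      unfold fd
      rw [min_eq_left (by linarith : r ≤ 4 * r - (2 * r - x)), min_eq_right (by linarith)]

theorem nu_nonneg (r x f : ℝ) : 0 ≤ nu r x f :=
  le_max_of_le_left (div_nonneg zero_le_one (le_max_of_le_right zero_le_one))

theorem n2_mul {m : ℝ} (hm : 0 ≤ m) (a b : ℝ) : n2 (m * a) (m * b) = m * n2 a b := by
  unfold n2
  rw [abs_mul, abs_mul, abs_of_nonneg hm, mul_max_of_nonneg _ _ hm]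

theorem n2_nonneg (a b : ℝ) : 0 ≤ n2 a b := le_max_of_le_left (abs_nonneg _)

theorem scale {m a b : ℝ} (h : m * n2 a b = n2 a b) : m * a = a ∧ m * b = b := by
  rcases eq_or_ne (n2 a b) 0 with h0 | h0
  · have ha : |a| ≤ 0 := h0 ▸ le_max_left _ _
    have hb : |b| ≤ 0 := h0 ▸ le_max_right _ _
    rw [abs_nonpos_iff] at ha hb
    simp [ha, hb]
  · have : m = 1 := mul_right_cancel₀ h0 (by rw [h, one_mul])
    simp [this]

/-- from the column to the shell -/
def ps (y : R4) : R4 :=
  ![34 + xd (34 - y 0) (dd (34 - y 0) (ff y)), 34 + mu (34 - y 0) (ff y) * (y 1 - 34), y 2,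
    6 + mu (34 - y 0) (ff y) * (y 3 - 6)]

/-- from the shell to the column -/
def ch (y : R4) : R4 :=
  ![34 - r3 y, 34 + nu (r3 y) (y 0 - 34) (ff y) * (y 1 - 34), y 2,
    6 + nu (r3 y) (y 0 - 34) (ff y) * (y 3 - 6)]

theorem ff_nonneg (y : R4) : 0 ≤ ff y := n2_nonneg _ _

theorem ff_cont : Continuous ff := by
  unfold ff n2
  fun_prop

theorem r3_cont : Continuous r3 := by
  have := ff_cont
  unfold r3
  fun_prop

theorem half_ne (a : ℝ) : max a (1 / 2) ≠ 0 := (lt_max_of_lt_right (by norm_num)).ne'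
theorem one_ne (a : ℝ) : max a 1 ≠ 0 := (lt_max_of_lt_right (by norm_num)).ne'

theorem ps_cont : Continuous ps := by
  have := ff_cont
  unfold ps xd mu dd
  fun_prop (disch := exact fun _ => half_ne _)

theorem ch_cont : Continuous ch := by
  have := ff_cont
  have := r3_cont
  unfold ch nu ri di
  fun_prop (disch := exact fun _ => one_ne _)

theorem ff_ps {y : R4} (h1 : |y 0 - 14| ≤ 6) (h2 : ff y ≤ 6) :
    ff (ps y) = mu (34 - y 0) (ff y) * ff y := by
  have hr : 14 ≤ 34 - y 0 := by linarith [(abs_le.1 h1).2]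
  have := n2_mul (mu_nonneg hr (ff_nonneg y) h2) (y 1 - 34) (y 3 - 6)
  change n2 (34 + _ - 34) (6 + _ - 6) = _
  rw [add_sub_cancel_left, add_sub_cancel_left]
  exact this

theorem ff_ch (y : R4) : ff (ch y) = nu (r3 y) (y 0 - 34) (ff y) * ff y := by
  have := n2_mul (nu_nonneg (r3 y) (y 0 - 34) (ff y)) (y 1 - 34) (y 3 - 6)
  change n2 (34 + _ - 34) (6 + _ - 6) = _
  rw [add_sub_cancel_left, add_sub_cancel_left]
  exact this

theorem ps_zero (y : R4) : ps y 0 - 34 = xd (34 - y 0) (dd (34 - y 0) (ff y)) :=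
  add_sub_cancel_left _ _

theorem ps_facts {y : R4} (h1 : |y 0 - 14| ≤ 6) (h2 : ff y ≤ 6) :
    r3 (ps y) = 34 - y 0 ∧ di (34 - y 0) (ps y 0 - 34) (ff (ps y)) = dd (34 - y 0) (ff y) ∧
      ¬ (ps y 0 - 34 ≤ 0 ∧ ff (ps y) < 4) ∧
      (ff y ≤ 4 → ¬ (ps y 0 - 34 ≤ 0 ∧ ff (ps y) < 6)) := by
  have hr : 14 ≤ 34 - y 0 := by linarith [(abs_le.1 h1).2]
  have hd := dd_mem hr (ff_nonneg y) h2
  obtain ⟨a, b, c, d⟩ := prof hr hd.1 hd.2
  unfold r3
  rw [ps_zero, ff_ps h1 h2, mu_mul hr (ff_nonneg y)]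
  refine ⟨a, b, c, fun h4 => d ?_⟩
  rw [dd_lo hr h4]
  nlinarith

end PsiB

open PsiB in
theorem psiE : PsiE := by
  refine ⟨⟨ps, ch, ps_cont.continuousOn, ch_cont.continuousOn, ?_, ?_, ?_, ?_, ?_, ?_⟩⟩
  · intro y h1 h2
    obtain ⟨a, -, c, -⟩ := ps_facts h1 h2
    exact ⟨a, rfl, fun h => c ⟨by linarith [h.1], h.2⟩⟩
  · intro y h1 _ h3
    obtain ⟨a, b, -, -, e⟩ := prof' h1 (ff_nonneg y) (x := y 0 - 34) rfl
      fun h => h3 ⟨by linarith [h.1], h.2⟩
    refine ⟨rfl, rfl, ?_⟩
    rw [ff_ch, e]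
    exact (ri_mem h1 a b).2
  · intro y h1 h2
    have hr : 14 ≤ 34 - y 0 := by linarith [(abs_le.1 h1).2]
    obtain ⟨a, b, c, -⟩ := ps_facts h1 h2
    obtain ⟨-, -, -, -, e⟩ := prof' hr (ff_nonneg (ps y)) (x := ps y 0 - 34) a c
    rw [b, ri_dd hr, ff_ps h1 h2, ← mul_assoc, ← ff_ps h1 h2] at e
    obtain ⟨s1, s2⟩ := scale e
    unfold ch
    rw [a]
    ext j
    fin_cases j
    · simp
    · change 34 + _ * (34 + _ - 34) = y 1
      rw [add_sub_cancel_left, ← mul_assoc, s1]
      ring
    · rfl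
    · change 6 + _ * (6 + _ - 6) = y 3
      rw [add_sub_cancel_left, ← mul_assoc, s2]
      ring
  · intro y h1 _ h3
    obtain ⟨a, b, c, d, e⟩ := prof' h1 (ff_nonneg y) (x := y 0 - 34) rfl
      fun h => h3 ⟨by linarith [h.1], h.2⟩
    have e0 : 34 - ch y 0 = r3 y := sub_sub_cancel _ _
    have e1 : ff (ch y) = ri (r3 y) (di (r3 y) (y 0 - 34) (ff y)) := by rw [ff_ch, e]
    have e2 := mu_mul h1 (ri_mem h1 a b).1
    rw [dd_ri h1, d, ← e1] at e2
    have e3 : mu (r3 y) (ff (ch y)) * nu (r3 y) (y 0 - 34) (ff y) * ff y = ff y := by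
      rw [mul_assoc, ← ff_ch, e2]
    obtain ⟨s1, s2⟩ := scale e3
    unfold ps
    rw [e0]
    ext j
    fin_cases j
    · change 34 + _ = y 0
      rw [e1, dd_ri h1, c]
      ring
    · change 34 + _ * (34 + _ - 34) = y 1
      rw [add_sub_cancel_left, ← mul_assoc, s1]
      ring
    · rfl
    · change 6 + _ * (6 + _ - 6) = y 3
      rw [add_sub_cancel_left, ← mul_assoc, s2]
      ring
  · intro y h1 h2 h3
    have hr : 14 ≤ 34 - y 0 := by linarith [(abs_le.1 h1).2]
    have hp : ff y ≠ 0 := by linarith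
    have e := mu_mul hr (ff_nonneg y)
    have ef : fd (34 - y 0) (dd (34 - y 0) (ff y)) = 10 - ff y := by
      rw [dd_hi hr h2]
      unfold fd
      rw [min_eq_right (by linarith : 4 * (34 - y 0) - (4 * (34 - y 0) - 10 + ff y) ≤ 34 - y 0),
        min_eq_right (by linarith)]
      ring
    have em : mu (34 - y 0) (ff y) = (10 - ff y) / ff y := by
      rw [eq_div_iff hp, e, ef]
    have ex : 34 + xd (34 - y 0) (dd (34 - y 0) (ff y)) = y 0 := by
      rw [dd_hi hr h2]
      unfold xd
      rw [min_eq_right (by linarith), max_eq_left (by linarith)]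
      ring
    unfold ps
    rw [em, ex]
  · intro y h1 h2 h
    exact (ps_facts h1 (by linarith)).2.2.2 h2 ⟨by linarith [h.1], h.2⟩

end Vale.Agent.P260Z.L3
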