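import Vale.Agent.P260Z.L3.Sk

/-!
# P260, layer 3: flat charts for lattice expressions
-/

noncomputable section

namespace Vale.Agent.P260Z.L3

open Set Topology Filter

namespace Shr

theorem hsat_of {P B : Set R4} {b : R4} {φ : R4 → (Fin 3 → ℝ) × ℝ} {ψ : (Fin 3 → ℝ) × ℝ → R4}
    (hφ : Continuous φ) (hψ : Continuous ψ)
    (h1 : ∀ᶠ y in 𝓝 b, ψ (φ y) = y ∧ (y ∈ P ↔ 0 ≤ (φ y).2) ∧ (y ∈ P → (y ∈ B ↔ (φ y).2 = 0)))
    (h2 : ∀ᶠ v in 𝓝 (φ b), φ (ψ v) = v) : HSat P B b := by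
  obtain ⟨O, hO, oO, bO⟩ := eventually_nhds_iff.1 h1
  obtain ⟨N, hN, oN, bN⟩ := eventually_nhds_iff.1 h2
  refine ⟨O ∩ φ ⁻¹' N, N ∩ ψ ⁻¹' O, φ, ψ, oO.inter (oN.preimage hφ), oN.inter (oO.preimage hψ),
    ⟨bO, bN⟩, hφ.continuousOn, hψ.continuousOn, fun y hy => ⟨⟨hy.2.2, ?_⟩, (hO y hy.2.1).2.1.1 hy.1⟩,
    fun v hv => ⟨(hO _ hv.1.2).2.1.2 ?_, hv.1.2, ?_⟩, fun y hy => (hO y hy.2.1).1,
    fun v hv => hN v hv.1.1, fun y hy => (hO y hy.2.1).2.2 hy.1⟩
  · rw [mem_preimage, (hO y hy.2.1).1]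
    exact hy.2.1
  · rw [hN v hv.1.1]
    exact hv.2
  · rw [mem_preimage, hN v hv.1.1]
    exact hv.1.1

theorem int (P B : Set R4) (b : R4) (h : ∀ᶠ y in 𝓝 b, y ∈ P ∧ y ∉ B) : HSat P B b := by
  have h0 : ∀ᶠ y in 𝓝 b, b 0 - 1 < y 0 :=
    (continuous_apply 0).continuousAt.eventually (lt_mem_nhds (sub_one_lt _))
  refine hsat_of (φ := fun y => (fun j => y j.succ, y 0 - b 0 + 1))
    (ψ := fun v => ![v.2 + b 0 - 1, v.1 0, v.1 1, v.1 2]) (by fun_prop) (by fun_prop) ?_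
    (.of_forall fun v => Prod.ext (funext fun j => by fin_cases j <;> rfl) (by simp; ring))
  filter_upwards [h, h0] with y h1 h2
  refine ⟨funext fun j => by fin_cases j <;> simp; ring, iff_of_true h1.1 ?_,
    fun _ => iff_of_false h1.2 fun e => ?_⟩
  · change 0 ≤ y 0 - b 0 + 1
    linarith
  · change y 0 - b 0 + 1 = 0 at e
    linarith

theorem tr (P B P' B' O : Set R4) (f f' : R4 → R4) (b : R4) (hO : IsOpen O) (hb : b ∈ O)
    (c1 : ContinuousOn f O) (c2 : ContinuousOn f' O) (m1 : MapsTo f O O) (m2 : MapsTo f' O O)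
    (e1 : ∀ y ∈ O, f' (f y) = y) (e2 : ∀ y ∈ O, f (f' y) = y) (hP : ∀ y ∈ O, y ∈ P ↔ f y ∈ P')
    (hB : ∀ y ∈ O, y ∈ P → (y ∈ B ↔ f y ∈ B')) (h : HSat P' B' (f b)) : HSat P B b := by
  obtain ⟨O', N, φ, ψ, k1, k2, k3, k4, k5, k6, k7, k8, k9, k10⟩ := h
  obtain ⟨N', n1, n2⟩ := continuousOn_iff'.1 k5 O hO
  have m3 : MapsTo f (P ∩ (O ∩ f ⁻¹' O')) (P' ∩ O') := fun y hy => ⟨(hP y hy.2.1).1 hy.1, hy.2.2⟩
  have m4 : N ∩ N' ∩ L2.Hs ⊆ N ∩ L2.Hs := fun v hv => ⟨hv.1.1, hv.2⟩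
  have m5 : MapsTo ψ (N ∩ N' ∩ L2.Hs) O := fun v hv => (n2.ge ⟨hv.1.2, m4 hv⟩).1
  refine ⟨O ∩ f ⁻¹' O', N ∩ N', fun y => φ (f y), fun v => f' (ψ v),
    c1.isOpen_inter_preimage hO k1, k2.inter n1, ⟨hb, k3⟩,
    k4.comp (c1.mono fun y hy => hy.2.1) m3, c2.comp (k5.mono m4) m5,
    fun y hy => ⟨⟨(k6 (m3 hy)).1, (n2.le ⟨?_, k6 (m3 hy)⟩).1⟩, (k6 (m3 hy)).2⟩,
    fun v hv => ⟨(hP _ (m2 (m5 hv))).2 ?_, m2 (m5 hv), ?_⟩, fun y hy => ?_, fun v hv => ?_,
    fun y hy => (hB y hy.2.1 hy.1).trans (k10 _ (m3 hy))⟩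
  · rw [mem_preimage, k8 _ (m3 hy)]
    exact m1 hy.2.1
  · rw [e2 _ (m5 hv)]
    exact (k7 (m4 hv)).1
  · rw [mem_preimage, e2 _ (m5 hv)]
    exact (k7 (m4 hv)).2
  · simp only [k8 _ (m3 hy), e1 y hy.2.1]
  · simp only [e2 _ (m5 hv), k9 v (m4 hv)]

theorem ev_cont (e : Ex) : Continuous e.ev := by
  induction e with
  | atom j c s =>
    cases s
    · exact continuous_const.sub (continuous_apply j)
    · exact (continuous_apply j).sub continuous_const
  | min a b ha hb => exact ha.min hb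
  | max a b ha hb => exact ha.max hb

/-- the direction in which all active atoms grow -/
def dirn (σ : Fin 4 → ℤ → Bool) (b : R4) : R4 := fun j => if σ j ⌊b j⌋ then 1 else -1

theorem dirn_sq (σ : Fin 4 → ℤ → Bool) (b : R4) (j : Fin 4) : dirn σ b j * dirn σ b j = 1 := by
  unfold dirn
  split_ifs <;> norm_num

theorem ev_lt {a c : Ex} {b v : R4} (h : a.ev b < c.ev b) : ∀ᶠ p : R4 × ℝ in 𝓝 (b, 0),
    a.ev p.1 < c.ev p.1 ∧ a.ev (p.1 + p.2 • v) < c.ev (p.1 + p.2 • v) := by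
  have h1 : Continuous fun p : R4 × ℝ => p.1 + p.2 • v := by fun_prop
  exact (((ev_cont a).comp continuous_fst).continuousAt.eventually_lt
    ((ev_cont c).comp continuous_fst).continuousAt (by simpa using h)).and
    (((ev_cont a).comp h1).continuousAt.eventually_lt ((ev_cont c).comp h1).continuousAt
      (by simpa using h))

theorem ev_add {σ : Fin 4 → ℤ → Bool} {b : R4} (e : Ex) (h : e.ok σ = true) (h0 : e.ev b = 0) :
    ∀ᶠ p : R4 × ℝ in 𝓝 (b, 0), e.ev (p.1 + p.2 • dirn σ b) = e.ev p.1 + p.2 := by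
  induction e with
  | atom j c s =>
    have h1 : b j = c := by
      cases s <;> simp [Ex.ev] at h0 <;> linarith
    refine .of_forall fun p => ?_
    have h2 : σ j c = s := by simpa [Ex.ok] using h
    cases s <;> simp [Ex.ev, dirn, h1, h2] <;> ring
  | min a c ha hc =>
    rw [Ex.ok, Bool.and_eq_true] at h
    rw [Ex.ev] at h0
    rcases lt_trichotomy (a.ev b) (c.ev b) with k | k | k
    · filter_upwards [ha h.1 (by rwa [min_eq_left k.le] at h0), ev_lt k] with p h1 h2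
      rw [Ex.ev, Ex.ev, min_eq_left h2.1.le, min_eq_left h2.2.le, h1]
    · rw [k, min_self] at h0
      filter_upwards [ha h.1 (k.trans h0), hc h.2 h0] with p h1 h2
      rw [Ex.ev, Ex.ev, h1, h2, min_add_add_right]
    · filter_upwards [hc h.2 (by rwa [min_eq_right k.le] at h0), ev_lt k] with p h1 h2
      rw [Ex.ev, Ex.ev, min_eq_right h2.1.le, min_eq_right h2.2.le, h1]
  | max a c ha hc =>
    rw [Ex.ok, Bool.and_eq_true] at h
    rw [Ex.ev] at h0
    rcases lt_trichotomy (a.ev b) (c.ev b) with k | k | k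
    · filter_upwards [hc h.2 (by rwa [max_eq_right k.le] at h0), ev_lt k] with p h1 h2
      rw [Ex.ev, Ex.ev, max_eq_right h2.1.le, max_eq_right h2.2.le, h1]
    · rw [k, max_self] at h0
      filter_upwards [ha h.1 (k.trans h0), hc h.2 h0] with p h1 h2
      rw [Ex.ev, Ex.ev, h1, h2, max_add_add_right]
    · filter_upwards [ha h.1 (by rwa [max_eq_left k.le] at h0), ev_lt k] with p h1 h2
      rw [Ex.ev, Ex.ev, max_eq_left h2.1.le, max_eq_left h2.2.le, h1]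

theorem ex (e : Ex) (σ : Fin 4 → ℤ → Bool) (P B : Set R4) (b : R4) (h : e.ok σ = true)
    (h0 : 0 ≤ e.ev b)
    (h1 : ∀ᶠ y in 𝓝 b, (y ∈ P ↔ 0 ≤ e.ev y) ∧ (y ∈ P → (y ∈ B ↔ e.ev y = 0))) : HSat P B b := by
  have hc := ev_cont e
  rcases h0.eq_or_lt with h0 | h0
  swap
  · refine int P B b ?_
    filter_upwards [h1, hc.continuousAt.eventually (lt_mem_nhds h0)] with y k1 k2
    exact ⟨k1.1.2 k2.le, fun k => k2.ne' ((k1.2 (k1.1.2 k2.le)).1 k)⟩
  have h2 := ev_add e h h0.symm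
  have h3 := dirn_sq σ b 0
  generalize dirn σ b = v at h2 h3
  let ba : (Fin 3 → ℝ) → R4 := fun w =>
    ![b 0, w 0 + v 1 * v 0 * b 0, w 1 + v 2 * v 0 * b 0, w 2 + v 3 * v 0 * b 0]
  have c1 : Continuous ba := by fun_prop
  have e1 : ∀ y : R4, ba (fun j => y j.succ - v j.succ * v 0 * y 0) =
      y + (v 0 * (b 0 - y 0)) • v := fun y => funext fun j => by
    fin_cases j <;> simp [ba]
    · linear_combination (y 0 - b 0) * h3
    all_goals ring
  refine hsat_of (φ := fun y => (fun j => y j.succ - v j.succ * v 0 * y 0, e.ev y))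
    (ψ := fun p => ba p.1 + (p.2 - e.ev (ba p.1)) • v) (by fun_prop) (by fun_prop) ?_ ?_
  · have t1 : Tendsto (fun y : R4 => (y, v 0 * (b 0 - y 0))) (𝓝 b) (𝓝 (b, 0)) :=
      Continuous.tendsto' (by fun_prop) _ _ (by simp)
    filter_upwards [h1, t1.eventually h2] with y k1 k2
    refine ⟨?_, k1⟩
    simp only [e1, k2]
    module
  · have t1 : Tendsto (fun p : (Fin 3 → ℝ) × ℝ => (ba p.1, p.2 - e.ev (ba p.1)))
        (𝓝 (fun j => b j.succ - v j.succ * v 0 * b 0, e.ev b)) (𝓝 (b, 0)) :=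
      Continuous.tendsto' (by fun_prop) _ _ (by simp [e1])
    filter_upwards [t1.eventually h2] with p k
    refine Prod.ext (funext fun j => ?_) (k.trans (by simp))
    fin_cases j <;> simp [ba]
    · linear_combination (-(p.2 - e.ev (ba p.1)) * v 1) * h3
    · linear_combination (-(p.2 - e.ev (ba p.1)) * v 2) * h3
    · linear_combination (-(p.2 - e.ev (ba p.1)) * v 3) * h3

/-- the sign on a unit cell -/
def pos (u : Fin 4 → ℤ) : Ex → Prop
  | .atom j c s => if s then c ≤ u j else u j < c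
  | .min a b => pos u a ∧ pos u b
  | .max a b => pos u a ∨ pos u b

theorem sign {u : Fin 4 → ℤ} {y : R4} (hy : ∀ j, (u j : ℝ) ≤ y j ∧ y j ≤ u j + 1) (e : Ex) :
    (pos u e → 0 ≤ e.ev y) ∧ (¬pos u e → e.ev y ≤ 0) := by
  induction e with
  | atom j c s =>
    have h := hy j
    have h1 : c ≤ u j → (c : ℝ) ≤ y j := fun k => (Int.cast_le.2 k).trans h.1
    have h2 : u j < c → y j ≤ c := fun k => h.2.trans (by exact_mod_cast k)
    cases s <;> simp [pos, Ex.ev] <;> tauto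
  | min a c ha hc =>
    exact ⟨fun k => le_min (ha.1 k.1) (hc.1 k.2), fun k => min_le_iff.2
      ((not_and_or.1 k).imp ha.2 hc.2)⟩
  | max a c ha hc =>
    exact ⟨fun k => le_max_iff.2 (k.imp ha.1 hc.1), fun k => max_le (ha.2 fun k' => k (.inl k'))
      (hc.2 fun k' => k (.inr k'))⟩

/-- the cells which contain `b` -/
def cel (b : R4) (ε : Fin 4 → Bool) : Fin 4 → ℤ := fun j => if ε j then ⌊b j⌋ else ⌈b j⌉ - 1

theorem mem_cel (b : R4) (ε : Fin 4 → Bool) (j : Fin 4) :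
    (cel b ε j : ℝ) ≤ b j ∧ b j ≤ cel b ε j + 1 := by
  unfold cel
  split_ifs
  · exact ⟨Int.floor_le _, (Int.lt_floor_add_one _).le⟩
  · push_cast
    exact ⟨by linarith [Int.ceil_lt_add_one (b j)], by linarith [Int.le_ceil (b j)]⟩

theorem side {σ ρ : Fin 4 → ℤ → Bool} {b : R4} {ε : Fin 4 → Bool} (e : Ex) (h : e.ok σ = true)
    (h' : e.only ρ = true) :
    ((∀ j, ρ j ⌊b j⌋ = true → ε j = σ j ⌊b j⌋) → 0 ≤ e.ev b → pos (cel b ε) e) ∧
    ((∀ j, ρ j ⌊b j⌋ = true → ε j = !σ j ⌊b j⌋) → e.ev b ≤ 0 → ¬pos (cel b ε) e) := by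
  induction e with
  | atom j c s =>
    have h1 := sign (mem_cel b ε) (.atom j c s)
    have h2 : (Ex.atom j c s).ev b = 0 → b j = c := fun h0 => by
      cases s <;> simp [Ex.ev] at h0 <;> linarith
    have h3 : σ j c = s := by simpa [Ex.ok] using h
    have h4 : ρ j c = true := h'
    refine ⟨fun k k0 => by_contra fun k1 => ?_, fun k k0 k1 => ?_⟩
    · have h5 := h2 (le_antisymm (h1.2 k1) k0)
      have h6 := k j
      rw [h5, Int.floor_intCast, h3] at h6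
      cases s <;> simp [pos, cel, h5, h6 h4] at k1
    · have h5 := h2 (le_antisymm k0 (h1.1 k1))
      have h6 := k j
      rw [h5, Int.floor_intCast, h3] at h6
      cases s <;> simp [pos, cel, h5, h6 h4] at k1
  | min a c ha hc =>
    rw [Ex.ok, Bool.and_eq_true] at h
    rw [Ex.only, Bool.and_eq_true] at h'
    exact ⟨fun k k0 => ⟨(ha h.1 h'.1).1 k (le_min_iff.1 k0).1, (hc h.2 h'.2).1 k (le_min_iff.1 k0).2⟩,
      fun k k0 k1 => (min_le_iff.1 k0).elim (fun k2 => (ha h.1 h'.1).2 k k2 k1.1)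
        fun k2 => (hc h.2 h'.2).2 k k2 k1.2⟩
  | max a c ha hc =>
    rw [Ex.ok, Bool.and_eq_true] at h
    rw [Ex.only, Bool.and_eq_true] at h'
    exact ⟨fun k k0 => (le_max_iff.1 k0).imp ((ha h.1 h'.1).1 k) ((hc h.2 h'.2).1 k),
      fun k k0 k1 => k1.elim ((ha h.1 h'.1).2 k (max_le_iff.1 k0).1)
        ((hc h.2 h'.2).2 k (max_le_iff.1 k0).2)⟩

theorem walk {p : (Fin 4 → Bool) → Prop} {ε₀ ε₁ : Fin 4 → Bool} (h0 : ¬p ε₀) (h1 : p ε₁) :
    ∃ ε n, (∀ j, ε j = ε₀ j ∨ ε j = ε₁ j) ∧ ¬p ε ∧ p (Function.update ε n (ε₁ n)) := by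
  by_contra o
  push Not at o
  have key : ∀ s : Finset (Fin 4), ¬p (s.piecewise ε₁ ε₀) := fun s => by
    induction s using Finset.induction_on with
    | empty => rwa [Finset.piecewise_empty]
    | insert n s _ ih =>
      rw [Finset.piecewise_insert]
      exact o _ n (fun j => by by_cases k : j ∈ s <;> simp [Finset.piecewise, k]) ih
  exact key Finset.univ (by rwa [Finset.piecewise_univ])

theorem pure (e e' : Ex) (σ τ : Fin 4 → ℤ → Bool) (b : R4) (h : e.ok σ = true)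
    (h' : e'.ok σ = true) (k : e.only τ = true) (k' : e'.only (fun j c => !τ j c) = true)
    (h0 : e.ev b = 0) (h0' : e'.ev b ≤ 0) :
    ∃ v n, b ∈ cube3 v n ∧ ∀ y ∈ cube3 v n, e.ev y = 0 ∧ e'.ev y ≤ 0 := by
  obtain ⟨ε, n, h1, h2, h3⟩ := walk (p := fun ε => pos (cel b ε) e) (ε₀ := fun j => !σ j ⌊b j⌋)
    (ε₁ := fun j => if τ j ⌊b j⌋ then σ j ⌊b j⌋ else !σ j ⌊b j⌋)
    ((side e h k).2 (fun _ _ => rfl) h0.le) ((side e h k).1 (fun j hj => if_pos hj) h0.ge)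
  have h4 : ¬pos (cel b ε) e' := (side e' h' k').2 (fun j hj => (h1 j).elim id fun k2 =>
    k2.trans (if_neg (by simpa using hj))) h0'
  generalize (if τ n ⌊b n⌋ then σ n ⌊b n⌋ else !σ n ⌊b n⌋) = t at h3
  have h5 : ∀ j, j ≠ n → cel b (Function.update ε n t) j = cel b ε j := fun j hj => by
    rw [cel, cel, Function.update_of_ne hj]
  have h6 : b n = ⌊b n⌋ := by
    by_contra o
    have h7 : ⌈b n⌉ - 1 = ⌊b n⌋ := by
      rw [(Int.ceil_eq_floor_add_one_iff_notMem _).2 fun ⟨c, hc⟩ => o (by rw [← hc, Int.floor_intCast])]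
      ring
    refine h2 ((funext fun j => ?_ : cel b (Function.update ε n t) = cel b ε) ▸ h3)
    by_cases hj : j = n
    · rw [hj, cel, cel, h7, ite_self, ite_self]
    · exact h5 j hj
  refine ⟨Function.update (cel b ε) n ⌊b n⌋, n, ⟨by simpa using h6, fun j hj => ?_⟩, fun y hy => ?_⟩
  · rw [Function.update_of_ne hj]
    exact mem_cel b ε j
  · have h8 : y n = b n := by rw [hy.1, Function.update_self, ← h6]
    have h9 : ∀ j, (cel b ε j : ℝ) ≤ y j ∧ y j ≤ cel b ε j + 1 := fun j => by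
      by_cases hj : j = n
      · rw [hj, h8]
        exact mem_cel b ε n
      · simpa only [Function.update_of_ne hj] using hy.2 j hj
    refine ⟨le_antisymm ((sign h9 e).2 h2) ((sign (fun j => ?_) e).1 h3), (sign h9 e').2 h4⟩
    by_cases hj : j = n
    · rw [hj, h8]
      exact mem_cel b _ n
    · rw [h5 j hj]
      exact h9 j

end Shr

theorem shear : Shear :=
  ⟨Shr.ex, Shr.int, fun P B P' B' O f f' b h1 h2 _ => Shr.tr P B P' B' O f f' b h1 h2, Shr.pure⟩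

end Vale.Agent.P260Z.L3
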