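import Vale.Agent.P260Z.L3.TG0A
import Vale.Agent.P260Z.L3.Expr

/-!
# P260, layer 3: the overlaps and the boundary cubes of the filling by the tower
-/

noncomputable section

namespace Vale.Agent.P260Z.L3

open Set Topology Kl

namespace T0

variable {T : TG}

theorem S_A (h : Pos) (hT : T.Is0) : T.S .A = {y | aA y ≤ 5 ∧ ff y ≤ 5} := by
  ext y
  change y ∈ T.C true ∧ y ∈ T.Wo .A ∧ T.θ .A y ∈ T.C true ↔ aA y ≤ 5 ∧ ff y ≤ 5
  rw [hT.C_t, hT.Wo_eq, hT.θ_eq]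
  change y ∈ UU ∧ (aA y < 6 ∧ ff y < 6) ∧ thA y ∈ UU ↔ _
  have a1 := UU_A h (y := y)
  have a2 := UU_B h (y := thA y)
  rw [aB_thA, ff_thA] at a2
  grind

theorem S_B (h : Pos) (hT : T.Is0) : T.S .B = {y | aB y ≤ 5 ∧ ff y ≤ 5} := by
  ext y
  change y ∈ T.C true ∧ y ∈ T.Wo .B ∧ T.θ .B y ∈ T.C true ↔ aB y ≤ 5 ∧ ff y ≤ 5
  rw [hT.C_t, hT.Wo_eq, hT.θ_eq]
  change y ∈ UU ∧ (aB y < 6 ∧ ff y < 6) ∧ thB y ∈ UU ↔ _
  have a1 := UU_B h (y := y)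
  have a2 := UU_A h (y := thB y)
  rw [aA_thB, ff_thB] at a2
  grind

theorem S_K (h : Pos) (hT : T.Is0) : T.S .K = {y | rr y = 10 ∧ gg y ≤ 1} := by
  ext y
  change y ∈ T.C true ∧ y ∈ T.Wo .K ∧ T.θ .K y ∈ T.C false ↔ rr y = 10 ∧ gg y ≤ 1
  rw [hT.C_t, hT.C_f, hT.Wo_eq, hT.θ_eq]
  have a1 := UU_K h (y := y)
  have a2 := fun a => (h.PH_L (th0 .K y) a).1
  have a3 := tH_thK (y := y)
  have a4 : gg (th0 .K y) = gg y := rfl
  have a5 : y ∈ Wo0 .K ↔ 9 < rr y ∧ rr y < 11 ∧ gg y < 3 / 2 := Iff.rfl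
  grind

theorem S_L (h : Pos) (hT : T.Is0) : T.S .L = {y | tH y = 10 ∧ gg y ≤ 1} := by
  ext y
  change y ∈ T.C false ∧ y ∈ T.Wo .L ∧ T.θ .L y ∈ T.C true ↔ tH y = 10 ∧ gg y ≤ 1
  rw [hT.C_t, hT.C_f, hT.Wo_eq, hT.θ_eq]
  have a1 := UU_K h (y := th0 .L y)
  have a2 := fun a => (h.PH_L y a).1
  have a3 := rr_thL (y := y)
  have a4 : gg (th0 .L y) = gg y := rfl
  have a5 : y ∈ Wo0 .L ↔ 9 < tH y ∧ tH y < 11 ∧ gg y < 3 / 2 := Iff.rfl
  grind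

theorem cell_ev {y z : R4} (hz : z ∈ cellOf y) (e : Ex) (h : 0 ≤ e.ev y) : 0 ≤ e.ev z := by
  induction e with
  | atom j c s =>
    cases s
    · have : ((⌈y j⌉ : ℤ) : ℝ) ≤ c := Int.cast_le.2 (Int.ceil_le.2 (sub_nonneg.1 h))
      exact sub_nonneg.2 ((hz j).2.trans this)
    · have : (c : ℝ) ≤ (⌊y j⌋ : ℤ) := Int.cast_le.2 (Int.le_floor.2 (sub_nonneg.1 h))
      exact sub_nonneg.2 (this.trans (hz j).1)
  | min a b ha hb => exact le_min (ha (le_min_iff.1 h).1) (hb (le_min_iff.1 h).2)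
  | max a b ha hb => exact le_max_iff.2 ((le_max_iff.1 h).imp ha hb)

theorem cell_le {y z : R4} (hz : z ∈ cellOf y) (j k : Fin 4) (c d r : ℤ)
    (h : n2 (y j - c) (y k - d) ≤ r) : n2 (z j - c) (z k - d) ≤ r := by
  simpa only [Ex.ev_sq, sub_nonneg, h, true_imp_iff] using cell_ev hz (.sq j c k d r)

theorem cell_eq {y z : R4} (hz : z ∈ cellOf y) (j k : Fin 4) (c d r : ℤ)
    (h : n2 (y j - c) (y k - d) = r) : n2 (z j - c) (z k - d) = r := by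
  refine le_antisymm (cell_le hz j k c d r h.le) ?_
  simpa only [Ex.ev_neg, Ex.ev_sq, neg_sub, sub_nonneg, h.ge, true_imp_iff] using
    cell_ev hz (Ex.sq j c k d r).neg

theorem cube_near {v : Fin 4 → ℤ} {n : Fin 4} {y z : R4} (hy : y ∈ cube3 v n)
    (hz : z ∈ cube3 v n) (j : Fin 4) : y j - 1 ≤ z j ∧ z j ≤ y j + 1 := by
  by_cases hj : j = n
  · rw [hj, hy.1, hz.1]
    constructor <;> linarith
  · have a1 := hy.2 j hj
    have a2 := hz.2 j hj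
    constructor <;> linarith [a1.1, a1.2, a2.1, a2.2]

theorem cube_sh (v : Fin 4 → ℤ) (n : Fin 4) (k : ℤ) (y : R4) :
    sh k y ∈ cube3 v n ↔ y ∈ cube3 (v - ![0, 0, 72 * k, 0]) n := by
  have e : ∀ j, sh k y j = y j + (![0, 0, 72 * k, 0] j : ℤ) := fun j => by
    fin_cases j <;> simp [sh]
  simp only [cube3, mem_ofPred_eq, e, Pi.sub_apply, Int.cast_sub, eq_sub_iff_add_eq,
    sub_le_iff_le_add, sub_add_eq_add_sub, le_sub_iff_add_le]

theorem pure_U (h : Pos) (hs : Shear) {y : R4} (hy : y ∈ ZU) :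
    ∃ v n, y ∈ cube3 v n ∧ cube3 v n ⊆ ZU := by
  obtain ⟨k, h1, h2⟩ := Xp.exists_window y
  have h3 := (Xp.ZU_iff h (by linarith) (by linarith)).1 ((sh_ZU h k y).2 hy)
  obtain ⟨v, n, a1, a2⟩ :=
    hs.pure _ _ _ _ _ Xp.ok_eU Xp.ok_eS Xp.only_eU Xp.only_eS h3.1 h3.2
  refine ⟨_, n, (cube_sh v n k y).1 a1, fun z hz => (sh_ZU h k z).1 ?_⟩
  rw [← cube_sh] at hz
  have := cube_near a1 hz 2
  exact (Xp.ZU_iff h (by linarith) (by linarith)).2 (a2 _ hz)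

theorem pure_H (h : Pos) (hs : Shear) {y : R4} (hy : y ∈ ZH) :
    ∃ v n, y ∈ cube3 v n ∧ cube3 v n ⊆ ZH := by
  obtain ⟨a, ha⟩ := exists_kl y
  obtain ⟨c, d, e⟩ : ∃ c d : ℤ, ∀ z, tH (kl a z) = n2 (z 0 - c) (z 1 - d) := by
    refine ⟨-(40 * (sg a.n * a.m)), -(40 * a.n), fun z => ?_⟩
    have : (sg a.n : ℝ) * sg a.n = 1 := by exact_mod_cast sg_mul_self a.n
    rw [← n2_sg a.n (z 0 - _)]
    change n2 (sg a.n * z 0 + 40 * a.m) (z 1 + 40 * a.n) = _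
    push_cast
    congr 1
    · linear_combination (-40 * a.m : ℝ) * this
    · ring
  have e1 : ∀ z, (Ex.sq 2 (-6) 3 6 1).ev z = 1 - gg z := fun z => by simp [Ex.ev_sq, gg]
  have e2 : ∀ z, (Ex.sq 0 c 1 d 10).ev z = 10 - tH (kl a z) := fun z => by simp [Ex.ev_sq, e]
  obtain ⟨v, n, a1, a2⟩ := hs.pure (.sq 2 (-6) 3 6 1) (.sq 0 c 1 d 10)
    (fun j x => x == ![c - 10, d - 10, -7, 5] j) (fun j _ => decide (2 ≤ j)) y
    (by simp [Ex.sq, Ex.iv, Ex.ok]) (by simp [Ex.sq, Ex.iv, Ex.ok]; omega) (by decide) (by rfl)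
    (by rw [e1, hy.2, sub_self]) (by rw [e2]; linarith [hy.1.2 a])
  refine ⟨v, n, a1, fun z hz => ?_⟩
  obtain ⟨b1, b2⟩ := a2 z hz
  rw [e1] at b1
  rw [e2] at b2
  have b3 := cube_near a1 hz 0
  have b4 := cube_near a1 hz 1
  rw [e, n2_le] at ha
  have b5 : tH (kl a z) ≤ 29 := by
    rw [e, n2_le]
    refine ⟨⟨?_, ?_⟩, ?_, ?_⟩ <;> linarith [ha.1.1, ha.1.2, ha.2.1, ha.2.2]
  exact ⟨(kl_CH a z).1 ((h.PH_L _ b5).1.2 ⟨by linarith, by rw [gg_kl]; linarith⟩), by linarith⟩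

end T0

open T0

theorem aeIn0 (h : Pos) (a1 : AE1) : AEIn0 := fun T hT hU => by
  refine ⟨hT.C_f, S_L h hT, hT.C_t ▸ hU, ?_⟩
  have e : T.S .A = Set.pi univ fun j =>
      Icc ((![9, 29, 41, 1] : R4) j) ((![19, 39, 51, 11] : R4) j) := by
    rw [S_A h hT]
    ext y
    simp only [mem_ofPred_eq, aA, ff, n2_le, mem_pi, mem_univ, true_imp_iff, Fin.forall_fin_succ,
      mem_Icc]
    simp
    grind
  rw [e]
  exact a1.pi fun j => a1.icc (by fin_cases j <;> simp <;> norm_num)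

theorem cell0 (h : Pos) (hs : Shear) : Cell0 := fun T hT => by
  refine ⟨fun i => ?_, fun e => ?_, fun e y hy z hz => ?_⟩
  · cases i
    · rw [hT.Z_f]
      exact fun y => pure_H h hs
    · rw [hT.Z_t]
      exact fun y => pure_U h hs
  · rw [hT.θ_eq]
    cases e
    · refine ⟨Equiv.swap 0 1 * Equiv.swap 2 3, ![-20, 20, 24, -40], fun y _ => funext fun j => ?_⟩
      fin_cases j <;> simp [th0, thA, Equiv.swap_apply_def] <;> ring
    · refine ⟨Equiv.swap 0 1 * Equiv.swap 2 3, ![-20, 20, 40, -24], fun y _ => funext fun j => ?_⟩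
      fin_cases j <;> simp [th0, thB, Equiv.swap_apply_def] <;> ring
    · refine ⟨1, ![-34, -34, 0, 0], fun y hy => ?_⟩
      rw [S_K h hT] at hy
      refine (rfl10_ten (y := toH y) hy.1).trans (funext fun j => ?_)
      fin_cases j <;> simp [toH] <;> ring
    · refine ⟨1, ![34, 34, 0, 0], fun y hy => ?_⟩
      rw [S_L h hT] at hy
      refine (congrArg toU (rfl10_ten hy.1)).trans (funext fun j => ?_)
      fin_cases j <;> simp [toU]
  · have hg : gg y ≤ 1 → gg z ≤ 1 := by simpa [gg] using cell_le hz 2 3 (-6) 6 1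
    have hf : ff y ≤ 5 → ff z ≤ 5 := by simpa [ff] using cell_le hz 1 3 34 6 5
    cases e
    · rw [S_A h hT] at hy ⊢
      exact ⟨by simpa [aA] using cell_le hz 0 2 14 46 5 (by simpa [aA] using hy.1), hf hy.2⟩
    · rw [S_B h hT] at hy ⊢
      exact ⟨by simpa [aB] using cell_le hz 0 2 14 30 5 (by simpa [aB] using hy.1), hf hy.2⟩
    · rw [S_K h hT] at hy ⊢
      exact ⟨by simpa [rr] using cell_eq hz 0 1 34 34 10 (by simpa [rr] using hy.1), hg hy.2⟩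
    · rw [S_L h hT] at hy ⊢
      exact ⟨by simpa [tH] using cell_eq hz 0 1 0 0 10 (by simpa [tH] using hy.1), hg hy.2⟩

end Vale.Agent.P260Z.L3
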