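import Vale.Agent.P260Z.L3.TG1B
import Vale.Agent.P260Z.L3.Kl

/-!
# P260, layer 3: the filling by the complement
-/

noncomputable section

namespace Vale.Agent.P260Z.L3

open Set Topology T1

namespace T1

variable (h : Pos) (hi : Iot) (s : Psi)
include h hi

theorem closed_C : IsClosed (inv UC) :=
  hi.closed _ h.closed_UC (fun _ => mem_UC hi) fun _ hy => gam_PC hi (Or.inl hy)

theorem cover_t {y : R4} (hy : y ∈ inv PC) : y ∈ inv UC ∨ ∃ e : Ed, ∃ l ∈ Lam true, e.src = true ∧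
    act true l y ∈ Wo1 e ∧ th1 s e (act true l y) ∈ cond e.tgt (inv UC) CH := by
  by_cases h0 : gam y = 0
  · exact Or.inl (Or.inl h0)
  rcases hy.resolve_left h0 with o | ⟨n, o⟩
  · exact Or.inl (Or.inr o)
  have h1 : gam (sh n y) ≠ 0 := (hi.gam_sh n y).trans_ne h0
  rw [← hi.sh_iot] at o
  rcases o with ⟨o | o, k⟩ | o
  · exact Or.inr ⟨.A, _, Kl.tt_mem n, rfl, Kl.act_tt n ▸ ab.cover s h hi h1 o.1 k o.2⟩
  · exact Or.inr ⟨.B, _, Kl.tt_mem n, rfl, Kl.act_tt n ▸ ba.cover s h hi h1 o.1 k o.2⟩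
  · rcases le_total (rr (iot (sh n y))) 10 with k | k
    · have := (neck h o.2.1.le (o.2.2.trans (by norm_num))).2.2 k
      rw [hi.sh_iot, h.sh_UC] at this
      exact Or.inl (Or.inr this)
    · refine Or.inr ⟨.K, _, Kl.tt_mem n, rfl, ?_⟩
      rw [Kl.act_tt]
      exact ⟨⟨h1, o.1, o.2.1, o.2.2.trans_lt (by norm_num)⟩,
        (h.PH_L (toH _) (o.2.1.le.trans (by norm_num))).1.2 ⟨k, o.2.2⟩⟩

theorem toU_UC {y : R4} (hy : y ∈ Wo0 .L) : iot (toU y) ∈ inv UC ↔ tH y ≤ 10 := by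
  have k : gg y ≤ 4 := hy.2.2.le.trans (by norm_num)
  rw [iot_inv hi (gam_toU hy.2.1.le k), (neck (y := toU y) h ((rr_toU y).trans_le hy.2.1.le) k).2,
    rr_toU]

/-- the data -/
def tg : TG where
  P := fun i => cond i (inv PC) PH
  C := fun i => cond i (inv UC) CH
  Zc := fun i => cond i (Dm ZU) ZH
  Wo := Wo1
  θ := th1 s
  ne := ⟨![2, 2, 0, 6], Or.inl (by simp [gam])⟩
  isOpen_Wo := fun e => by
    cases e
    exacts [open_W1 hi, open_W1 hi, open_Dm hi (Kl.isOpen_Wo0 .K), Kl.isOpen_Wo0 .L]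
  bdd := fun e => by
    have key : ∀ e : Ed, e.src = true → Bornology.IsBounded (inv PC ∩ Wo1 e) := fun e he =>
      bdd_gam.subset fun y hy => ⟨gam_inv hi hy.1, by
        have := abs_lt.1 (win_two hi he hy.2).2
        cases e <;> simp only [ht] at this <;> exact abs_le.2 ⟨by linarith [this.1], by linarith [this.2]⟩⟩
    cases e
    exacts [key _ rfl, key _ rfl, key _ rfl, (Kl.bdd_Wo0 .L).subset inter_subset_right]
  lc := fun i => by
    cases i
    exacts [Kl.lc_PH h, lc_PC h hi]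
  closed_C := fun i => by
    cases i
    exacts [Kl.isClosed_CH, closed_C h hi]
  closed_Z := fun i => by
    cases i
    exacts [Kl.isClosed_ZH, closed_Dm hi (closed_ZU h) fun w hw =>
      ((hi.tube_iff w).1.1 hw.1.1.1).trans (by norm_num)]
  C_sub := fun i => by
    cases i
    exacts [subset_union_left, fun _ hy => hy.imp_right Or.inl]
  Z_sub := fun i => by
    cases i
    exacts [fun _ hy => hy.1, fun _ hy => Or.inr hy.2.1.2]
  P_act := fun i l _ y hy => by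
    cases i
    exacts [(Kl.kl_PH _ y).2 hy, sh_inv hi (fun n y => (sh_PC h n y).2) _ hy]
  C_act := fun i l _ y hy => by
    cases i
    exacts [(Kl.kl_CH _ y).2 hy, sh_inv hi (fun n y => (h.sh_UC n y).2) _ hy]
  Z_act := fun i l _ y hy => by
    cases i
    exacts [(Kl.kl_ZH _ y).2 hy, ⟨(hi.gam_sh _ y).trans_ne hy.1,
      (hi.sh_iot (lv l) y).symm ▸ (sh_ZU h _ _).2 hy.2⟩]
  θ_cont := fun e => by
    cases e
    · exact (ab.cont_th s hi).mono fun _ hy => W1_sub hi hy.2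
    · exact (ba.cont_th s hi).mono fun _ hy => W1_sub hi hy.2
    · exact cont_toH.comp_continuousOn (hi.cont.mono fun _ hy => hy.2.1)
    · exact hi.cont.comp cont_toU.continuousOn fun _ hy =>
        gam_toU hy.2.2.1.le (hy.2.2.2.le.trans (by norm_num))
  θ_maps := fun e => by
    cases e
    · exact ab.maps s h hi
    · exact ba.maps s h hi
    · exact fun y hy => ⟨((neck_iff h hy.2.2.2.1.le hy.2.2.2.2.le).2 hy.2.2).1
        (hy.1.resolve_left hy.2.1), hy.2.2⟩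
    · intro y hy
      have k := gam_toU hy.2.2.1.le (hy.2.2.2.le.trans (by norm_num))
      have k' := (toU_W y).2 hy.2
      exact ⟨(iot_inv hi k).2 (((neck_iff h k'.2.1.le k'.2.2.le).2 k').2
        ((toH_toU y).symm ▸ hy.1)), (iot_Dm hi k).2 k'⟩
  θ_θ := fun e y hy => by
    cases e
    · exact ab.th_th s hi hy.2
    · exact ba.th_th s hi hy.2
    · exact (congrArg iot (toU_toH _)).trans (hi.iot_iot y)
    · exact (congrArg toH (hi.iot_iot _)).trans (toH_toU y)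
  disj := fun e e' l hl y hy he hy' => by
    have key : ∀ e : Ed, e.src = true → e'.src = true → l ∈ Lam true → y ∈ Wo1 e →
        act true l y ∈ Wo1 e' → l = 1 ∧ e' = e := fun e a b c d f =>
      (win_disj hi a b d f).imp_left (Kl.eq_one_true c)
    cases e
    · exact key _ rfl he hl hy.2 hy'
    · exact key _ rfl he hl hy.2 hy'
    · exact key _ rfl he hl hy.2 hy'
    · cases e' <;> first | exact ⟨Kl.disj_L h hl hy.2 hy', rfl⟩ | cases he
  cover := fun i y hy => by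
    cases i
    · exact (Kl.cover_H hy).imp_right fun ⟨l, hl, a, b⟩ => ⟨.L, l, hl, rfl, a, (toU_UC h hi a).2 b⟩
    · exact cover_t h hi s hy
  sep := fun e y hy y' hy' hp => by
    cases e
    exacts [ab.sep s h hi hy hy' hp, ba.sep s h hi hy hy' hp, sepK h hi hy hy' hp,
      sepL h hi hy hy' hp]
  cpt := fun i => by
    cases i
    · exact Kl.cpt_CH
    · refine ⟨inv UC ∩ {y | |y 2| ≤ 72}, Metric.isCompact_of_isClosed_isBounded ((closed_C h hi).inter
        (isClosed_le (by fun_prop) continuous_const)) (bdd_gam.subset fun y hy =>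
          ⟨gam_inv hi (hy.1.imp_right Or.inl), hy.2⟩), inter_subset_left, fun y hy => ?_⟩
      obtain ⟨n, h1, h2⟩ := Kl.exists_sh y
      refine ⟨_, Kl.tt_mem n, ?_⟩
      rw [Kl.act_tt]
      exact ⟨sh_inv hi (fun n y => (h.sh_UC n y).2) _ hy, abs_le.2 ⟨by linarith, h2.le⟩⟩

end T1

theorem tg1 (h : Pos) (hi : Iot) : TG1 :=
  fun s => ⟨tg h hi s, rfl, rfl, rfl, rfl, rfl, rfl, rfl, rfl⟩

theorem aeIn1 (h : Pos) (hi : Iot) (a1 : AE1) : AEIn1 := by
  intro T s hT hC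
  refine ⟨hT.C_f, Set.ext fun y => ?_, hT.C_t ▸ hC, ?_⟩
  · change y ∈ T.C false ∧ y ∈ T.Wo .L ∧ T.θ .L y ∈ T.C true ↔ _
    rw [hT.C_f, hT.C_t, hT.Wo_eq, hT.θ_eq]
    refine ⟨fun ⟨a, b, c⟩ => ⟨le_antisymm ((toU_UC h hi b).1 c) (Kl.CH_tH a), a.1⟩, fun ⟨a, b⟩ => ?_⟩
    have k : y ∈ Wo0 .L := ⟨by linarith, by linarith, by linarith⟩
    exact ⟨(h.PH_L y (by linarith)).1.2 ⟨a.ge, b⟩, k, (toU_UC h hi k).2 a.le⟩
  · change AE {y | y ∈ T.C true ∧ y ∈ T.Wo .A ∧ T.θ .A y ∈ T.C true}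
    rw [hT.C_t, hT.Wo_eq, hT.θ_eq]
    refine (ab.S_eq s h hi).symm ▸ ?_
    have e : {z : R4 | aC 46 z ≤ 5 ∧ ff z ≤ 5} =
        Set.pi univ fun j => Icc ((![14, 34, 46, 6] : R4) j - 5) ((![14, 34, 46, 6] : R4) j + 5) := by
      ext z
      simp only [mem_ofPred_eq, aC, ff, n2_le, abs_le, Set.mem_pi, mem_univ, mem_Icc, true_imp_iff,
        Fin.forall_fin_succ, IsEmpty.forall_iff, and_true]
      change _ ↔ (14 - 5 ≤ z 0 ∧ z 0 ≤ 14 + 5) ∧ (34 - 5 ≤ z 1 ∧ z 1 ≤ 34 + 5) ∧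
        (46 - 5 ≤ z 2 ∧ z 2 ≤ 46 + 5) ∧ 6 - 5 ≤ z 3 ∧ z 3 ≤ 6 + 5
      constructor
      · rintro ⟨⟨⟨a, b⟩, c, d⟩, ⟨e, f⟩, g, i⟩
        refine ⟨⟨?_, ?_⟩, ⟨?_, ?_⟩, ⟨?_, ?_⟩, ?_, ?_⟩ <;> linarith
      · rintro ⟨⟨a, b⟩, ⟨c, d⟩, ⟨e, f⟩, g, i⟩
        refine ⟨⟨⟨?_, ?_⟩, ?_, ?_⟩, ⟨?_, ?_⟩, ?_, ?_⟩ <;> linarith
    have sub : {z : R4 | aC 46 z ≤ 5 ∧ ff z ≤ 5} ⊆ Col 46 := fun z hz =>
      ⟨hz.1.trans (by norm_num), hz.2.trans (by norm_num)⟩
    refine a1.cpt (e ▸ isCompact_univ_pi fun _ => isCompact_Icc) ((cont_E s hi).mono sub)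
      (fun z hz z' hz' k => ?_) (e ▸ a1.pi fun _ => a1.icc (by linarith))
    have k' := congrArg (fun y => s.χ (iot y)) k
    simpa only [hi.iot_iot, chi_psi s (sub hz), chi_psi s (sub hz')] using k'

theorem zIso01 (h : Pos) (hi : Iot) : ZIso01 := by
  rintro T T' s hT hT'
  have g0 : ∀ y ∈ ZU, gam y ≠ 0 := fun y hy => gam_PC hi (Or.inl hy.1.2)
  have z : T.Zc = fun i => cond i ZU ZH := funext fun i => by
    cases i
    exacts [hT.Z_f, hT.Z_t]
  have z' : T'.Zc = fun i => cond i (Dm ZU) ZH := funext fun i => by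
    cases i
    exacts [hT'.Z_f, hT'.Z_t]
  refine ⟨fun i => cond i iot id, fun i => cond i iot id, ?_, ?_, ?_, ?_, ?_, ?_, ?_, ?_, ?_⟩ <;>
    simp only [z, z', hT.Wo_eq, hT.θ_eq, hT'.Wo_eq, hT'.θ_eq]
  · rintro (_ | _)
    exacts [continuousOn_id, hi.cont.mono g0]
  · rintro (_ | _)
    exacts [continuousOn_id, hi.cont.mono fun _ hy => hy.1]
  · rintro (_ | _)
    exacts [mapsTo_id _, fun y hy => (iot_Dm hi (g0 y hy)).2 hy]
  · rintro (_ | _)
    exacts [mapsTo_id _, fun y hy => hy.2]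
  · rintro (_ | _) y _
    exacts [rfl, hi.iot_iot y]
  · rintro (_ | _) y _
    exacts [rfl, hi.iot_iot y]
  · rintro (_ | _) l _ y _
    exacts [rfl, hi.sh_iot _ y]
  · intro e y hy h1 h2
    cases e
    · exact ab.edge s h hi hy h1 h2
    · exact ba.edge s h hi hy h1 h2
    · exact ⟨(iot_Dm hi (g0 y hy)).2 h1, (congrArg toH (hi.iot_iot y)).trans (rfl10_fix
        (y := toH y) (ZU_rr h hy h1.2.1.le (h1.2.2.le.trans (by norm_num)))).symm⟩
    · have k := tH_rfl10 (y := y) (by linarith [h1.1]) (by linarith [h1.2.1])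
      have k' := ZU_rr (y := toU (rfl10 y)) h h2 (by rw [rr_toU, k]; linarith [h1.1])
        (h1.2.2.le.trans (by norm_num))
      rw [rr_toU, k] at k'
      exact ⟨h1, congrArg (fun w => iot (toU w)) (rfl10_fix (y := y) (by linarith)).symm⟩
  · intro e y hy h1 h2
    cases e
    · exact ab.edge' s h hi hy h1 h2
    · exact ba.edge' s h hi hy h1 h2
    · exact ⟨h1.2, rfl10_fix (y := toH (iot y))
        (ZU_rr h hy.2 h1.2.2.1.le (h1.2.2.2.le.trans (by norm_num)))⟩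
    · have k := ZU_rr (y := toU y) h (hi.iot_iot (toU y) ▸ h2.2) ((rr_toU y).trans_le h1.2.1.le)
        (h1.2.2.le.trans (by norm_num))
      exact ⟨h1, (congrArg toU (rfl10_fix ((rr_toU y).symm.trans k))).trans (hi.iot_iot _).symm⟩

end Vale.Agent.P260Z.L3
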