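import Vale.Agent.P260Z.L3.Defs

/-!
# P260, layer 3: existence and uniqueness of reduced addresses
-/

noncomputable section

namespace Vale.Agent.P260Z.L3

namespace Tr

/-- multiplication of the first letter -/
def mulL (g : GG) : List Port → List Port
  | [] => []
  | p :: l => (g * p.1, p.2) :: l

open Classical in
/-- crossing an edge -/
def pushL (e : Ed) (r : List Port) : List Port :=
  if r.head? = some (1, e.bar) then r.tail else (1, e) :: r

theorem red_mul {i : Bool} {g : GG} (hg : g ∈ Lam i) : ∀ {l}, Red i l → Red i (mulL g l)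
  | [], _ => trivial
  | _ :: _, h => ⟨h.1, mul_mem hg h.2.1, h.2.2⟩

theorem ty_mul (i : Bool) (g : GG) : ∀ l, ty i (mulL g l) = ty i l
  | [] => rfl
  | _ :: _ => rfl

theorem val_mul {i : Bool} {g : GG} (hg : g ∈ Lam i) :
    ∀ l, (val (mulL g l))⁻¹ * g * val l ∈ Lam (ty i l)
  | [] => by simpa [mulL, val, ty] using hg
  | p :: l => by simp [mulL, val, mul_assoc]

theorem push_cases (e : Ed) (r : List Port) : r = (1, e.bar) :: pushL e r ∨
    r.head? ≠ some (1, e.bar) ∧ pushL e r = (1, e) :: r := by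
  unfold pushL
  split_ifs with h
  · exact Or.inl (List.cons_head?_tail h).symm
  · exact Or.inr ⟨h, rfl⟩

theorem red_push (e : Ed) {r : List Port} (h : Red e.tgt r) : Red e.src (pushL e r) := by
  rcases push_cases e r with h1 | ⟨h1, h2⟩
  · rw [h1] at h
    exact e.tgt_bar ▸ h.2.2.1
  · rw [h2]
    exact ⟨rfl, one_mem _, h, h1⟩

theorem ty_push (e : Ed) (r : List Port) : ty e.src (pushL e r) = ty e.tgt r := by
  rcases push_cases e r with h1 | ⟨-, h2⟩
  · conv_rhs => rw [h1, ty, e.tgt_bar]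
  · rw [h2, ty]

theorem val_push (e : Ed) (r : List Port) : val (pushL e r) = e.s * val r := by
  rcases push_cases e r with h1 | ⟨-, h2⟩
  · conv_rhs => rw [h1, val, one_mul, e.s_bar, mul_inv_cancel_left]
  · rw [h2, val, one_mul]

theorem push_push (e : Ed) {i : Bool} {r : List Port} (h : Red i r) :
    pushL e.bar (pushL e r) = r := by
  rcases push_cases e r with h1 | ⟨-, h2⟩
  · rw [h1] at h
    exact (if_neg h.2.2.2).trans h1.symm
  · rw [h2]
    exact if_pos (by simp)

/-- every address can be moved by `g` -/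
def Mv (g : GG) : Prop := ∀ l, Red true l → ∃ l', Red true l' ∧ ty true l' = ty true l ∧
  (val l')⁻¹ * g * val l ∈ Lam (ty true l)

theorem Mv.mul {g h : GG} (hg : Mv g) (hh : Mv h) : Mv (g * h) := fun l hl => by
  obtain ⟨l₁, h1, h2, h3⟩ := hh l hl
  obtain ⟨l₂, h4, h5, h6⟩ := hg l₁ h1
  rw [← h2] at h3 ⊢
  exact ⟨l₂, h4, h5, by simpa [mul_assoc] using mul_mem h6 h3⟩

theorem mv_lam {g : GG} (hg : g ∈ Lam true) : Mv g := fun l hl =>
  ⟨_, red_mul hg hl, ty_mul _ _ _, val_mul hg l⟩

theorem mv (g : GG) : Mv g := by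
  refine Monoid.Coprod.induction_on g (fun a => ?_) (fun a l hl => ?_) fun _ _ => Mv.mul
  · refine FreeGroup.induction_on a (mv_lam (by simp)) (fun b => ?_) (fun b _ => ?_)
      fun _ _ h h' => map_mul (Monoid.Coprod.inl : _ →* GG) _ _ ▸ h.mul h'
    · cases b
      · exact fun l hl => ⟨_, red_push .A hl, ty_push .A l, by simp [val_push, Ed.s, xx]⟩
      · exact mv_lam (Subgroup.mem_zpowers tt)
    · cases b
      · exact fun l hl => ⟨_, red_push .B hl, ty_push .B l, by simp [val_push, Ed.s, xx]⟩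
      · exact mv_lam (inv_mem (Subgroup.mem_zpowers tt))
  · have h : jj a ∈ Lam false := ⟨a, rfl⟩
    have h1 : ty false (pushL .L l) = ty true l := ty_push .L l
    refine ⟨_, red_push .K (red_mul h (red_push .L hl)),
      (ty_push .K _).trans ((ty_mul _ _ _).trans h1), ?_⟩
    simpa [val_push, Ed.s, h1, jj] using val_mul h (pushL .L l)

/-- the reduced addresses -/
def Ad (i : Bool) : Type := {l // Red i l}

instance (i : Bool) : MulAction (Lam i) (Ad i) where
  smul g l := ⟨mulL g l.1, red_mul g.2 l.2⟩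
  one_smul l := Subtype.ext (by
    obtain ⟨_ | _, _⟩ := l
    exacts [rfl, congrArg (fun g => (g, _) :: _) (one_mul _)])
  mul_smul g h l := Subtype.ext (by
    obtain ⟨_ | _, _⟩ := l
    exacts [rfl, congrArg (fun g => (g, _) :: _) (mul_assoc _ _ _)])

/-- crossing an edge, as a bijection -/
def pushE (e : Ed) : Ad e.tgt ≃ Ad e.src where
  toFun r := ⟨pushL e r.1, red_push e r.2⟩
  invFun r := ⟨pushL e.bar r.1, e.src_bar ▸ red_push e.bar (e.tgt_bar.symm ▸ r.2)⟩
  left_inv r := Subtype.ext (push_push e r.2)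
  right_inv r := Subtype.ext (by simpa using push_push e.bar r.2)

/-- the addresses from the base vertex -/
def emb : ∀ i, Ad i ≃ Ad true
  | true => Equiv.refl _
  | false => pushE .K

/-- the action on the addresses -/
def Θ : GG →* Equiv.Perm (Ad true) :=
  Monoid.Coprod.lift (FreeGroup.lift fun b => bif b then
    MulAction.toPermHom (Lam true) (Ad true) ⟨tt, Subgroup.mem_zpowers tt⟩ else pushE .A)
    ((emb false).permCongrHom.toMonoidHom.comp
      ((MulAction.toPermHom (Lam false) (Ad false)).comp jj.rangeRestrict))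

theorem Θ_lam : ∀ (i : Bool) (g : Lam i) (l : Ad i), Θ g (emb i l) = emb i (g • l)
  | true, ⟨_, n, rfl⟩, l => by
    have h : Θ tt = MulAction.toPermHom (Lam true) (Ad true) ⟨tt, Subgroup.mem_zpowers tt⟩ :=
      FreeGroup.lift_apply_of
    change Θ (tt ^ n) l = _
    rw [map_zpow, h, ← map_zpow]
    rfl
  | false, ⟨_, a, rfl⟩, l => congrArg (fun r : Ad false => emb false ((⟨_, a, rfl⟩ : Lam false) • r))
      ((emb false).symm_apply_apply l)

theorem Θ_s (e : Ed) (r : Ad e.tgt) : Θ e.s (emb _ r) = emb _ (pushE e r) := by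
  have h : Θ xx = pushE .A := FreeGroup.lift_apply_of
  cases e
  · exact DFunLike.congr_fun h r
  · exact DFunLike.congr_fun ((map_inv Θ xx).trans (congrArg _ h)) r
  · exact DFunLike.congr_fun (map_one Θ) _
  · exact (DFunLike.congr_fun (map_one Θ) _).trans (Subtype.ext (push_push .L r.2).symm)

theorem Θ_val : ∀ (l : List Port) (i : Bool) (h : Red i l),
    Θ (val l) (emb (ty i l) ⟨[], trivial⟩) = emb i ⟨l, h⟩
  | [], _, _ => DFunLike.congr_fun (map_one Θ) _
  | (g, e) :: l, _, ⟨rfl, h1, h2, h3⟩ => by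
    rw [val, map_mul, map_mul, Equiv.Perm.mul_apply, Equiv.Perm.mul_apply]
    refine (congrArg (Θ g) ((congrArg _ (Θ_val l _ h2)).trans (Θ_s e ⟨l, h2⟩))).trans ?_
    refine (Θ_lam _ ⟨g, h1⟩ _).trans (congrArg _ (Subtype.ext ?_))
    change mulL g (pushL e l) = _
    rw [pushL, if_neg h3, mulL, mul_one]

end Tr

open Tr

theorem addr_ex (i : Bool) (g : GG) (i' : Bool) :
    ∃ l, Red i l ∧ ty i l = i' ∧ (val l)⁻¹ * g ∈ Lam i' := by
  obtain ⟨l₀, h0, rfl, h1⟩ : ∃ l, Red true l ∧ ty true l = i' ∧ val l = 1 := by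
    cases i'
    · exact ⟨_, red_push .K (r := []) trivial, ty_push .K [], (val_push _ _).trans (one_mul _)⟩
    · exact ⟨[], trivial, rfl, rfl⟩
  obtain ⟨l, h2, h3, h4⟩ := mv g l₀ h0
  rw [h1, mul_one] at h4
  cases i
  · exact ⟨_, red_push .L h2, (ty_push .L l).trans h3, by simpa [val_push, Ed.s] using h4⟩
  · exact ⟨l, h2, h3, h4⟩

theorem addr_uniq {i : Bool} {l l' : List Port} (h : Red i l) (h' : Red i l')
    (ht : ty i l = ty i l') (hv : (val l)⁻¹ * val l' ∈ Lam (ty i l)) : l = l' := by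
  have h1 := Θ_val l' i h'
  rw [← ht, ← mul_inv_cancel_left (val l) (val l'), map_mul, Equiv.Perm.mul_apply] at h1
  exact congrArg Subtype.val ((emb i).injective ((Θ_val l i h).symm.trans
    ((congrArg _ (Θ_lam _ ⟨_, hv⟩ ⟨[], trivial⟩)).symm.trans h1)))

end Vale.Agent.P260Z.L3
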