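import Vale.Agent.P260Z.Dav.Main
import Vale.Agent.P260Z.L2.Main
import Vale.Agent.P260Z.L3.AEG
import Vale.Agent.P260Z.L3.Api2
import Vale.Agent.P260Z.L3.CubG
import Vale.Agent.P260Z.L3.DevG
import Vale.Agent.P260Z.L3.Flat0
import Vale.Agent.P260Z.L3.FoldAB
import Vale.Agent.P260Z.L3.FoldKL
import Vale.Agent.P260Z.L3.GK
import Vale.Agent.P260Z.L3.Grid
import Vale.Agent.P260Z.L3.HSG
import Vale.Agent.P260Z.L3.Lin
import Vale.Agent.P260Z.L3.NbPP
import Vale.Agent.P260Z.L3.Obs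
import Vale.Agent.P260Z.L3.Plane
import Vale.Agent.P260Z.L3.Pos
import Vale.Agent.P260Z.L3.Psi
import Vale.Agent.P260Z.L3.Shear
import Vale.Agent.P260Z.L3.TG0
import Vale.Agent.P260Z.L3.TG1
import Vale.Agent.P260Z.L3.Tree

/-!
# P260, layer 3: the two fillings, assembled
-/

noncomputable section

namespace Vale.Agent.P260Z.L3

open Set Topology

attribute [local instance] actE

theorem tree : Tree := ⟨addr_ex, fun _ _ _ => addr_uniq⟩

theorem counter_of (hU : AEU) (hC : AEC) (hN : NoLS) : Counter := by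
  have hi := iot_all pos
  have hn := nb tree
  have hg : Grid := @grid ae1 ae2
  have hk := gk_all GG_two GG_gk
  obtain ⟨s⟩ := psiE
  obtain ⟨T, hT⟩ := tg0 pos
  obtain ⟨T', hT'⟩ := tg1 pos hi s
  obtain ⟨β, β', hβ⟩ := zIso01 pos hi T T' s hT hT'
  obtain ⟨j, j1, j2, j3⟩ := T.zmap T' T.api1 T.api2' T'.api1 T'.api2' β β' hβ
  obtain ⟨d, d1, d2, d3⟩ := dv0 pos (foldAB pos) (foldK pos) (foldL pos) T hT
  obtain ⟨dev, hd⟩ := T.devG tree hn T.api1 d
  obtain ⟨c⟩ := T.cubG T.api1 T.api2' (cell0 pos shear T hT)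
  obtain ⟨u, v, h1, h2, h3⟩ := hk.gen
  have hz : (![20, 20, -5, 6] : R4) ∈ T.Zc false := by
    have h4 : gg ![20, 20, -5, 6] = 1 := by
      change max |(-5 : ℝ) + 6| |(6 : ℝ) - 6| = 1
      norm_num
    have h5 : tH ![20, 20, -5, 6] = 20 := by norm_num [tH, n2]
    rw [hT.Z_f]
    exact ⟨(pos.PH_L _ (by linarith)).1.2 ⟨by linarith, h4.le⟩, h4⟩
  obtain ⟨S, _, ⟨P⟩⟩ := L2.l2main GG T.Z T.X T'.X (ℝ × ℝ)
    { j := T.jZ
      j' := j
      side := ⟨T.api2'.nice, (T.jZ_emb T.api2').1, T.jZ_smul,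
        T.hsg T.api1 T.api2' (flat0 pos shear T hT) _ (T.jZ_emb T.api2').2,
        T.aeG tree hn T.api1 T.api2' ae1 ae2 hg (aeIn0 pos ae1 T hT hU)⟩
      side' := ⟨T'.api2'.nice, j1, j2,
        T'.hsg T'.api1 T'.api2' (flat1 pos hi shear T' s hT') _ j3,
        T'.aeG tree hn T'.api1 T'.api2' ae1 ae2 hg (aeIn1 pos hi ae1 T' s hT' hC)⟩
      nonempty := ⟨⟨_, 1, false, _, hz, rfl⟩⟩
      cub := c
      dev := fun _ _ => ⟨dev true, (hd.cont true).continuousOn, (hd.inj true).injOn⟩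
      two := hk.two
      J := Lam false
      u := u
      v := v
      sq := h1
      ne := h2
      gen := h3
      gk := hk.gk
      cpt := hk.cptE
      plane := plane1 tree pos hi T' s hT' T'.api1 T'.api2'
      obs := fun ψ p hp => by
        obtain ⟨n, r, h4, h5⟩ := obs0 tree (pp tree hn) lin T hT T.api1 T.api2' d dev d1 d2 d3 hd
          ψ p hp
        exact hN n r h4 h5 }
  exact dav GG S (ℝ × ℝ) P

end Vale.Agent.P260Z.L3
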