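import Vale.Agent.P260Z.L3.Sk
import Vale.Agent.P260Z.Ob.Inst
import Vale.Agent.P260Z.Ob.Top.Defs

/-!
# P260, layer 3: a disc in the charts of a finite tower gives a lifted disc of the layout
-/

noncomputable section

namespace Vale.Agent.P260Z.L3

open Set Topology

namespace NL

/-- scaling by a quarter -/
def qt (y : R4) : R4 := fun j => y j / 4

theorem qt_apply (y : R4) (j : Fin 4) : qt y j = y j / 4 := rfl

theorem qt_inj {y z : R4} (h : qt y = qt z) : y = z := by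
  ext j
  have := congrFun h j
  simp only [qt_apply] at this
  linarith

theorem sh_0 (n : ℤ) (y : R4) : sh n y 0 = y 0 := rfl
theorem sh_1 (n : ℤ) (y : R4) : sh n y 1 = y 1 := rfl
theorem sh_2 (n : ℤ) (y : R4) : sh n y 2 = y 2 + 72 * n := rfl
theorem sh_3 (n : ℤ) (y : R4) : sh n y 3 = y 3 := rfl

theorem n2_lt {a b c : ℝ} : n2 a b < c ↔ (-c < a ∧ a < c) ∧ (-c < b ∧ b < c) := by
  rw [n2, max_lt_iff, abs_lt, abs_lt]

theorem n2_le {a b c : ℝ} : n2 a b ≤ c ↔ (-c ≤ a ∧ a ≤ c) ∧ (-c ≤ b ∧ b ≤ c) := by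
  rw [n2, max_le_iff, abs_le, abs_le]

theorem lt_n2 {a b c : ℝ} : c < n2 a b ↔ (c < a ∨ c < -a) ∨ (c < b ∨ c < -b) := by
  rw [n2, lt_max_iff, lt_abs, lt_abs]

/-- a point misses the scaled closed box -/
def Mis (y : R4) (i x x' u u' z z' : ℤ) : Prop :=
  (y 0 < 4 * x ∨ 4 * x' < y 0) ∨ (y 1 < 4 * u ∨ 4 * u' < y 1) ∨
    (y 2 < 72 * i + 4 * z ∨ 72 * i + 4 * z' < y 2)

theorem Mis.out {y : R4} {i x x' u u' z z' : ℤ} (h : Mis y i x x' u u' z z') :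
    ∃ j : Fin 4, j ≠ 3 ∧ (qt y j < ((Lay.bx i x x' u u' z z').1 j : ℝ) ∨
      ((Lay.bx i x x' u u' z z').2 j : ℝ) < qt y j) := by
  rcases h with h | h | h
  · refine ⟨0, by decide, ?_⟩
    rw [(Lay.bx_lo ..).1, (Lay.bx_hi ..).1, qt_apply]
    rcases h with h | h
    · left; linarith
    · right; linarith
  · refine ⟨1, by decide, ?_⟩
    rw [(Lay.bx_lo ..).2.1, (Lay.bx_hi ..).2.1, qt_apply]
    rcases h with h | h
    · left; linarith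
    · right; linarith
  · refine ⟨2, by decide, ?_⟩
    rw [(Lay.bx_lo ..).2.2.1, (Lay.bx_hi ..).2.2.1, qt_apply]
    push_cast
    rcases h with h | h
    · left; linarith
    · right; linarith

/-- the properties of a point of a chart which are used -/
structure Good (y : R4) : Prop where
  x0 : 0 < y 0 ∧ y 0 < 68
  x1 : 0 < y 1 ∧ y 1 < 68
  x3 : 0 < y 3 ∧ y 3 < 12
  c1 : ∀ i : ℤ, Mis y i 11 16 1 16 5 14
  c2 : ∀ i : ℤ, Mis y i 1 16 1 7 5 14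
  c3 : ∀ i : ℤ, Mis y i 1 16 10 16 5 14
  c4 : ∀ i : ℤ, Mis y i 8 9 3 4 1 5
  c5 : ∀ i : ℤ, Mis y i 8 9 3 9 1 2
  c6 : ∀ i : ℤ, Mis y i 8 9 8 9 (-15) 2
  c7 : ∀ i : ℤ, Mis y i 8 9 8 17 (-15) (-14)

theorem mis_of_op {y : R4} {i x x' u u' z z' : ℤ} {c : Bx} (h : sh (-i) y ∉ c.op)
    (hc : (c.x < 4 * x ∧ 4 * x' < c.x') ∧ (c.y < 4 * u ∧ 4 * u' < c.y') ∧
      (c.z < 4 * z ∧ 4 * z' < c.z')) : Mis y i x x' u u' z z' := by
  by_contra hn
  simp only [Mis, not_or, not_lt] at hn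
  obtain ⟨⟨a1, a2⟩, ⟨a3, a4⟩, a5, a6⟩ := hn
  obtain ⟨⟨b1, b2⟩, ⟨b3, b4⟩, b5, b6⟩ := hc
  have b1' : (c.x : ℝ) < 4 * x := by exact_mod_cast b1
  have b2' : (4 * x' : ℝ) < c.x' := by exact_mod_cast b2
  have b3' : (c.y : ℝ) < 4 * u := by exact_mod_cast b3
  have b4' : (4 * u' : ℝ) < c.y' := by exact_mod_cast b4
  have b5' : (c.z : ℝ) < 4 * z := by exact_mod_cast b5
  have b6' : (4 * z' : ℝ) < c.z' := by exact_mod_cast b6
  refine h ⟨⟨?_, ?_⟩, ⟨?_, ?_⟩, ?_, ?_⟩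
  all_goals simp only [sh_0, sh_1, sh_2, Int.cast_neg]
  all_goals linarith

theorem good_UU {y : R4} (h : y ∈ UU) : Good y := by
  obtain ⟨⟨⟨a1, a2⟩, ⟨a3, a4⟩, a5, a6⟩, hc⟩ := h
  refine ⟨⟨by linarith, by linarith⟩, ⟨by linarith, by linarith⟩, ⟨by linarith, by linarith⟩,
    fun i => ?_, fun i => ?_, fun i => ?_, fun i => ?_, fun i => ?_, fun i => ?_, fun i => ?_⟩
  · exact mis_of_op (hc _ ⟨43, 65, 3, 65, 19, 57⟩ (by simp [cav])) (by decide)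
  · exact mis_of_op (hc _ ⟨3, 65, 3, 29, 19, 57⟩ (by simp [cav])) (by decide)
  · exact mis_of_op (hc _ ⟨3, 65, 39, 65, 19, 57⟩ (by simp [cav])) (by decide)
  · exact mis_of_op (hc _ ⟨31, 37, 11, 17, 3, 21⟩ (by simp [cav])) (by decide)
  · exact mis_of_op (hc _ ⟨31, 37, 11, 37, 3, 9⟩ (by simp [cav])) (by decide)
  · exact mis_of_op (hc _ ⟨31, 37, 31, 37, -61, 9⟩ (by simp [cav])) (by decide)
  · exact mis_of_op (hc _ ⟨31, 37, 31, 69, -61, -55⟩ (by simp [cav])) (by decide)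

/-- points of the columns -/
theorem good_col {y : R4} (h0 : 9 ≤ y 0 ∧ y 0 ≤ 19) (h1 : 28 < y 1 ∧ y 1 < 40)
    (h3 : 0 < y 3 ∧ y 3 < 12) : Good y := by
  obtain ⟨a1, a2⟩ := h0
  obtain ⟨a3, a4⟩ := h1
  refine ⟨⟨by linarith, by linarith⟩, ⟨by linarith, by linarith⟩, h3,
    fun i => ?_, fun i => ?_, fun i => ?_, fun i => ?_, fun i => ?_, fun i => ?_, fun i => ?_⟩
  · exact Or.inl (Or.inl (by push_cast; linarith))
  · exact Or.inr (Or.inl (Or.inr (by push_cast; linarith)))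
  · exact Or.inr (Or.inl (Or.inl (by push_cast; linarith)))
  all_goals exact Or.inl (Or.inl (by push_cast; linarith))

theorem mis_z {y : R4} {n i x x' u u' z z' : ℤ} (h : -8 < y 2 + 72 * n ∧ y 2 + 72 * n < -4)
    (hz : -1 ≤ z ∧ z' ≤ 16) : Mis y i x x' u u' z z' := by
  have b1 : (-1 : ℝ) ≤ z := by exact_mod_cast hz.1
  have b2 : (z' : ℝ) ≤ 16 := by exact_mod_cast hz.2
  refine Or.inr (Or.inr ?_)
  rcases le_or_gt 0 (n + i) with e | e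
  · have e' : (0 : ℝ) ≤ n + i := by exact_mod_cast e
    left
    linarith [h.2]
  · have e' : ((n + i : ℤ) : ℝ) ≤ (-1 : ℤ) := Int.cast_le.2 (by omega)
    push_cast at e'
    right
    linarith [h.1]

theorem Mis.shift {y : R4} {i x x' u u' z z' : ℤ} (h : Mis y (i - 1) x x' u u' (z + 18) (z' + 18)) :
    Mis y i x x' u u' z z' := by
  rcases h with h | h | h
  · exact Or.inl h
  · exact Or.inr (Or.inl h)
  · refine Or.inr (Or.inr ?_)
    push_cast at h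
    rcases h with h | h
    · left; linarith
    · right; linarith

/-- points of the necks -/
theorem good_neck {y : R4} {n : ℤ} (h1 : 4 < rr y) (h2 : rr y < 11) (h3 : gg (sh n y) < 2) :
    Good y := by
  rw [gg, n2_lt, sh_2, sh_3] at h3
  rw [rr, n2_lt] at h2
  rw [rr, lt_n2] at h1
  obtain ⟨⟨a1, a2⟩, a3, a4⟩ := h2
  obtain ⟨⟨b1, b2⟩, b3, b4⟩ := h3
  have hz : -8 < y 2 + 72 * n ∧ y 2 + 72 * n < -4 := ⟨by linarith, by linarith⟩
  refine ⟨⟨by linarith, by linarith⟩, ⟨by linarith, by linarith⟩, ⟨by linarith, by linarith⟩,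
    fun i => mis_z hz (by decide), fun i => mis_z hz (by decide), fun i => mis_z hz (by decide),
    fun i => mis_z hz (by decide), fun i => mis_z hz (by decide), fun i => ?_,
    fun i => Mis.shift (mis_z hz (by decide))⟩
  rcases h1 with (h | h) | h | h
  · exact Or.inl (Or.inr (by push_cast; linarith))
  · exact Or.inl (Or.inl (by push_cast; linarith))
  · exact Or.inr (Or.inl (Or.inr (by push_cast; linarith)))
  · exact Or.inr (Or.inl (Or.inl (by push_cast; linarith)))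

theorem good_of_mem {y : R4} (h : y ∈ PU ∪ per (Dr .K)) : Good y := by
  rcases h with (h | ⟨n, (h | h) | h⟩) | ⟨n, h⟩
  · exact good_UU h
  · obtain ⟨h1, h2⟩ := h
    rw [aA, n2_le, sh_0] at h1
    rw [ff, n2_lt, sh_1, sh_3] at h2
    exact good_col ⟨by linarith [h1.1.1], by linarith [h1.1.2]⟩
      ⟨by linarith [h2.1.1], by linarith [h2.1.2]⟩ ⟨by linarith [h2.2.1], by linarith [h2.2.2]⟩
  · obtain ⟨h1, h2⟩ := h
    rw [aB, n2_le, sh_0] at h1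
    rw [ff, n2_lt, sh_1, sh_3] at h2
    exact good_col ⟨by linarith [h1.1.1], by linarith [h1.1.2]⟩
      ⟨by linarith [h2.1.1], by linarith [h2.1.2]⟩ ⟨by linarith [h2.2.1], by linarith [h2.2.2]⟩
  · obtain ⟨h1, h2, h3⟩ := h
    have e : rr (sh n y) = rr y := rfl
    rw [e] at h1 h2
    exact good_neck (n := n) (by linarith) h2 (by linarith)
  · obtain ⟨h1, h2, h3⟩ := h
    have e : rr (sh n y) = rr y := rfl
    rw [e] at h1 h2
    exact good_neck (n := n) h1 (by linarith) h3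

variable {n m : ℕ} (hm : m + 1 ≤ n)

theorem qt_O3 {y : R4} (h : Good y) (h0 : 0 < y 2) (h1 : y 2 < 72 * n) :
    @P215Z.K.O3 (Lay.geom n m hm) (qt y) := by
  refine ⟨fun j hj => ?_, ?_⟩
  · change 0 < y j / 4 ∧ y j / 4 < ((Lay.boxHi (n + 1) j : ℤ) : ℝ)
    obtain rfl | rfl | rfl | rfl : j = 0 ∨ j = 1 ∨ j = 2 ∨ j = 3 := by omega
    · rw [Lay.boxHi_0]
      push_cast
      exact ⟨by linarith [h.x0.1], by linarith [h.x0.2]⟩
    · rw [Lay.boxHi_1]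
      push_cast
      exact ⟨by linarith [h.x1.1], by linarith [h.x1.2]⟩
    · rw [Lay.boxHi_2]
      push_cast
      exact ⟨by linarith, by linarith⟩
    · exact absurd rfl hj
  · refine Lay.cv_real.2 fun c hc => ?_
    obtain ⟨i, -, hc⟩ := Lay.cave_cases hc
    rcases hc with ⟨-, rfl⟩ | ⟨e, rfl⟩ | rfl | rfl | rfl | rfl | rfl | rfl
    · exact (h.c1 i).out
    · refine Mis.out (Or.inr (Or.inr (Or.inl ?_)))
      have e' : i = n := by omega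
      rw [e']
      push_cast
      linarith
    · exact (h.c2 i).out
    · exact (h.c3 i).out
    · exact (h.c4 i).out
    · exact (h.c5 i).out
    · exact (h.c6 i).out
    · exact (h.c7 i).out

theorem qt_thR (i : Fin (n + 1)) (y : R4) :
    qt (sh (i : ℕ) (thA (sh (-(i : ℕ)) y))) = @P215Z.K.thR (Lay.geom n m hm) i (qt y) := by
  ext j
  change _ = y (@P215Z.K.ppi (Lay.geom n m hm) i j) / 4 + ((Lay.org (n + 1) (i, false) j -
    Lay.org (n + 1) (i, true) (@P215Z.K.ppi (Lay.geom n m hm) i j) : ℤ) : ℝ)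
  rw [@P215Z.K.Gx.ppi_val (Lay.geom n m hm)]
  fin_cases j <;> simp [qt, sh, thA, Lay.org] <;> ring

theorem qt_Qo (i : Fin (n + 1)) (y : R4) :
    qt y ∈ @P215Z.K.Qo (Lay.geom n m hm) (i, true) ↔ sh (-(i : ℕ)) y ∈ Wo0 .A := by
  change (∀ j, ((Lay.org (n + 1) (i, true) j : ℤ) : ℝ) < y j / 4 ∧
    y j / 4 < (Lay.org (n + 1) (i, true) j : ℤ) + 3) ↔ aA (sh (-(i : ℕ)) y) < 6 ∧
      ff (sh (-(i : ℕ)) y) < 6
  rw [aA, ff, n2_lt, n2_lt, sh_0, sh_1, sh_2, sh_3, Fin.forall_fin_succ, Fin.forall_fin_succ,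
    Fin.forall_fin_succ, Fin.forall_fin_one]
  change ((((2 : ℤ) : ℝ) < y 0 / 4 ∧ y 0 / 4 < (2 : ℤ) + 3) ∧
    (((7 : ℤ) : ℝ) < y 1 / 4 ∧ y 1 / 4 < (7 : ℤ) + 3) ∧
    (((18 * (i : ℕ) + 10 : ℤ) : ℝ) < y 2 / 4 ∧ y 2 / 4 < (18 * (i : ℕ) + 10 : ℤ) + 3) ∧
    (((0 : ℤ) : ℝ) < y 3 / 4 ∧ y 3 / 4 < (0 : ℤ) + 3)) ↔ _
  push_cast
  constructor
  · rintro ⟨⟨a1, a2⟩, ⟨a3, a4⟩, ⟨a5, a6⟩, a7, a8⟩
    refine ⟨⟨⟨?_, ?_⟩, ?_, ?_⟩, ⟨?_, ?_⟩, ?_, ?_⟩ <;> linarith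
  · rintro ⟨⟨⟨a1, a2⟩, a3, a4⟩, ⟨a5, a6⟩, a7, a8⟩
    refine ⟨⟨?_, ?_⟩, ⟨?_, ?_⟩, ⟨?_, ?_⟩, ?_, ?_⟩ <;> linarith

theorem box_iff (i x x' u u' z z' : ℤ) (y : R4) :
    (∀ j : Fin 4, j ≠ 3 → ((Lay.bx i x x' u u' z z').1 j : ℝ) < qt y j ∧
      qt y j < (Lay.bx i x x' u u' z z').2 j) ↔ (4 * x < y 0 ∧ y 0 < 4 * x') ∧
      (4 * u < y 1 ∧ y 1 < 4 * u') ∧ (72 * i + 4 * z < y 2 ∧ y 2 < 72 * i + 4 * z') := by
  constructor
  · intro h
    have h0 := h 0 (by decide)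
    have h1 := h 1 (by decide)
    have h2 := h 2 (by decide)
    rw [(Lay.bx_lo ..).1, (Lay.bx_hi ..).1, qt_apply] at h0
    rw [(Lay.bx_lo ..).2.1, (Lay.bx_hi ..).2.1, qt_apply] at h1
    rw [(Lay.bx_lo ..).2.2.1, (Lay.bx_hi ..).2.2.1, qt_apply] at h2
    push_cast at h2
    refine ⟨⟨?_, ?_⟩, ⟨?_, ?_⟩, ?_, ?_⟩ <;> linarith [h0.1, h0.2, h1.1, h1.2, h2.1, h2.2]
  · rintro ⟨⟨a1, a2⟩, ⟨a3, a4⟩, a5, a6⟩ j hj
    obtain rfl | rfl | rfl | rfl : j = 0 ∨ j = 1 ∨ j = 2 ∨ j = 3 := by omega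
    · rw [(Lay.bx_lo ..).1, (Lay.bx_hi ..).1, qt_apply]
      exact ⟨by linarith, by linarith⟩
    · rw [(Lay.bx_lo ..).2.1, (Lay.bx_hi ..).2.1, qt_apply]
      exact ⟨by linarith, by linarith⟩
    · rw [(Lay.bx_lo ..).2.2.1, (Lay.bx_hi ..).2.2.1, qt_apply]
      push_cast
      exact ⟨by linarith, by linarith⟩
    · exact absurd rfl hj

theorem qt_Sb (s : Fin 4) (y : R4) : qt y ∈ @P215Z.K.Sb (Lay.geom n m hm) s ↔
    ∀ j : Fin 4, j ≠ 3 → ((Lay.side m s).1 j : ℝ) < qt y j ∧ qt y j < (Lay.side m s).2 j :=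
  Iff.rfl

theorem near_of_Sb {s : Fin 4} {y : R4} (h : qt y ∈ @P215Z.K.Sb (Lay.geom n m hm) s) :
    rr y < 6 ∧ |y 2 - 72 * (m + 1) + 6| < 2 := by
  rw [qt_Sb] at h
  rw [rr, n2_lt, abs_lt]
  rcases Lay.side_cases m s with e | e | e | e <;> rw [e, box_iff] at h <;> push_cast at h <;>
    obtain ⟨⟨a1, a2⟩, ⟨a3, a4⟩, a5, a6⟩ := h <;>
    refine ⟨⟨⟨?_, ?_⟩, ?_, ?_⟩, ?_, ?_⟩ <;> linarith

theorem Sb_of_near {y : R4} (h1 : rr y < 6) (h2 : |y 2 - 72 * (m + 1) + 6| < 2) :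
    (y 1 < 32 → qt y ∈ @P215Z.K.Sb (Lay.geom n m hm) 0) ∧
    (36 < y 0 → qt y ∈ @P215Z.K.Sb (Lay.geom n m hm) 1) ∧
    (36 < y 1 → qt y ∈ @P215Z.K.Sb (Lay.geom n m hm) 2) ∧
    (y 0 < 32 → qt y ∈ @P215Z.K.Sb (Lay.geom n m hm) 3) := by
  rw [rr, n2_lt] at h1
  rw [abs_lt] at h2
  obtain ⟨⟨a1, a2⟩, a3, a4⟩ := h1
  obtain ⟨a5, a6⟩ := h2
  refine ⟨fun h => (box_iff m 7 10 7 8 16 17 y).2 ?_, fun h => (box_iff m 9 10 7 10 16 17 y).2 ?_,
    fun h => (box_iff m 7 10 9 10 16 17 y).2 ?_, fun h => (box_iff m 7 8 7 10 16 17 y).2 ?_⟩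
  all_goals
    push_cast
    refine ⟨⟨?_, ?_⟩, ⟨?_, ?_⟩, ?_, ?_⟩ <;> linarith

/-- the lifted disc of the layout -/
def lifted (L : LS n m) : @P215Z.K.LiftedS (Lay.geom n m hm) :=
  letI := Lay.geom n m hm
  { f := fun g x => qt (L.f g x)
    cont := fun g => continuous_pi fun j => ((continuous_apply j).comp (L.cont g)).div_const 4
    equiv := fun g i x => by
      rw [← qt_thR hm]
      exact congrArg qt (L.equiv g i x)
    V := L.V
    isOpen := L.isOpen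
    cover := L.cover
    mem := fun g x hx => by
      obtain ⟨h1, h2, h3⟩ := L.mem g x hx
      have h4 := good_of_mem h1
      exact ⟨qt_O3 hm h4 h2 h3, by rw [qt_apply]; linarith [h4.x3.1],
        by rw [qt_apply]; linarith [h4.x3.2]⟩
    bot := fun g x hx h0 => by
      have h4 := (good_of_mem (L.mem g x hx).1).x3.1
      rw [qt_apply] at h0
      linarith
    two := fun g g' x hx hx' => by
      rcases L.two g g' x hx hx' with h | ⟨i, h1, h2⟩ | ⟨i, h1, h2⟩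
      · exact Or.inl h
      · exact Or.inr (Or.inl ⟨i, h1, (qt_Qo hm i _).2 h2⟩)
      · exact Or.inr (Or.inr ⟨i, h1, (qt_Qo hm i _).2 h2⟩)
    toB := fun g i x hx h => L.toB g i x hx ((qt_Qo hm i _).1 h)
    toA := fun g i x hx h => L.toA g i x hx ((qt_Qo hm i _).1 h)
    sep := fun g g' x y hx hy h => L.sep g g' x y hx hy (qt_inj h)
    pos := fun g x hx => by
      have h4 := (good_of_mem (L.mem g x hx).1).x3.1
      rw [qt_apply]
      linarith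
    bd := fun z => by
      obtain ⟨h0, h1, h2, b0, b1, b2, b3⟩ := L.bd z
      obtain ⟨c0, c1, c2, c3⟩ := Sb_of_near hm h1 h2
      exact ⟨h0, fun h => c0 (b0 h), fun h => c1 (b1 h), fun h => c2 (b2 h), fun h => c3 (b3 h)⟩
    free := fun g hg x hx s h => L.free g hg x hx (near_of_Sb hm h) }

end NL

theorem noLS (_h : Pos)
    (hobs : ∀ n m (hm : m + 1 ≤ n), ¬ Nonempty (@P215Z.K.LiftedS (Lay.geom n m hm))) : NoLS :=
  fun n r hm ⟨L⟩ => hobs n r hm ⟨NL.lifted hm L⟩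

end Vale.Agent.P260Z.L3
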