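import Vale.Agent.P260Z.L3.ObsB

/-!
# P260, layer 3: an equivariant plane gives a disc in a finite tower
-/

noncomputable section

namespace Vale.Agent.P260Z.L3

open Set Topology P215.H788

attribute [local instance] actE

/-- the transition map of a level -/
def thE (i : ℤ) : R4 ≃ₜ R4 where
  toFun y := sh i (thA (sh (-i) y))
  invFun y := sh i (thB (sh (-i) y))
  left_inv y := by simp only [sh_neg_sh, thB_thA, sh_sh_neg]
  right_inv y := by simp only [sh_neg_sh, thA_thB, sh_sh_neg]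
  continuous_toFun := by
    have : Continuous thA := by unfold thA; fun_prop
    exact (continuous_sh _).comp (this.comp (continuous_sh _))
  continuous_invFun := by
    have : Continuous thB := by unfold thB; fun_prop
    exact (continuous_sh _).comp (this.comp (continuous_sh _))

/-- the holonomy -/
def hol (k : ℕ) : FreeGroup (Fin k) →* (R4 ≃ₜ R4) := FreeGroup.lift fun i => (thE (i : ℕ))⁻¹

theorem hol_of {k : ℕ} (i : Fin k) : hol k (FreeGroup.of i) = (thE (i : ℕ))⁻¹ := by simp [hol]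

/-- local coordinates are glued by the holonomy -/
theorem glue_hol {k : ℕ} {Y : Type} [TopologicalSpace Y] (V : FreeGroup (Fin k) → Set Y)
    (loc : FreeGroup (Fin k) → Y → R4) (ho : ∀ w, IsOpen (V w)) (hc : ∀ x, ∃ w, x ∈ V w)
    (hl : ∀ w, ContinuousOn (loc w) (V w))
    (h2 : ∀ w w' x, x ∈ V w → x ∈ V w' → hol k w (loc w x) = hol k w' (loc w' x)) :
    ∃ f : FreeGroup (Fin k) → Y → R4, (∀ g, Continuous (f g)) ∧
      (∀ g (i : Fin k) x, f (g * FreeGroup.of i) x = thE (i : ℕ) (f g x)) ∧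
      ∀ g, ∀ x ∈ V g, f g x = loc g x := by
  choose c hc using hc
  have hF : Continuous fun x => hol k (c x) (loc (c x) x) := by
    refine continuous_iff_continuousAt.2 fun x => ?_
    have h3 : ContinuousAt (fun y => hol k (c x) (loc (c x) y)) x :=
      (hol k (c x)).continuous.continuousAt.comp
        ((hl _).continuousAt ((ho _).mem_nhds (hc x)))
    refine h3.congr ?_
    filter_upwards [(ho _).mem_nhds (hc x)] with y hy
    exact h2 _ _ y hy (hc y)
  refine ⟨fun g x => (hol k g)⁻¹ (hol k (c x) (loc (c x) x)),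
    fun g => ((hol k g)⁻¹).continuous.comp hF, fun g i x => ?_, fun g x hx => ?_⟩
  · simp only [map_mul, mul_inv_rev, hol_of, inv_inv]
    rfl
  · simp only
    rw [h2 _ _ x (hc x) hx]
    exact (hol k g).symm_apply_apply _

theorem sh_sh (a b : ℤ) (y : R4) : sh a (sh b y) = sh (a + b) y := (sh_add a b y).symm

theorem side_lt {a f s x t : ℝ} (ha : 1 ≤ a) (ht : 0 < t) (hs : 4 ≤ s) (hx : x < -(t / 2))
    (hf : f = a * (s / t * x)) : f < -2 := by
  have h1 : s / t * x ≤ s / t * (-(t / 2)) := mul_le_mul_of_nonneg_left hx.le (by positivity)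
  have h2 : s / t * (-(t / 2)) = -(s / 2) := by field_simp
  have h3 : 4 / t * x < 4 / t * (-(t / 2)) := mul_lt_mul_of_pos_left hx (by positivity)
  have h4 : 4 / t * (-(t / 2)) = -2 := by field_simp; norm_num
  have h5 : s / t * x ≤ 4 / t * x :=
    mul_le_mul_of_nonpos_right (div_le_div_of_nonneg_right hs ht.le) (by linarith)
  nlinarith

namespace TG
variable {T : TG} {d : T.Dv} {dev : Bool → T.X → R4}

theorem DvH.far (H : T.DvH d dev) {x : T.X} (hx : x ∈ T.HB) {a : ℝ} (ha : 0 ≤ a)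
    (h1 : 11 ≤ tH (dev false x)) (h2 : 55 * (1 + a) < 2 * tH (dev false x)) :
    rr (adj a (dev true x)) < 6 ∧ |dev true x 2 + 6| < 2 ∧
      (dev false x 0 < -(tH (dev false x) / 2) → adj a (dev true x) 0 < 32) ∧
      (tH (dev false x) / 2 < dev false x 0 → 36 < adj a (dev true x) 0) ∧
      (dev false x 1 < -(tH (dev false x) / 2) → adj a (dev true x) 1 < 32) ∧
      (tH (dev false x) / 2 < dev false x 1 → 36 < adj a (dev true x) 1) := by
  have h0 : 0 < tH (dev false x) := by linarith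
  have h3 := H.not_PU hx h1
  have h4 : 0 < 55 / tH (dev false x) := by positivity
  obtain ⟨h5, h6⟩ := H.dev_HB hx
  have h7 : gg (dev false x) < 2 := by
    rcases h5.1 with (h5 | ⟨a, h5⟩) | ⟨a, h5⟩
    · linarith [h5.1]
    · have : gg (dev false x) < 3 / 2 := h5.2.2
      linarith
    · exact h5.2.1
  have hs : 4 ≤ max (20 - tH (dev false x)) (4 + 55 / tH (dev false x)) :=
    le_max_of_le_right (by linarith)
  have e0 : dev true x 0 - 34 = max (20 - tH (dev false x)) (4 + 55 / tH (dev false x)) /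
      tH (dev false x) * dev false x 0 := by
    rw [h6]; simp [mK, toU, rad]
  have e1 : dev true x 1 - 34 = max (20 - tH (dev false x)) (4 + 55 / tH (dev false x)) /
      tH (dev false x) * dev false x 1 := by
    rw [h6]; simp [mK, toU, rad]
  have f0 := adj_zero_sub a (dev true x)
  have f1 := adj_one_sub a (dev true x)
  have hf := one_le_fac a (dev true x)
  refine ⟨rr_adj_lt ha (by linarith) ?_, ?_, fun h => ?_, fun h => ?_, fun h => ?_, fun h => ?_⟩
  · rw [h3, add_sub_cancel_left, ← mul_div_assoc, div_lt_iff₀ h0]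
    linarith
  · rw [h6]
    exact (gg_lt.1 h7).1
  · linarith [side_lt hf h0 hs h (f0.trans (by rw [e0]))]
  · have := side_lt (f := -(adj a (dev true x) 0 - 34)) (x := -dev false x 0) hf h0 hs
      (by linarith) (by rw [f0, e0]; ring)
    linarith
  · linarith [side_lt hf h0 hs h (f1.trans (by rw [e1]))]
  · have := side_lt (f := -(adj a (dev true x) 1 - 34)) (x := -dev false x 1) hf h0 hs
      (by linarith) (by rw [f1, e1]; ring)
    linarith

theorem DvH.step (H : T.DvH d dev) {lo : ℤ} {k : ℕ} (w : FreeGroup (Fin k)) (i : Fin k) {x : T.X}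
    (hP : dev true ((eta lo k w)⁻¹ • x) ∈ PU)
    (hw : sh (-(lo + (i : ℕ))) (dev true ((eta lo k w)⁻¹ • x)) ∈ Wo0 .A) :
    (eta lo k (w * FreeGroup.of i))⁻¹ • x ∈ T.MM ∧
      dev true ((eta lo k (w * FreeGroup.of i))⁻¹ • x) ∈ PU ∧
      sh (-lo) (dev true ((eta lo k (w * FreeGroup.of i))⁻¹ • x)) =
        thE (i : ℕ) (sh (-lo) (dev true ((eta lo k w)⁻¹ • x))) := by
  obtain ⟨a1, a2⟩ := H.edge_A _ hP hw
  have a3 : (eta lo k w)⁻¹ • x = T.pt 1 true (dev true ((eta lo k w)⁻¹ • x)) := by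
    apply H.dv.inj true
    rw [H.dv.nil true _ (H.is.P_t ▸ hP)]
  rw [← a3, ← eta_of, ← inv_smul_eq_iff, ← mul_smul, ← mul_inv_rev, ← map_mul] at a2
  rw [a2, H.dv.nil true _ (H.is.P_t ▸ a1)]
  refine ⟨pt_mem_MM (H.is.P_t ▸ a1), a1, ?_⟩
  change _ = sh _ (thA (sh _ _))
  rw [sh_sh, sh_sh]
  congr 1
  · ring
  · congr 2
    ring

theorem DvH.back (H : T.DvH d dev) {lo : ℤ} {k : ℕ} (w : FreeGroup (Fin k)) (i : Fin k) {x : T.X}
    (hP : dev true ((eta lo k (w * FreeGroup.of i))⁻¹ • x) ∈ PU)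
    (hw : sh (-(lo + (i : ℕ))) (dev true ((eta lo k (w * FreeGroup.of i))⁻¹ • x)) ∈ Wo0 .B) :
    (eta lo k w)⁻¹ • x ∈ T.MM := by
  set v := dev true ((eta lo k (w * FreeGroup.of i))⁻¹ • x) with hv
  have hv' : sh (-(lo + (i : ℕ))) v ∈ T.P true := by
    have := T.P_act true _ (tt_mem (-(lo + (i : ℕ)))) (H.is.P_t ▸ hP)
    rwa [act_tt] at this
  have h1 := T.θ_maps .B ⟨hv', H.is.Wo_eq ▸ hw⟩
  rw [H.is.θ_eq, H.is.Wo_eq] at h1
  have h2 := T.P_act true _ (tt_mem (lo + (i : ℕ))) h1.1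
  rw [act_tt] at h2
  obtain ⟨-, a2⟩ := H.edge_A (lo + (i : ℕ)) (H.is.P_t ▸ h2) (by rw [sh_neg_sh]; exact h1.2)
  rw [sh_neg_sh] at a2
  change _ = _ • T.pt 1 true (sh _ (thA (thB _))) at a2
  have a3 : (eta lo k (w * FreeGroup.of i))⁻¹ • x = T.pt 1 true v := by
    apply H.dv.inj true
    rw [H.dv.nil true _ (H.is.P_t ▸ hP)]
  rw [thA_thB, sh_sh_neg, ← a3, ← eta_of, map_mul, mul_inv_rev, mul_smul, smul_inv_smul] at a2
  rw [← a2]
  exact pt_mem_MM h2

theorem DvH.obs (H : T.DvH d dev) (ht : Tree) (h2 : T.Api2) (hp : PP) (hl : Lin)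
    {ψ : Lam false →* Lam false} {p : ℝ × ℝ → T.X} (hP : L2.Pl (Lam false) (ℝ × ℝ) ψ p) :
    ∃ n r : ℕ, r + 1 ≤ n ∧ Nonempty (LS n r) := by
  have := H.a1.cts
  obtain ⟨L, c, hc, hL⟩ := H.lin hl hP
  obtain ⟨N₁, a, ha, hs⟩ := H.side ht h2 hp hP.2.1 L hL
  obtain ⟨ρ, hρ⟩ : ∃ ρ : ℝ, ρ = 3 * c + 28 * (1 + a) + 12 := ⟨_, rfl⟩
  have hπ : Continuous fun x : Disc => p (L.symm (ρ • x.1)) :=
    hP.2.1.comp (L.symm.continuous.comp (continuous_subtype_val.const_smul ρ))
  have hcs : CompactSpace Disc := isCompact_iff_compactSpace.1 (isCompact_closedBall _ _)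
  obtain ⟨N₂, hN⟩ := H.levels h2 hp (isCompact_range hπ)
  obtain ⟨r, hr1, hr2⟩ : ∃ r : ℕ, N₁ ≤ r ∧ N₂ ≤ r := ⟨max N₁ N₂, le_max_left _ _, le_max_right _ _⟩
  have hr2' : (N₂ : ℝ) ≤ r := by exact_mod_cast hr2
  have hr0 : (0 : ℝ) ≤ r := Nat.cast_nonneg r
  obtain ⟨lo, hlo⟩ : ∃ lo : ℤ, lo = -(r + 1) := ⟨_, rfl⟩
  have hlo' : ((-lo : ℤ) : ℝ) = r + 1 := by rw [hlo]; push_cast; ring
  replace hs := hs lo (2 * r + 2 + 1) (by omega) (by push_cast; omega)
  replace hN := fun x => hN lo (2 * r + 2 + 1) (by omega) (by push_cast; omega) _ ⟨x, rfl⟩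
  set π : Disc → T.X := fun x => p (L.symm (ρ • x.1)) with hπd
  set η := eta lo (2 * r + 2 + 1) with hη
  have hco : ∀ w, Continuous fun x => (η w)⁻¹ • π x := fun w => (continuous_const_smul _).comp hπ
  have shs : ∀ (i : Fin (2 * r + 2 + 1)) y,
      sh (-((i : ℕ) : ℤ)) (sh (-lo) y) = sh (-(lo + (i : ℕ))) y := fun i y => by
    rw [sh_sh]; congr 1; ring
  obtain ⟨f, f1, f2, f3⟩ := glue_hol (fun w => {x | (η w)⁻¹ • π x ∈ T.MM})
    (fun w x => sh (-lo) (adj a (dev true ((η w)⁻¹ • π x))))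
    (fun w => (isOpen_MM H.a1).preimage (hco w)) (fun x => (hN x).1)
    (fun w => ((continuous_sh _).comp ((continuous_adj a).comp
      ((H.dv.cont true).comp (hco w)))).continuousOn) (by
      intro w w' x hx hx'
      rcases H.two hp hx hx' with rfl | ⟨a1, a2, i, ⟨rfl, a3⟩ | ⟨rfl, a3⟩⟩
      · rfl
      · rw [adj_PU ha a1, adj_PU ha a2, (H.step w i a1 a3).2.2, map_mul, hol_of]
        exact congrArg _ ((thE _).symm_apply_apply _).symm
      · rw [adj_PU ha a1, adj_PU ha a2, (H.step w' i a2 a3).2.2, map_mul, hol_of]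
        exact congrArg _ ((thE _).symm_apply_apply _))
  have win : ∀ w x (i : ℤ), (η w)⁻¹ • π x ∈ T.MM → |sh i (f w x) 0 - 14| < 6 →
      dev true ((η w)⁻¹ • π x) ∈ PU := fun w x i hx h => by
    rw [f3 w x hx] at h
    exact (H.PU_of_win hx ha h).1
  refine ⟨2 * r + 2, r, by omega, ⟨⟨f, fun w => {x | (η w)⁻¹ • π x ∈ T.MM}, f1, f2,
    fun w => (isOpen_MM H.a1).preimage (hco w), fun x => (hN x).1, ?_, ?_, ?_, ?_, ?_, ?_, ?_⟩⟩⟩
  · intro w x hx
    rw [f3 w x hx]
    have h3 := (hN x).2 w hx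
    rw [abs_lt] at h3
    refine ⟨?_, ?_, ?_⟩
    · rcases adj_mem ha (H.dev_MM hx) with h | ⟨n, h⟩
      · have := T.P_act true _ (tt_mem (-lo)) (H.is.P_t ▸ h)
        rw [act_tt, H.is.P_t] at this
        exact Or.inl this
      · refine Or.inr ⟨n + lo, ?_⟩
        rwa [sh_sh, add_neg_cancel_right]
    · rw [sh_two, adj_two, hlo']
      linarith [h3.1]
    · rw [sh_two, adj_two, hlo']
      push_cast
      linarith [h3.2]
  · intro w w' x hx hx'
    rcases H.two hp hx hx' with h | ⟨a1, a2, i, ⟨e, a3⟩ | ⟨e, a3⟩⟩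
    · exact Or.inl h
    · refine Or.inr (Or.inl ⟨i, e, ?_⟩)
      rwa [f3 w x hx, adj_PU ha a1, shs]
    · refine Or.inr (Or.inr ⟨i, e, ?_⟩)
      rwa [f3 w' x hx', adj_PU ha a2, shs]
  · intro w i x hx h
    have a1 := win w x _ hx (max_lt_iff.1 h.1).1
    rw [f3 w x hx, adj_PU ha a1, shs] at h
    exact (H.step w i a1 h).1
  · intro w i x hx h
    have h3 : sh (-((i : ℕ) : ℤ)) (f (w * FreeGroup.of i) x) ∈ Wo0 .B := by
      rw [f2]
      change sh _ (sh _ (thA (sh _ _))) ∈ _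
      rw [sh_neg_sh]
      exact ⟨by rw [aB_thA]; exact h.2, by rw [ff_thA]; exact h.1⟩
    have a1 := win _ x _ hx (max_lt_iff.1 h3.1).1
    rw [f3 _ x hx, adj_PU ha a1, shs] at h3
    exact H.back w i a1 h3
  · intro w w' x y hx hy h
    rw [f3 w x hx, f3 w' y hy] at h
    have h3 := congrArg (sh lo) h
    rw [sh_sh_neg, sh_sh_neg] at h3
    have h4 := H.dv.inj true (adj_inj ha h3)
    rw [eq_inv_smul_iff, ← mul_smul, ← map_inv, ← map_mul] at h4
    have h5 : η (w' * w⁻¹) ∈ Lam false := by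
      by_contra h6
      exact hP.2.2.2 _ h6 _ _ h4
    exact (mul_inv_eq_one.1 (hp.notJ _ _ _ h5)).symm
  · intro z
    have hz : ‖z.1‖ = 1 := mem_sphere_zero_iff_norm.1 z.2
    have hρ0 : 0 ≤ ρ := by rw [hρ]; positivity
    obtain ⟨b0, b1⟩ := hL (L.symm (ρ • z.1))
    rw [L.apply_symm_apply] at b0 b1
    change |dev false (π z.toDisc) 0 - ρ * z.1.1| ≤ c at b0
    change |dev false (π z.toDisc) 1 - ρ * z.1.2| ≤ c at b1
    rw [Prod.norm_def, Real.norm_eq_abs, Real.norm_eq_abs] at hz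
    have z1 : |z.1.1| ≤ 1 := (le_max_left _ _).trans hz.le
    have z2 : |z.1.2| ≤ 1 := (le_max_right _ _).trans hz.le
    have u1 : |ρ * z.1.1| = ρ * |z.1.1| := by rw [abs_mul, abs_of_nonneg hρ0]
    have u2 : |ρ * z.1.2| = ρ * |z.1.2| := by rw [abs_mul, abs_of_nonneg hρ0]
    have c0 := abs_sub_abs_le_abs_sub (dev false (π z.toDisc) 0) (ρ * z.1.1)
    have c1 := abs_sub_abs_le_abs_sub (dev false (π z.toDisc) 1) (ρ * z.1.2)
    have c2 := abs_sub_abs_le_abs_sub (ρ * z.1.1) (dev false (π z.toDisc) 0)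
    have c3 := abs_sub_abs_le_abs_sub (ρ * z.1.2) (dev false (π z.toDisc) 1)
    rw [abs_sub_comm] at c2 c3
    have t1 : tH (dev false (π z.toDisc)) ≤ ρ + c :=
      max_le (by nlinarith) (by nlinarith)
    have t2 : ρ - c ≤ tH (dev false (π z.toDisc)) := by
      rcases max_cases |z.1.1| |z.1.2| with h | h
      · refine le_max_of_le_left ?_
        rw [← h.1, hz] at u1
        linarith
      · refine le_max_of_le_right ?_
        rw [← h.1, hz] at u2
        linarith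
    have hb : π z.toDisc ∈ T.HB := (H.HB_or ht _).resolve_right (by linarith)
    have hm : (η 1)⁻¹ • π z.toDisc ∈ T.MM := by simpa using HB_sub hb
    obtain ⟨g1, g2, g3, g4, g5, g6⟩ := H.far hb ha (by linarith) (by linarith)
    rw [abs_le] at b0 b1
    rw [f3 1 _ hm, map_one, inv_one, one_smul]
    refine ⟨hm, g1, ?_, fun h => g5 ?_, fun h => g4 ?_, fun h => g6 ?_, fun h => g3 ?_⟩
    · rw [sh_two, adj_two, hlo']
      convert g2 using 2
      ring
    · rw [h] at b1; linarith [b1.2]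
    · rw [h] at b0; linarith [b0.1]
    · rw [h] at b1; linarith [b1.1]
    · rw [h] at b0; linarith [b0.2]
  · rintro w hw x hx ⟨h3, h4⟩
    rw [f3 w x hx] at h3 h4
    rw [rr_sh] at h3
    rw [sh_two, adj_two, hlo'] at h4
    have h5 : |dev true ((η w)⁻¹ • π x) 2 + 6| < 2 := by
      convert h4 using 2
      ring
    have h6 := le_rr_adj ha (dev true ((η w)⁻¹ • π x))
    have h7 := H.HB_of_neck hx (by linarith) (by linarith)
    have h8 := hs w hw _ h7 (by linarith)
    change tH (dev false ((η w)⁻¹ • π x)) ≤ a at h8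
    obtain ⟨h9, h10⟩ := H.dev_HB h7
    have h11 : 0 < tH (dev false ((η w)⁻¹ • π x)) := by
      refine (n2_nonneg _ _).lt_of_ne fun h0 => ?_
      have h12 : tH (dev false ((η w)⁻¹ • π x)) = 0 := h0.symm
      have h13 := (adj_mem ha (H.dev_MM hx))
      have h14 : rr (dev true ((η w)⁻¹ • π x)) = 0 := by
        rw [h10]
        simp [rr, mK, toU, rad, h12, n2]
      rcases H.dev_MM hx with h15 | ⟨n, h15⟩
      · exact not_mem_PU (by linarith) (by linarith) h15
      · have := h15.1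
        rw [rr_sh] at this
        linarith
    have h12 := rr_mK h11
    rw [← h10] at h12
    have h13 : 0 < 55 / tH (dev false ((η w)⁻¹ • π x)) := by positivity
    refine absurd h3 (not_lt.2 (six_le_rr_adj ha h5.le (by linarith) ?_))
    have h14 : 55 ≤ a * (55 / tH (dev false ((η w)⁻¹ • π x))) := by
      rw [← mul_div_assoc, le_div_iff₀ h11]
      linarith
    nlinarith

end TG

theorem obs0 (ht : Tree) (hp : PP) (hl : Lin) : Obs0 :=
  fun _ h0 h1 h2 _ _ hD hH hK hv _ _ hP =>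
    TG.DvH.obs ⟨h0, h1, hD, hH, hK, hv⟩ ht h2 hp hl hP

end Vale.Agent.P260Z.L3
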