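import Vale.Agent.P260Z.L3.Adj

/-!
# P260, layer 3: the main charts and the Klein bottle side
-/

noncomputable section

namespace Vale.Agent.P260Z.L3

open Set Topology

theorem act_tt (n : ℤ) (y : R4) : act true (tt ^ n) y = sh n y := by simp [act]

theorem tt_mem (n : ℤ) : tt ^ n ∈ Lam true := Subgroup.zpow_mem_zpowers tt n

theorem mem_Lam_true {g : GG} (h : g ∈ Lam true) : ∃ n : ℤ, g = tt ^ n := by
  obtain ⟨n, hn⟩ := h
  exact ⟨n, hn.symm⟩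

theorem jk_nil : Jk [] := ⟨trivial, by simp⟩

theorem thB_thA (y : R4) : thB (thA y) = y := by
  ext j; fin_cases j <;> simp [thA, thB]
theorem thA_thB (y : R4) : thA (thB y) = y := by
  ext j; fin_cases j <;> simp [thA, thB]
theorem aB_thA (y : R4) : aB (thA y) = ff y := by
  simp only [aB, ff, thA, n2, Matrix.cons_val_zero, Matrix.cons_val]
  congr 2 <;> ring
theorem ff_thA (y : R4) : ff (thA y) = aA y := by
  simp only [aA, ff, thA, n2, Matrix.cons_val_one, Matrix.cons_val_zero, Matrix.cons_val]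
  congr 2 <;> ring

theorem eta_of (lo : ℤ) (k : ℕ) (i : Fin k) :
    eta lo k (FreeGroup.of i) = tt ^ (lo + (i : ℕ)) * xx * (tt ^ (lo + (i : ℕ)))⁻¹ := by
  simp [eta]

theorem eta_mono {lo lo' : ℤ} {k k' : ℕ} (h1 : lo' ≤ lo) (h2 : lo + k ≤ lo' + k')
    (w : FreeGroup (Fin k)) : ∃ w', eta lo' k' w' = eta lo k w := by
  induction w using FreeGroup.induction_on with
  | C1 => exact ⟨1, by simp⟩
  | of i =>
    have hi := i.2
    refine ⟨FreeGroup.of ⟨(lo - lo' + (i : ℕ)).toNat, by omega⟩, ?_⟩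
    have : lo' + (((lo - lo' + (i : ℕ)).toNat : ℕ) : ℤ) = lo + (i : ℕ) := by omega
    rw [eta_of, eta_of, this]
  | inv_of i h =>
    obtain ⟨w', hw⟩ := h
    exact ⟨w'⁻¹, by rw [map_inv, map_inv, hw]⟩
  | mul a b ha hb =>
    obtain ⟨a', ha⟩ := ha
    obtain ⟨b', hb⟩ := hb
    exact ⟨a' * b', by rw [map_mul, map_mul, ha, hb]⟩

namespace TG
variable (T : TG)

/-- the main chart with everything behind its necks -/
def MM : Set T.X := {x | ∃ l, Jk l ∧ ∃ y ∈ T.P (ty true l), x = T.pa true l y}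

/-- the Klein bottle side of the base neck -/
def HB : Set T.X := {x | ∃ l, Red false l ∧ l.head? ≠ some (1, Ed.L) ∧
  ∃ y ∈ T.P (ty false l), x = T.pa false l y}

variable {T}

theorem isOpen_MM (h1 : T.Api1) : IsOpen T.MM := by
  have : T.MM = ⋃ l ∈ {l | Jk l}, T.pt (val l) (ty true l) '' (T.P (ty true l) ∩ univ) := by
    ext x
    simp only [MM, pa, mem_ofPred_eq, inter_univ, mem_iUnion, mem_image, exists_prop]
    exact exists_congr fun l => and_congr_right fun _ =>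
      exists_congr fun y => and_congr_right fun _ => eq_comm
  rw [this]
  exact isOpen_biUnion fun l _ => h1.opn _ _ isOpen_univ

theorem HB_addr {x : T.X} (hx : x ∈ T.HB) : ∃ l, Red true ((1, Ed.K) :: l) ∧
    ∃ y ∈ T.P (ty true ((1, Ed.K) :: l)), x = T.pa true ((1, Ed.K) :: l) y ∧
      x = T.pa false l y := by
  obtain ⟨l, h1, h2, y, hy, rfl⟩ := hx
  refine ⟨l, ⟨rfl, one_mem _, h1, h2⟩, y, hy, ?_, rfl⟩
  simp [pa, val, ty, Ed.s, Ed.tgt]

theorem HB_sub : T.HB ⊆ T.MM := by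
  intro x hx
  obtain ⟨l, h1, y, hy, h2, -⟩ := HB_addr hx
  exact ⟨_, ⟨h1, by simp⟩, y, hy, h2⟩

theorem pt_mem_MM {y : R4} (hy : y ∈ T.P true) : T.pt 1 true y ∈ T.MM :=
  ⟨[], jk_nil, y, hy, rfl⟩

theorem ex_addr_pt (ht : Tree) (h1 : T.Api1) (i : Bool) (x : T.X) :
    ∃ l, Red i l ∧ ∃ y ∈ T.P (ty i l), x = T.pa i l y := by
  obtain ⟨g, j, y, hy, rfl⟩ := h1.surj x
  obtain ⟨l, hl, rfl, hg⟩ := ht.ex i g j
  refine ⟨l, hl, _, T.P_act _ _ hg (T.C_sub _ hy), ?_⟩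
  rw [pa, ← h1.pt_lam _ hg (T.C_sub _ hy), mul_inv_cancel_left]

/-- the hypotheses on the developing maps -/
structure DvH (T : TG) (d : T.Dv) (dev : Bool → T.X → R4) : Prop where
  is : T.Is0
  a1 : T.Api1
  hD : d.D = Dr
  hH : d.Hull = Hl
  hK : d.m .K = mK
  dv : T.Dev d dev

variable {d : T.Dv} {dev : Bool → T.X → R4}

theorem DvH.m_mem (H : T.DvH d dev) (e : Ed) {y : R4} (hy : y ∈ d.Hull e) :
    d.m e y ∈ Dr e ∨ d.m e y ∈ T.W e := by
  by_cases h : y ∈ T.W e.bar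
  · right
    rw [d.eq e y h]
    have := T.θ_maps e.bar h
    rwa [Ed.bar_bar, Ed.tgt_bar] at this
  · exact Or.inl (H.hD ▸ d.maps e y hy h)

theorem DvH.dev_HB (H : T.DvH d dev) {x : T.X} (hx : x ∈ T.HB) :
    dev false x ∈ Hl .K ∧ dev true x = mK (dev false x) := by
  obtain ⟨l, h1, y, hy, h2, h3⟩ := HB_addr hx
  have := H.dv.cons true _ l h1 y hy
  rw [← h2, act_one, H.hH, H.hK] at this
  change dev false (T.pa false l y) ∈ _ ∧ _ = mK (dev false (T.pa false l y)) at this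
  rwa [← h3] at this

theorem DvH.HB_or (H : T.DvH d dev) (ht : Tree) (x : T.X) :
    x ∈ T.HB ∨ tH (dev false x) < 11 := by
  obtain ⟨l, hl, y, hy, rfl⟩ := ex_addr_pt ht H.a1 false x
  by_cases h : l.head? = some (1, Ed.L)
  · right
    obtain ⟨l', rfl⟩ : ∃ l', l = (1, Ed.L) :: l' := by
      cases l with
      | nil => simp at h
      | cons p l' => exact ⟨l', by simpa using h⟩
    obtain ⟨h2, h3⟩ := H.dv.cons false _ l' hl y hy
    rw [h3, act_one]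
    rcases H.m_mem _ h2 with h4 | h4
    · linarith [h4.1]
    · have h5 := h4.2
      rw [H.is.Wo_eq] at h5
      exact h5.2.1
  · exact Or.inl ⟨l, hl, h, y, hy, rfl⟩

theorem DvH.cases_MM (H : T.DvH d dev) {x : T.X} (hx : x ∈ T.MM) :
    (dev true x ∈ PU ∧ x = T.pt 1 true (dev true x)) ∨ ∃ n : ℤ, (tt ^ n)⁻¹ • x ∈ T.HB ∧
      sh (-n) (dev true x) ∈ Dr .K := by
  by_cases hP : dev true x ∈ PU
  · refine Or.inl ⟨hP, H.dv.inj true ?_⟩
    rw [H.dv.nil true _ (H.is.P_t ▸ hP)]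
  right
  obtain ⟨l, hl, y, hy, rfl⟩ := hx
  cases l with
  | nil =>
    refine absurd ?_ hP
    change dev true (T.pt 1 true y) ∈ PU
    rw [H.dv.nil true y hy]
    exact H.is.P_t ▸ hy
  | cons p l =>
    obtain ⟨a, e⟩ := p
    obtain rfl : e = Ed.K := hl.2 (a, e) (by simp)
    obtain ⟨n, rfl⟩ := mem_Lam_true hl.1.2.1
    obtain ⟨h2, h3⟩ := H.dv.cons true _ l hl.1 y hy
    refine ⟨n, ⟨l, hl.1.2.2.1, hl.1.2.2.2, y, hy, ?_⟩, ?_⟩
    · rw [pa, T.smul_pt _ _ hy]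
      simp [pa, val, ty, Ed.s, Ed.tgt]
    · rw [h3, act_tt] at hP ⊢
      rw [sh_neg_sh]
      refine (H.m_mem _ h2).resolve_right fun h4 => hP ?_
      have := T.P_act true _ (tt_mem n) h4.1
      rwa [act_tt, H.is.P_t] at this

theorem DvH.dev_MM (H : T.DvH d dev) {x : T.X} (hx : x ∈ T.MM) :
    dev true x ∈ PU ∪ per (Dr .K) := by
  rcases H.cases_MM hx with h | ⟨n, -, h⟩
  · exact Or.inl h.1
  · exact Or.inr ⟨_, h⟩

theorem DvH.HB_of_neck (H : T.DvH d dev) {x : T.X} (hx : x ∈ T.MM) (h : rr (dev true x) ≤ 9)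
    (hz : |dev true x 2 + 6| < 3) : x ∈ T.HB := by
  rcases H.cases_MM hx with h1 | ⟨n, h1, h2⟩
  · exact absurd h1.1 (not_mem_PU h hz)
  · have h3 := (gg_lt.1 h2.2.2).1
    rw [sh_two, abs_lt] at h3
    rw [abs_lt] at hz
    push_cast at h3
    obtain rfl : n = 0 := int_zero (by linarith [h3.2, hz.1]) (by linarith [h3.1, hz.2])
    simpa using h1

theorem DvH.PU_of_win (H : T.DvH d dev) {x : T.X} (hx : x ∈ T.MM) {a : ℝ} (ha : 0 ≤ a)
    (h : |adj a (dev true x) 0 - 14| < 6) :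
    dev true x ∈ PU ∧ x = T.pt 1 true (dev true x) := by
  refine (H.cases_MM hx).resolve_right ?_
  rintro ⟨n, -, h2⟩
  have h3 := h2.2.1
  rw [rr_sh] at h3
  have h4 := rr_adj_le ha h3
  simp only [rr, n2, max_le_iff, abs_le] at h4
  rw [abs_lt] at h
  linarith [h4.1.1, h.2]

theorem DvH.edge_A (H : T.DvH d dev) (j : ℤ) {v : R4} (hv : v ∈ PU) (hw : sh (-j) v ∈ Wo0 .A) :
    sh j (thA (sh (-j) v)) ∈ PU ∧
      T.pt 1 true v = (tt ^ j * xx * (tt ^ j)⁻¹) • T.pt 1 true (sh j (thA (sh (-j) v))) := by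
  have hv' : sh (-j) v ∈ T.P true := by
    have := T.P_act true _ (tt_mem (-j)) (H.is.P_t ▸ hv)
    rwa [act_tt] at this
  have hW : sh (-j) v ∈ T.W .A := ⟨hv', H.is.Wo_eq ▸ hw⟩
  have h1 := (T.θ_maps .A hW).1
  have h2 := H.a1.pt_edge (tt ^ j) hW
  rw [H.is.θ_eq] at h1 h2
  have h3 := T.P_act true _ (tt_mem j) h1
  rw [act_tt] at h3
  refine ⟨H.is.P_t ▸ h3, ?_⟩
  have h4 := H.a1.pt_lam 1 (tt_mem j) hv'
  rw [act_tt, sh_sh_neg, one_mul] at h4
  have h5 := H.a1.pt_lam (tt ^ j * xx * (tt ^ j)⁻¹) (tt_mem j) h1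
  rw [act_tt, inv_mul_cancel_right] at h5
  have h6 := T.smul_pt (tt ^ j * xx * (tt ^ j)⁻¹) 1 h3
  rw [mul_one] at h6
  exact h4.symm.trans (h2.symm.trans (h5.trans h6.symm))

/-- a point which is seen in two main charts -/
theorem DvH.two (H : T.DvH d dev) (hp : PP) {lo : ℤ} {k : ℕ} {w w' : FreeGroup (Fin k)} {x : T.X}
    (hx : (eta lo k w)⁻¹ • x ∈ T.MM) (hx' : (eta lo k w')⁻¹ • x ∈ T.MM) :
    w = w' ∨ (dev true ((eta lo k w)⁻¹ • x) ∈ PU ∧ dev true ((eta lo k w')⁻¹ • x) ∈ PU ∧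
      ∃ i : Fin k, (w' = w * FreeGroup.of i ∧
        sh (-(lo + (i : ℕ))) (dev true ((eta lo k w)⁻¹ • x)) ∈ Wo0 .A) ∨
      (w = w' * FreeGroup.of i ∧
        sh (-(lo + (i : ℕ))) (dev true ((eta lo k w')⁻¹ • x)) ∈ Wo0 .A)) := by
  obtain ⟨l, hl, y, hy, e⟩ := hx
  obtain ⟨l', hl', y', hy', e'⟩ := hx'
  have e1 := e
  have e1' := e'
  rw [inv_smul_eq_iff, pa, T.smul_pt _ _ hy] at e1
  rw [inv_smul_eq_iff, pa, T.smul_pt _ _ hy'] at e1'
  rcases (H.a1.pt_eq hy hy').1 (e1.symm.trans e1') with ⟨h1, h2, -⟩ |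
    ⟨ed, b, hb, b', hb', h1, h2, h3, h4, h5⟩
  · exact Or.inl (hp.same lo k w w' l l' hl hl' h1 h2).1
  rcases hp.adj lo k w w' l l' ed b⁻¹ b'⁻¹ hl hl' h1.symm h2.symm (h1 ▸ inv_mem hb)
    (h2 ▸ inv_mem hb') h4 with h | ⟨rfl, rfl, i, ha, ha', h⟩
  · exact Or.inl h
  have hb1 : b = tt ^ (-(lo + (i : ℕ))) := by rw [zpow_neg, ← ha, inv_inv]
  have hb2 : b' = tt ^ (-(lo + (i : ℕ))) := by rw [← hb1, ← inv_inj, ha']
  have d1 : dev true ((eta lo k w)⁻¹ • x) = y := by rw [e]; exact H.dv.nil true y hy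
  have d2 : dev true ((eta lo k w')⁻¹ • x) = y' := by rw [e']; exact H.dv.nil true y' hy'
  rw [d1, d2]
  refine Or.inr ⟨H.is.P_t ▸ hy, H.is.P_t ▸ hy', i, ?_⟩
  change act true b y ∈ _ at h3
  change act true b' y' = T.θ ed (act true b y) at h5
  rcases h with ⟨rfl, h⟩ | ⟨rfl, h⟩
  · rw [hb1, act_tt, H.is.Wo_eq] at h3
    exact Or.inl ⟨h, h3⟩
  · have h6 := (T.θ_maps .B ⟨T.P_act true b hb hy, h3⟩).2
    rw [← h5, hb2, act_tt, H.is.Wo_eq] at h6
    exact Or.inr ⟨h, h6⟩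

end TG

end Vale.Agent.P260Z.L3
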