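import Vale.Agent.P260Z.L3.ObsA

/-!
# P260, layer 3: bounds for an equivariant plane
-/

noncomputable section

namespace Vale.Agent.P260Z.L3

open Set Topology

attribute [local instance] actE

namespace TG
variable {T : TG} {d : T.Dv} {dev : Bool → T.X → R4}

/-- the plane is at bounded distance from a linear isomorphism -/
theorem DvH.lin (H : T.DvH d dev) (hl : Lin) {ψ : Lam false →* Lam false} {p : ℝ × ℝ → T.X}
    (hp : L2.Pl (Lam false) (ℝ × ℝ) ψ p) : ∃ (L : (ℝ × ℝ) ≃L[ℝ] (ℝ × ℝ)) (c : ℝ), 0 ≤ c ∧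
      ∀ u, |dev false (p u) 0 - (L u).1| ≤ c ∧ |dev false (p u) 1 - (L u).2| ≤ c := by
  obtain ⟨L, K, hK, h⟩ := hl ψ hp.1
  have hc : Continuous fun u => (dev false (p u) 0 - (L u).1, dev false (p u) 1 - (L u).2) := by
    have h2 := (H.dv.cont false).comp hp.2.1
    exact (((continuous_apply 0).comp h2).sub L.continuous.fst).prodMk
      (((continuous_apply 1).comp h2).sub L.continuous.snd)
  obtain ⟨c, hc'⟩ := hK.exists_bound_of_continuousOn hc.continuousOn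
  refine ⟨L, max c 0, le_max_right _ _, fun u => ?_⟩
  obtain ⟨j, u₀, h0, h1, h2⟩ := h u
  have h3 : dev false (p u) = act false (ψ j) (dev false (p u₀)) := by
    rw [h1, hp.2.2.1, H.dv.equi false _ (ψ j).2]
  have h4 := hc' u₀ h0
  rw [Prod.norm_def, max_le_iff, Real.norm_eq_abs, Real.norm_eq_abs] at h4
  rw [h3, h2, map_sub]
  constructor
  · refine le_trans (le_of_eq (congrArg _ ?_)) (h4.1.trans (le_max_left _ _))
    simp only [Matrix.cons_val_zero, Prod.fst_sub]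
    ring
  · refine le_trans (le_of_eq (congrArg _ ?_)) (h4.2.trans (le_max_left _ _))
    simp only [Matrix.cons_val_one, Matrix.cons_val_zero, Prod.snd_sub]
    ring

/-- a compact set meets finitely many main charts -/
theorem DvH.fin (H : T.DvH d dev) (h2 : T.Api2) (hp : PP) {K : Set T.X} (hK : IsCompact K) :
    ∃ (N : ℕ) (F : Set GG), F.Finite ∧ ∀ (lo : ℤ) (k : ℕ), lo ≤ -N → N ≤ lo + k →
      ∀ x ∈ K, ∃ w, eta lo k w ∈ F ∧ (eta lo k w)⁻¹ • x ∈ T.MM := by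
  obtain ⟨F, hF, B, -, h⟩ := h2.fin hK
  choose N hN using hp.ex
  obtain ⟨N₀, hN₀⟩ := (hF.image fun q => N q.1 q.2).bddAbove
  have hle : ∀ q ∈ F, N q.1 q.2 ≤ N₀ := fun q hq => hN₀ (mem_image_of_mem _ hq)
  have key : ∀ q : GG × Bool, ∃ g : GG, q ∈ F → (∃ w, eta (-N₀) (2 * N₀) w = g) ∧
      ∀ y ∈ T.C q.2, g⁻¹ • T.pt q.1 q.2 y ∈ T.MM := by
    intro q
    by_cases hq : q ∈ F
    · have := hle q hq
      obtain ⟨w, l, h1, h3, h4⟩ := hN q.1 q.2 (-N₀) (2 * N₀) (by omega) (by push_cast; omega)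
      refine ⟨_, fun _ => ⟨⟨w, rfl⟩, fun y hy => ?_⟩⟩
      have hy' := T.C_sub _ hy
      refine ⟨l, h1, _, h3 ▸ T.P_act _ _ h4 hy', ?_⟩
      rw [T.smul_pt _ _ hy', pa, h3, ← H.a1.pt_lam _ h4 hy']
      congr 1
      group
    · exact ⟨1, fun h => absurd h hq⟩
  choose g hg using key
  refine ⟨N₀, g '' F, hF.image g, fun lo k h3 h4 x hx => ?_⟩
  obtain ⟨q, hq, y, hy, rfl⟩ := h x hx
  obtain ⟨⟨w, hw⟩, h5⟩ := hg q hq
  obtain ⟨w', hw'⟩ := eta_mono (lo' := lo) (k' := k) h3 (by push_cast; omega) w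
  exact ⟨w', ⟨q, hq, (hw'.trans hw).symm⟩, by rw [hw', hw]; exact h5 y hy.2⟩

theorem bound_fin {K : Set T.X} (hK : IsCompact K) {F : Set GG} (hF : F.Finite)
    (h1 : T.Api1) {f : T.X → ℝ} (hf : Continuous f) :
    ∃ R : ℝ, 0 ≤ R ∧ ∀ g ∈ F, ∀ x ∈ K, |f (g⁻¹ • x)| ≤ R := by
  have := h1.cts
  have h : IsCompact (⋃ g ∈ F, (fun x => g⁻¹ • x) '' K) :=
    hF.isCompact_biUnion fun g _ => hK.image (continuous_const_smul _)
  obtain ⟨R, hR⟩ := h.exists_bound_of_continuousOn hf.continuousOn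
  refine ⟨max R 0, le_max_right _ _, fun g hg x hx => le_trans ?_ (le_max_left _ _)⟩
  exact hR _ (mem_biUnion hg (mem_image_of_mem _ hx))

theorem DvH.not_PU (H : T.DvH d dev) {x : T.X} (hx : x ∈ T.HB) (h : 11 ≤ tH (dev false x)) :
    rr (dev true x) = 4 + 55 / tH (dev false x) := by
  have h0 : 0 < tH (dev false x) := by linarith
  have h1 : 20 - tH (dev false x) ≤ 4 + 55 / tH (dev false x) := by
    have : 16 - tH (dev false x) ≤ 55 / tH (dev false x) := by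
      rw [le_div_iff₀ h0]
      nlinarith
    linarith
  rw [(H.dev_HB hx).2, mK, max_eq_right h1]
  have h2 : 0 ≤ (4 + 55 / tH (dev false x)) / tH (dev false x) := by positivity
  have h3 := n2_mul h2 (dev false x 0) (dev false x 1)
  simp only [rr, toU, rad, Matrix.cons_val_zero, Matrix.cons_val_one, add_sub_cancel_right]
  rw [h3]
  change _ * tH (dev false x) = _
  field_simp

theorem rr_mK {y : R4} (h : 0 < tH y) : 4 + 55 / tH y ≤ rr (mK y) := by
  have h1 : 0 < 4 + 55 / tH y := by positivity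
  have h2 : 0 ≤ max (20 - tH y) (4 + 55 / tH y) / tH y :=
    div_nonneg (le_max_of_le_right h1.le) h.le
  have h3 := n2_mul h2 (y 0) (y 1)
  simp only [rr, mK, toU, rad, Matrix.cons_val_zero, Matrix.cons_val_one, add_sub_cancel_right]
  rw [h3]
  change _ ≤ _ * tH y
  rw [div_mul_cancel₀ _ h.ne']
  exact le_max_right _ _

/-- the other translates stay in a bounded part of the Klein bottle side -/
theorem DvH.side (H : T.DvH d dev) (ht : Tree) (h2 : T.Api2) (hp : PP) {p : ℝ × ℝ → T.X}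
    (hc : Continuous p) (L : (ℝ × ℝ) ≃L[ℝ] (ℝ × ℝ)) {c : ℝ}
    (hL : ∀ u, |dev false (p u) 0 - (L u).1| ≤ c ∧ |dev false (p u) 1 - (L u).2| ≤ c) :
    ∃ (N : ℕ) (R : ℝ), 0 ≤ R ∧ ∀ (lo : ℤ) (k : ℕ), lo ≤ -N → N ≤ lo + k → ∀ w, w ≠ 1 → ∀ u,
      (eta lo k w)⁻¹ • p u ∈ T.HB → rr (dev true ((eta lo k w)⁻¹ • p u)) ≤ 9 →
      tH (dev false ((eta lo k w)⁻¹ • p u)) ≤ R := by
  have hK : IsCompact (p '' (L.symm '' Metric.closedBall 0 (11 + c))) :=
    ((isCompact_closedBall _ _).image L.symm.continuous).image hc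
  obtain ⟨N, F, hF, h⟩ := H.fin h2 hp hK
  obtain ⟨R, hR0, hR⟩ := bound_fin hK hF H.a1 (continuous_tH.comp (H.dv.cont false))
  refine ⟨N, R, hR0, fun lo k h3 h4 w hw u hu h9 => ?_⟩
  have hz : |dev true ((eta lo k w)⁻¹ • p u) 2 + 6| < 3 := by
    obtain ⟨h5, h6⟩ := H.dev_HB hu
    have h7 : gg (dev false ((eta lo k w)⁻¹ • p u)) < 2 := by
      rcases h5.1 with (h5 | ⟨a, h5⟩) | ⟨a, h5⟩
      · linarith [h5.1]
      · have : gg (dev false ((eta lo k w)⁻¹ • p u)) < 3 / 2 := h5.2.2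
        linarith
      · exact h5.2.1
    rw [h6]
    have := (gg_lt.1 h7).1
    change |dev false ((eta lo k w)⁻¹ • p u) 2 + 6| < 3
    linarith
  have hn := not_mem_PU h9 hz
  have hu1 : p u ∉ T.HB := by
    intro h5
    have h6 : (eta lo k 1)⁻¹ • p u ∈ T.MM := by simpa using HB_sub h5
    rcases H.two hp (HB_sub hu) h6 with h7 | h7
    · exact hw h7
    · exact hn h7.1
  have h5 := (H.HB_or ht (p u)).resolve_left hu1
  have hmem : p u ∈ p '' (L.symm '' Metric.closedBall 0 (11 + c)) := by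
    refine mem_image_of_mem _ ⟨L u, ?_, L.symm_apply_apply u⟩
    rw [mem_closedBall_zero_iff, Prod.norm_def, max_le_iff, Real.norm_eq_abs, Real.norm_eq_abs]
    simp only [tH, n2, max_lt_iff, abs_lt] at h5
    obtain ⟨h6, h7⟩ := hL u
    rw [abs_le] at h6 h7
    constructor <;> rw [abs_le] <;> constructor <;> linarith [h5.1.1, h5.1.2, h5.2.1, h5.2.2]
  obtain ⟨w', h6, h7⟩ := h lo k h3 h4 _ hmem
  rcases H.two hp (HB_sub hu) h7 with rfl | h8
  · exact (le_abs_self _).trans (hR _ h6 _ hmem)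
  · exact absurd h8.1 hn

/-- a compact set lies in finitely many levels -/
theorem DvH.levels (H : T.DvH d dev) (h2 : T.Api2) (hp : PP) {K : Set T.X} (hK : IsCompact K) :
    ∃ N : ℕ, ∀ (lo : ℤ) (k : ℕ), lo ≤ -N → N ≤ lo + k → ∀ x ∈ K,
      (∃ w, (eta lo k w)⁻¹ • x ∈ T.MM) ∧
      ∀ w, (eta lo k w)⁻¹ • x ∈ T.MM → |dev true ((eta lo k w)⁻¹ • x) 2| < N := by
  obtain ⟨N, F, hF, h⟩ := H.fin h2 hp hK
  obtain ⟨R, hR0, hR⟩ := bound_fin hK hF H.a1 ((continuous_apply 2).comp (H.dv.cont true))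
  obtain ⟨M, hM⟩ := exists_nat_gt (R + 30)
  refine ⟨max N M, fun lo k h3 h4 x hx => ?_⟩
  obtain ⟨w', h5, h6⟩ := h lo k (by omega) (by omega) x hx
  refine ⟨⟨w', h6⟩, fun w hw => ?_⟩
  have h7 : |dev true ((eta lo k w')⁻¹ • x) 2| ≤ R := hR _ h5 x hx
  have h8 : (M : ℝ) ≤ (max N M : ℕ) := by exact_mod_cast le_max_right N M
  have key : ∀ {v v' : FreeGroup (Fin k)} {i : Fin k}, v' = v * FreeGroup.of i →
      dev true ((eta lo k v)⁻¹ • x) ∈ PU → (eta lo k v)⁻¹ • x ∈ T.MM →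
      sh (-(lo + (i : ℕ))) (dev true ((eta lo k v)⁻¹ • x)) ∈ Wo0 .A →
      |dev true ((eta lo k v)⁻¹ • x) 2 - dev true ((eta lo k v')⁻¹ • x) 2| < 30 := by
    intro v v' i e h9 h10 h11
    obtain ⟨a1, a2⟩ := H.edge_A _ h9 h11
    have a3 : (eta lo k v)⁻¹ • x = T.pt 1 true (dev true ((eta lo k v)⁻¹ • x)) := by
      apply H.dv.inj true
      rw [H.dv.nil true _ (H.is.P_t ▸ h9)]
    rw [← a3, ← eta_of, ← inv_smul_eq_iff, ← mul_smul, ← mul_inv_rev, ← map_mul, ← e] at a2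
    rw [a2, H.dv.nil true _ (H.is.P_t ▸ a1)]
    obtain ⟨b1, b2⟩ := h11
    simp only [aA, ff, n2, max_lt_iff, abs_lt, sh, thA, Matrix.cons_val] at b1 b2 ⊢
    push_cast at b1 b2 ⊢
    constructor <;> linarith [b1.2.1, b1.2.2, b2.2.1, b2.2.2]
  rcases H.two hp hw h6 with rfl | ⟨a1, a2, i, ⟨e, a3⟩ | ⟨e, a3⟩⟩
  · linarith
  · have := key e a1 hw a3
    rw [abs_lt] at this ⊢
    rw [abs_le] at h7
    constructor <;> linarith [this.1, this.2, h7.1, h7.2]
  · have := key e a2 h6 a3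
    rw [abs_lt] at this ⊢
    rw [abs_le] at h7
    constructor <;> linarith [this.1, this.2, h7.1, h7.2]

end TG

end Vale.Agent.P260Z.L3
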