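import Vale.Agent.P260Z.L3.Kl

/-!
# P260, layer 3: the filling by the tower is a glued space
-/

noncomputable section

namespace Vale.Agent.P260Z.L3

open Set Topology Kl

namespace T0

theorem sh_PU (h : Pos) (n : ℤ) (y : R4) : sh n y ∈ PU ↔ y ∈ PU :=
  or_congr (h.sh_UU n y) (sh_per n y)

theorem sh_ZU (h : Pos) (n : ℤ) (y : R4) : sh n y ∈ ZU ↔ y ∈ ZU :=
  and_congr (and_congr (h.sh_UU n y) (h.sh_UC n y)) (not_congr (sh_per n y))

theorem UU_A (h : Pos) {y : R4} (h1 : aA y ≤ 7) (h2 : ff y ≤ 7) : y ∈ UU ↔ ff y ≤ 5 := by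
  have := n2_le.1 h1
  exact (h.colU y (abs_le.2 this.1) h2 (by linarith [this.2.1]) (by linarith [this.2.2])).1

theorem UU_B (h : Pos) {y : R4} (h1 : aB y ≤ 7) (h2 : ff y ≤ 7) : y ∈ UU ↔ ff y ≤ 5 := by
  have := n2_le.1 h1
  exact (h.colU y (abs_le.2 this.1) h2 (by linarith [this.2.1]) (by linarith [this.2.2])).1

theorem UU_K (h : Pos) {y : R4} (h1 : rr y ≤ 11) (h2 : gg y ≤ 4) : y ∈ UU ↔ 10 ≤ rr y := by
  have := n2_le.1 h2
  exact (h.neck y h1 (abs_le.2 this.1) (abs_le.2 this.2)).1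

theorem tH_thK {y : R4} (hy : y ∈ Wo0 .K) : tH (th0 .K y) = 20 - rr y :=
  tH_rfl10 (y := toH y) (by rw [tH_toH]; linarith [hy.1]) (by rw [tH_toH]; linarith [hy.2.1])

theorem rr_thL {y : R4} (hy : y ∈ Wo0 .L) : rr (th0 .L y) = 20 - tH y :=
  (rr_toU _).trans (tH_rfl10 (by linarith [hy.1]) (by linarith [hy.2.1]))

theorem isOpen_StO : IsOpen StO :=
  ((isOpen_lt continuous_aA continuous_const).inter
    (isOpen_lt continuous_ff continuous_const)).union
  (((isOpen_lt continuous_aB continuous_const).inter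
    (isOpen_lt continuous_ff continuous_const)).union
  ((isOpen_lt continuous_const continuous_rr).inter ((isOpen_lt continuous_rr
    continuous_const).inter (isOpen_lt continuous_gg continuous_const))))

theorem isClosed_ZU (h : Pos) : IsClosed ZU :=
  (h.closed_UU.inter h.closed_UC).sdiff (isOpen_per isOpen_StO)

theorem lc_PU (h : Pos) : IsLocallyClosed PU := lc_of fun x hx => by
  let G : Set R4 := {y | (aA y ≤ 5 ∧ ff y ≤ 6) ∨ (aB y ≤ 5 ∧ ff y ≤ 6) ∨ (rr y ≤ 10 ∧ gg y ≤ 1)}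
  have hG : IsClosed G := ((isClosed_le continuous_aA continuous_const).inter
      (isClosed_le continuous_ff continuous_const)).union
    (((isClosed_le continuous_aB continuous_const).inter
      (isClosed_le continuous_ff continuous_const)).union
    ((isClosed_le continuous_rr continuous_const).inter
      (isClosed_le continuous_gg continuous_const)))
  have hG' : IsClosed (per G) := isClosed_per hG (r := 100) fun y hy => by
    rcases hy with hy | hy | hy
    · have := (n2_le.1 hy.1).2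
      exact abs_le.2 ⟨by linarith, by linarith⟩
    · have := (n2_le.1 hy.1).2
      exact abs_le.2 ⟨by linarith, by linarith⟩
    · have := (n2_le.1 hy.2).1
      exact abs_le.2 ⟨by linarith, by linarith⟩
  have key : ∀ (n : ℤ) (e : Ed) (F : Set R4), IsClosed F → sh n x ∈ Wo0 e →
      (∀ y ∈ Wo0 e, y ∈ PU ↔ y ∈ F) → ∃ U F : Set R4, x ∈ U ∧ IsOpen U ∧ IsClosed F ∧
        ∀ y ∈ U, y ∈ PU ↔ y ∈ F := fun n e F a1 a2 a3 =>
    ⟨sh n ⁻¹' Wo0 e, sh n ⁻¹' F, a2, (isOpen_Wo0 e).preimage (continuous_sh n),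
      a1.preimage (continuous_sh n), fun y hy => (sh_PU h n y).symm.trans (a3 _ hy)⟩
  by_cases hx' : x ∈ per G
  · obtain ⟨n, hn⟩ := hx'
    have h0 := (sh_PU h n x).2 hx
    rcases hn with hn | hn | hn
    · have := (h.PU_A _ (by linarith) (by linarith)).1 h0
      refine key n .A {y | ff y ≤ 5 ∨ aA y ≤ 5} ((isClosed_le continuous_ff continuous_const).union
        (isClosed_le continuous_aA continuous_const)) ⟨by linarith, by grind⟩ fun y hy => ?_
      rw [h.PU_A y (by linarith [hy.1]) (by linarith [hy.2]), and_iff_left hy.2]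
      rfl
    · have := (h.PU_B _ (by linarith) (by linarith)).1 h0
      refine key n .B {y | ff y ≤ 5 ∨ aB y ≤ 5} ((isClosed_le continuous_ff continuous_const).union
        (isClosed_le continuous_aB continuous_const)) ⟨by linarith, by grind⟩ fun y hy => ?_
      rw [h.PU_B y (by linarith [hy.1]) (by linarith [hy.2]), and_iff_left hy.2]
      rfl
    · have := (h.PU_K _ (by linarith) (by linarith)).1 h0
      refine key n .K {y | 10 ≤ rr y ∨ gg y ≤ 1} ((isClosed_le continuous_const continuous_rr).union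
        (isClosed_le continuous_gg continuous_const)) ⟨by grind, by linarith, by linarith⟩
        fun y hy => ?_
      rw [h.PU_K y hy.2.1.le (by linarith [hy.2.2]), and_iff_right hy.1]
      rfl
  · refine ⟨(per G)ᶜ, UU, hx', hG'.isOpen_compl, h.closed_UU, fun y hy => ⟨?_, Or.inl⟩⟩
    rintro (h1 | ⟨n, (h1 | h1) | h1⟩)
    · exact h1
    · exact (hy ⟨n, Or.inl ⟨h1.1, h1.2.le⟩⟩).elim
    · exact (hy ⟨n, Or.inr (Or.inl ⟨h1.1, h1.2.le⟩)⟩).elim
    · refine (h.sh_UU n y).1 ((UU_K h h1.2.1.le (by linarith [h1.2.2])).2 (not_lt.1 fun a => ?_))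
      exact hy ⟨n, Or.inr (Or.inr ⟨a.le, h1.2.2⟩)⟩

/-- the pieces -/
def P0 : Bool → Set R4
  | true => PU
  | false => PH
/-- the cores -/
def C0 : Bool → Set R4
  | true => UU
  | false => CH
/-- the boundary parts -/
def Z0 : Bool → Set R4
  | true => ZU
  | false => ZH

theorem maps (h : Pos) (e : Ed) :
    MapsTo (th0 e) (P0 e.src ∩ Wo0 e) (P0 e.tgt ∩ Wo0 e.bar) := by
  rintro y ⟨h1, h2⟩
  cases e
  · have := (h.PU_A y (by linarith [h2.1]) (by linarith [h2.2])).1 h1
    have a1 := aB_thA y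
    have a2 := ff_thA y
    obtain ⟨h2, h3⟩ := h2
    exact ⟨(h.PU_B (thA y) (by linarith) (by linarith)).2 (by grind),
      a1.trans_lt h3, a2.trans_lt h2⟩
  · have := (h.PU_B y (by linarith [h2.1]) (by linarith [h2.2])).1 h1
    have a1 := aA_thB y
    have a2 := ff_thB y
    obtain ⟨h2, h3⟩ := h2
    exact ⟨(h.PU_A (thB y) (by linarith) (by linarith)).2 (by grind),
      a1.trans_lt h3, a2.trans_lt h2⟩
  · have := (h.PU_K y h2.2.1.le (by linarith [h2.2.2])).1 h1
    have a1 := tH_thK h2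
    have a2 : gg (th0 .K y) = gg y := rfl
    obtain ⟨h2, h3, h4⟩ := h2
    exact ⟨(h.PH_L (th0 .K y) (by linarith)).2.2 (by grind), by linarith, by linarith, h4⟩
  · have := (h.PH_L y (by linarith [h2.2.1])).2.1 h1
    have a1 := rr_thL h2
    have a2 : gg (th0 .L y) = gg y := rfl
    obtain ⟨h2, h3, h4⟩ := h2
    exact ⟨(h.PU_K (th0 .L y) (by linarith) (by linarith)).2 (by grind), by linarith,
      by linarith, h4⟩

theorem th_th (e : Ed) {y : R4} (hy : y ∈ Wo0 e) : th0 e.bar (th0 e y) = y := by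
  cases e
  · exact thB_thA y
  · exact thA_thB y
  · change toU (rfl10 (rfl10 (toH y))) = y
    rw [rfl10_rfl10 (by rw [tH_toH]; linarith [hy.1]) (by rw [tH_toH]; linarith [hy.2.1]),
      toU_toH]
  · change rfl10 (toH (toU (rfl10 y))) = y
    rw [toH_toU, rfl10_rfl10 (by linarith [hy.1]) (by linarith [hy.2.1])]

theorem th_cont (e : Ed) : ContinuousOn (th0 e) (Wo0 e) := by
  cases e
  · exact continuous_thA.continuousOn
  · exact continuous_thB.continuousOn
  · exact continuousOn_rfl10.comp continuous_toH.continuousOn fun y hy =>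
      (show (0 : ℝ) < rr y by linarith [hy.1]).ne'
  · exact continuous_toU.comp_continuousOn (continuousOn_rfl10.mono fun y hy =>
      (show (0 : ℝ) < tH y by linarith [hy.1]).ne')

/-- the height of a window -/
def ht : Ed → ℤ
  | .A => 46 | .B => 30 | .K => -6 | .L => -6

theorem ht_Wo {e : Ed} {y : R4} (hy : y ∈ Wo0 e) : -6 < y 2 - ht e ∧ y 2 - ht e < 6 := by
  cases e
  · simpa [ht] using (n2_lt.1 hy.1).2
  · simpa [ht] using (n2_lt.1 hy.1).2
  · have := (n2_lt.1 hy.2.2).1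
    constructor <;> simp [ht] <;> linarith
  · have := (n2_lt.1 hy.2.2).1
    constructor <;> simp [ht] <;> linarith

theorem disj_U {e e' : Ed} (he : e.src = true) (he' : e'.src = true) {n : ℤ} {y : R4}
    (h1 : y ∈ Wo0 e) (h2 : sh n y ∈ Wo0 e') : n = 0 ∧ e' = e := by
  have a1 := ht_Wo h1
  have a2 := ht_Wo h2
  rw [sh_two] at a2
  have a3 : ht e' - ht e - 12 < 72 * n := by
    exact_mod_cast (by linarith : (ht e' : ℝ) - ht e - 12 < 72 * n)
  have a4 : 72 * n < ht e' - ht e + 12 := by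
    exact_mod_cast (by linarith : (72 * n : ℝ) < ht e' - ht e + 12)
  cases e <;> cases e' <;> simp only [ht, Ed.src, reduceCtorEq, and_true, and_false] at * <;> omega

theorem sep (h : Pos) (e : Ed) {y y' : R4} (hy : y ∈ P0 e.src) (hy' : y' ∈ P0 e.tgt)
    (hc : (y, y') ∈ closure {p : R4 × R4 | p.1 ∈ P0 e.src ∩ Wo0 e ∧ p.2 = th0 e p.1}) :
    y ∈ Wo0 e := by
  have key : ∀ (f g f' g' : R4 → ℝ) (a b c : ℝ), Continuous f → Continuous g → Continuous f' →
      Continuous g' → (∀ y ∈ Wo0 e, f y ≤ a ∧ g y ≤ b ∧ f' (th0 e y) = c + f y ∧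
        g' (th0 e y) = g y) → f y ≤ a ∧ g y ≤ b ∧ f' y' = c + f y ∧ g' y' = g y :=
    fun f g f' g' a b c a1 a2 a3 a4 a5 => closure_minimal
      (t := {p : R4 × R4 | f p.1 ≤ a ∧ g p.1 ≤ b ∧ f' p.2 = c + f p.1 ∧ g' p.2 = g p.1})
      (fun p hp => by
        rw [mem_ofPred_eq, hp.2]
        exact a5 _ hp.1.2)
      ((isClosed_le (a1.comp continuous_fst) continuous_const).inter
        ((isClosed_le (a2.comp continuous_fst) continuous_const).inter
        ((isClosed_eq (a3.comp continuous_snd)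
          (continuous_const.add (a1.comp continuous_fst))).inter
        (isClosed_eq (a4.comp continuous_snd) (a2.comp continuous_fst))))) hc
  cases e
  · obtain ⟨a1, a2, a3, a4⟩ := key aA ff ff aB 6 6 0 (by fun_prop) (by fun_prop) (by fun_prop)
      (by fun_prop) fun y hy => ⟨hy.1.le, hy.2.le, (ff_thA y).trans (zero_add _).symm, aB_thA y⟩
    have b1 := (h.PU_A y (by linarith) (by linarith)).1 hy
    have b2 := (h.PU_B y' (by linarith) (by linarith)).1 hy'
    exact ⟨by grind, by grind⟩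
  · obtain ⟨a1, a2, a3, a4⟩ := key aB ff ff aA 6 6 0 (by fun_prop) (by fun_prop) (by fun_prop)
      (by fun_prop) fun y hy => ⟨hy.1.le, hy.2.le, (ff_thB y).trans (zero_add _).symm, aA_thB y⟩
    have b1 := (h.PU_B y (by linarith) (by linarith)).1 hy
    have b2 := (h.PU_A y' (by linarith) (by linarith)).1 hy'
    exact ⟨by grind, by grind⟩
  · obtain ⟨a1, a2, a3, a4⟩ := key rr gg (fun y => -tH y) gg 11 2 (-20) (by fun_prop)
      (by fun_prop) (by fun_prop) (by fun_prop) fun y hy =>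
        ⟨hy.2.1.le, by linarith [hy.2.2], by rw [tH_thK hy]; ring, rfl⟩
    have b1 := (h.PU_K y a1 (by linarith)).1 hy
    have b2 := PH_near h hy' (by linarith [show 0 ≤ rr y from n2_nonneg _ _])
    exact ⟨by grind, by linarith, by linarith⟩
  · obtain ⟨a1, a2, a3, a4⟩ := key (fun y => -tH y) gg (fun y => rr y) gg (-9) 2 20 (by fun_prop)
      (by fun_prop) (by fun_prop) (by fun_prop) fun y hy =>
        ⟨by linarith [hy.1], by linarith [hy.2.2], by rw [rr_thL hy]; ring, rfl⟩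
    have b1 := (h.PU_K y' (by linarith) (by linarith)).1 hy'
    have b2 := PH_near h hy (by grind)
    exact ⟨b2.1, by grind, b2.2⟩

theorem cover (h : Pos) (i : Bool) {y : R4} (hy : y ∈ P0 i) : y ∈ C0 i ∨ ∃ e : Ed, ∃ l ∈ Lam i,
    e.src = i ∧ act i l y ∈ Wo0 e ∧ th0 e (act i l y) ∈ C0 e.tgt := by
  cases i
  · refine (cover_H hy).imp_right fun ⟨l, h1, h2, h3⟩ => ⟨.L, l, h1, rfl, h2, ?_⟩
    have := rr_thL h2
    exact (UU_K h (y := th0 .L (act false l y)) (by linarith [h2.1])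
      (le_trans h2.2.2.le (by norm_num))).2
      (by linarith)
  · rcases hy with hy | ⟨n, (h1 | h1) | h1⟩
    · exact Or.inl hy
    · refine Or.inr ⟨.A, _, tt_mem n, rfl, ?_⟩
      rw [act_tt]
      exact ⟨⟨by linarith [h1.1], h1.2⟩, (UU_B h (y := thA _) (by rw [aB_thA]; linarith [h1.2])
        (by rw [ff_thA]; linarith [h1.1])).2 (by rw [ff_thA]; exact h1.1)⟩
    · refine Or.inr ⟨.B, _, tt_mem n, rfl, ?_⟩
      rw [act_tt]
      exact ⟨⟨by linarith [h1.1], h1.2⟩, (UU_A h (y := thB _) (by rw [aA_thB]; linarith [h1.2])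
        (by rw [ff_thB]; linarith [h1.1])).2 (by rw [ff_thB]; exact h1.1)⟩
    · rcases le_total 10 (rr (sh n y)) with h2 | h2
      · exact Or.inl ((h.sh_UU n y).1 ((UU_K h h1.2.1.le (by linarith [h1.2.2])).2 h2))
      · refine Or.inr ⟨.K, _, tt_mem n, rfl, ?_⟩
        rw [act_tt]
        have a1 : sh n y ∈ Wo0 .K := ⟨h1.1, h1.2.1, by linarith [h1.2.2]⟩
        have a2 := tH_thK a1
        exact ⟨a1, (h.PH_L _ (by linarith [h1.1])).1.2 ⟨by linarith, h1.2.2⟩⟩

theorem cpt_UU (h : Pos) :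
    ∃ K, IsCompact K ∧ K ⊆ UU ∧ ∀ y ∈ UU, ∃ l ∈ Lam true, act true l y ∈ K := by
  refine ⟨UU ∩ {y | 0 ≤ y 2 ∧ y 2 ≤ 72}, Metric.isCompact_of_isClosed_isBounded
    (h.closed_UU.inter ((isClosed_le continuous_const (continuous_apply 2)).inter
      (isClosed_le (continuous_apply 2) continuous_const)))
    (bdd_of 100 fun y hy j => ?_), inter_subset_left, fun y hy => ?_⟩
  · obtain ⟨⟨⟨a1, a2, a3⟩, -⟩, a4⟩ := hy
    fin_cases j <;> simp <;> constructor <;>
      linarith [a1.1, a1.2, a2.1, a2.2, a3.1, a3.2, a4.1, a4.2]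
  · obtain ⟨n, h1, h2⟩ := exists_sh y
    exact ⟨_, tt_mem n, by rw [act_tt]; exact ⟨(h.sh_UU n y).2 hy, h1, h2.le⟩⟩

/-- the filling by the tower -/
def tg (h : Pos) : TG where
  P := P0
  C := C0
  Zc := Z0
  Wo := Wo0
  θ := th0
  ne := ⟨![14, 34, 46, 6], (h.PU_A _ (by simp [aA, n2]) (by simp [ff, n2])).2
    (Or.inl (by simp [ff, n2]))⟩
  isOpen_Wo := isOpen_Wo0
  bdd e := (bdd_Wo0 e).subset inter_subset_right
  lc i := by
    cases i
    exacts [lc_PH h, lc_PU h]
  closed_C i := by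
    cases i
    exacts [isClosed_CH, h.closed_UU]
  closed_Z i := by
    cases i
    exacts [isClosed_ZH, isClosed_ZU h]
  C_sub i := by
    cases i
    exacts [subset_union_left, subset_union_left]
  Z_sub i := by
    cases i
    exacts [fun _ hy => hy.1, fun _ hy => hy.1.1]
  P_act i l _ y hy := by
    cases i
    exacts [(kl_PH _ y).2 hy, (sh_PU h _ y).2 hy]
  C_act i l _ y hy := by
    cases i
    exacts [(kl_CH _ y).2 hy, (h.sh_UU _ y).2 hy]
  Z_act i l _ y hy := by
    cases i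
    exacts [(kl_ZH _ y).2 hy, (sh_ZU h _ y).2 hy]
  θ_cont e := (th_cont e).mono inter_subset_right
  θ_maps := maps h
  θ_θ e y hy := th_th e hy.2
  disj e e' l hl y hy he h2 := by
    cases hs : e.src
    · obtain rfl : e = .L := by cases e <;> simp_all [Ed.src]
      obtain rfl : e' = .L := by cases e' <;> simp_all [Ed.src]
      exact ⟨disj_L h hl hy.2 h2, rfl⟩
    · rw [hs] at hl he h2
      have := disj_U hs he hy.2 h2
      exact ⟨eq_one_true hl this.1, this.2⟩
  cover i y hy := cover h i hy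
  sep e y hy y' hy' := sep h e hy hy'
  cpt i := by
    cases i
    exacts [cpt_CH, cpt_UU h]

end T0

theorem tg0 (h : Pos) : TG0 := ⟨T0.tg h, rfl, rfl, rfl, rfl, rfl, rfl, rfl, rfl⟩

end Vale.Agent.P260Z.L3
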