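import Vale.Agent.P260Z.L3.Sk

/-!
# P260, layer 3: the filling by the complement, lemmas
-/

noncomputable section

namespace Vale.Agent.P260Z.L3.T1

open Set Topology

theorem n2_le {a b c : ℝ} : n2 a b ≤ c ↔ |a| ≤ c ∧ |b| ≤ c := max_le_iff
theorem n2_lt {a b c : ℝ} : n2 a b < c ↔ |a| < c ∧ |b| < c := max_lt_iff
theorem n2_mul {t : ℝ} (ht : 0 ≤ t) (a b : ℝ) : n2 (t * a) (t * b) = t * n2 a b := by
  rw [n2, n2, abs_mul, abs_mul, abs_of_nonneg ht, mul_max_of_nonneg _ _ ht]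

/-- the size of the base coordinates of a column with centre `c` -/
def aC (c : ℝ) (y : R4) : ℝ := n2 (y 0 - 14) (y 2 - c)

@[fun_prop] theorem cont_aC (c : ℝ) : Continuous (aC c) := by unfold aC n2; fun_prop
@[fun_prop] theorem cont_ff : Continuous ff := by unfold ff n2; fun_prop
@[fun_prop] theorem cont_rr : Continuous rr := by unfold rr n2; fun_prop
@[fun_prop] theorem cont_gg : Continuous gg := by unfold gg n2; fun_prop
@[fun_prop] theorem cont_tH : Continuous tH := by unfold tH n2; fun_prop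
@[fun_prop] theorem cont_r3 : Continuous r3 := by unfold r3; fun_prop
theorem cont_toH : Continuous toH := by unfold toH; fun_prop
theorem cont_toU : Continuous toU := by unfold toU; fun_prop

theorem tH_toH (y : R4) : tH (toH y) = rr y := rfl
theorem gg_toH (y : R4) : gg (toH y) = gg y := rfl
theorem rr_toU (y : R4) : rr (toU y) = tH y := by simp [rr, toU, tH]
theorem gg_toU (y : R4) : gg (toU y) = gg y := rfl
theorem toU_toH (y : R4) : toU (toH y) = y := by ext j; fin_cases j <;> simp [toU, toH]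
theorem toH_toU (y : R4) : toH (toU y) = y := by ext j; fin_cases j <;> simp [toU, toH]
theorem rfl10_fix {y : R4} (h : tH y = 10) : rfl10 y = y := by
  ext j; fin_cases j <;> simp [rfl10, rad, h] <;> ring
theorem tH_rfl10 {y : R4} (h : 0 < tH y) (h' : tH y ≤ 20) : tH (rfl10 y) = 20 - tH y :=
  (n2_mul (div_nonneg (sub_nonneg.2 h') h.le) _ _).trans (div_mul_cancel₀ _ h.ne')

theorem sh_two (n : ℤ) (y : R4) : sh n y 2 = y 2 + 72 * n := rfl

theorem per_sh {A : Set R4} (n : ℤ) (y : R4) : sh n y ∈ per A ↔ y ∈ per A :=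
  ⟨fun ⟨m, hm⟩ => ⟨m + n, by rwa [sh_add]⟩,
    fun ⟨m, hm⟩ => ⟨m - n, by rwa [← sh_add, sub_add_cancel]⟩⟩

theorem mem_per {A : Set R4} {y : R4} (h : y ∈ A) : y ∈ per A := ⟨0, by rwa [sh_zero]⟩

theorem closed_per {A : Set R4} (hA : IsClosed A) (h : ∀ y ∈ A, |y 2| ≤ 72) : IsClosed (per A) := by
  have e : per A = ⋃ n : ℤ, sh n ⁻¹' A := by ext y; simp [per]
  rw [e]
  refine LocallyFinite.isClosed_iUnion (fun x => ⟨{y | |y 2 - x 2| < 1},
    (isOpen_lt (by fun_prop) continuous_const).mem_nhds (by simp), ?_⟩)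
    fun n => hA.preimage (continuous_sh n)
  obtain ⟨N, hN⟩ := exists_nat_ge (|x 2| + 73)
  refine (finite_Icc (-(N : ℤ)) N).subset ?_
  rintro n ⟨y, h1, h2⟩
  have h3 := abs_le.1 (h _ h1)
  have h4 := abs_lt.1 (show |y 2 - x 2| < 1 from h2)
  rw [sh_two] at h3
  have h5 := le_abs_self (x 2)
  have h6 := neg_abs_le (x 2)
  have h7 := abs_nonneg (x 2)
  constructor
  · exact_mod_cast (show -(N : ℝ) ≤ (n : ℝ) by linarith [h3.1, h4.2])
  · exact_mod_cast (show (n : ℝ) ≤ (N : ℝ) by linarith [h3.2, h4.1])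

/-- an integer in a short interval -/
theorem int_zero {n : ℤ} (h : -72 < 72 * (n : ℝ)) (h' : 72 * (n : ℝ) < 72) : n = 0 := by
  have h1 : (-1 : ℤ) < n := by exact_mod_cast (show (-1 : ℝ) < n by linarith)
  have h2 : n < (1 : ℤ) := by exact_mod_cast (show (n : ℝ) < 1 by linarith)
  omega

theorem graph {D W : Set R4} {f : R4 → R4} (hD : IsClosed D) (hf : ContinuousOn f D) (hW : W ⊆ D)
    {y y' : R4} (h : (y, y') ∈ closure {p : R4 × R4 | p.1 ∈ W ∧ p.2 = f p.1}) :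
    y ∈ D ∧ y' = f y :=
  closure_minimal (t := {p : R4 × R4 | p ∈ Prod.fst ⁻¹' D ∧ p.2 = f p.1})
    (fun _ hp => ⟨hW hp.1, hp.2⟩) ((hD.preimage continuous_fst).isClosed_eq
      continuous_snd.continuousOn (hf.comp continuous_fst.continuousOn fun _ hp => hp)) h

theorem gam_ne {y : R4} (h : 3 ≤ y 0) : gam y ≠ 0 :=
  ne_of_gt (lt_max_of_lt_left (lt_max_of_lt_left (lt_max_of_lt_left (by linarith))))

theorem gam_le {y : R4} (h0 : |y 0 - 34| ≤ 30) (h1 : |y 1 - 34| ≤ 30) (h3 : |y 3 - 6| ≤ 30) :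
    gam y ≤ 6 := by
  rw [abs_le] at h0 h1
  refine max_le (max_le (max_le ?_ ?_) (max_le ?_ ?_)) ?_ <;> linarith [h0.1, h0.2, h1.1, h1.2]

theorem bdd_gam : Bornology.IsBounded {y : R4 | gam y ≤ 65 ∧ |y 2| ≤ 72} := by
  refine (Metric.isBounded_closedBall (x := (0 : R4)) (r := 5000)).subset fun y hy => ?_
  obtain ⟨h1, h2⟩ := hy
  simp only [gam, max_le_iff] at h1
  obtain ⟨⟨⟨a, b⟩, c, d⟩, e⟩ := h1
  have e' := abs_le.1 (show |y 3 - 6| ≤ 325 by linarith)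
  rw [mem_closedBall_zero_iff, pi_norm_le_iff_of_nonneg (by norm_num)]
  intro j
  fin_cases j
  · exact abs_le.2 ⟨show _ ≤ y 0 by linarith, show y 0 ≤ _ by linarith⟩
  · exact abs_le.2 ⟨show _ ≤ y 1 by linarith, show y 1 ≤ _ by linarith⟩
  · exact h2.trans (by norm_num)
  · exact abs_le.2 ⟨show _ ≤ y 3 by linarith [e'.1], show y 3 ≤ _ by linarith [e'.2]⟩

/-- the inverted set, without the axis -/
def Dm (A : Set R4) : Set R4 := {y | gam y ≠ 0 ∧ iot y ∈ A}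

section iot

variable (hi : Iot) {A : Set R4} {y : R4}
include hi

theorem gam_iot_ne (h : gam y ≠ 0) : gam (iot y) ≠ 0 := hi.gam_iot y h ▸ inv_ne_zero h

theorem iot_inv (h : gam y ≠ 0) : iot y ∈ inv A ↔ y ∈ A :=
  (or_iff_right (gam_iot_ne hi h)).trans (by rw [hi.iot_iot])

theorem iot_Dm (h : gam y ≠ 0) : iot y ∈ Dm A ↔ y ∈ A :=
  (and_iff_right (gam_iot_ne hi h)).trans (by rw [hi.iot_iot])

theorem open_Dm (hA : IsOpen A) : IsOpen (Dm A) :=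
  hi.cont.isOpen_inter_preimage (isOpen_ne_fun hi.gam_cont continuous_const) hA

theorem closed_Dm (hA : IsClosed A) (h : ∀ w ∈ A, gam w ≤ 6) : IsClosed (Dm A) := by
  have e : Dm A = {y | 1 / 6 ≤ gam y} ∩ iot ⁻¹' A := by
    ext y
    refine and_congr_left fun hy => ⟨fun h0 => ?_, fun h0 => ne_of_gt (lt_of_lt_of_le (by norm_num) h0)⟩
    have h1 := h _ hy
    rw [hi.gam_iot y h0] at h1
    exact one_div (6 : ℝ) ▸ inv_le_of_inv_le₀ (lt_of_le_of_ne (hi.gam_nonneg y) h0.symm) h1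
  rw [e]
  exact (hi.cont.mono fun y hy => ne_of_gt (lt_of_lt_of_le (by norm_num) hy)).preimage_isClosed_of_isClosed
    (isClosed_le continuous_const hi.gam_cont) hA

theorem gam_PC (h : y ∈ PC) : gam y ≠ 0 := ne_of_gt (lt_of_lt_of_le (by norm_num) (hi.low y h))

theorem gam_inv (h : y ∈ inv PC) : gam y ≤ 65 := by
  by_cases h0 : gam y = 0
  · rw [h0]; norm_num
  · have h1 := hi.low _ (h.resolve_left h0)
    rw [hi.gam_iot y h0, one_div] at h1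
    exact (inv_le_inv₀ (by norm_num) (lt_of_le_of_ne (hi.gam_nonneg y) (Ne.symm h0))).1 h1

theorem sh_inv (hA : ∀ n y, y ∈ A → sh n y ∈ A) (n : ℤ) (h : y ∈ inv A) : sh n y ∈ inv A :=
  h.imp (fun h => (hi.gam_sh n y).trans h) fun h => hi.sh_iot n y ▸ hA n _ h

theorem mem_UC (h : 1 ≤ gam y) : y ∈ UC := Or.inl fun o => absurd ((hi.tube_iff y).2.1 o) h.not_gt

end iot

theorem sh_PC (h : Pos) (n : ℤ) (y : R4) : sh n y ∈ PC ↔ y ∈ PC :=
  or_congr (h.sh_UC n y) (per_sh n y)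

theorem sh_ZU (h : Pos) (n : ℤ) (y : R4) : sh n y ∈ ZU ↔ y ∈ ZU :=
  and_congr (and_congr (h.sh_UU n y) (h.sh_UC n y)) (per_sh n y).not

theorem closed_ZU (h : Pos) : IsClosed ZU := by
  refine (h.closed_UU.inter h.closed_UC).sdiff ?_
  have e : per StO = ⋃ n : ℤ, sh n ⁻¹' StO := by ext y; simp [per]
  rw [e]
  refine isOpen_iUnion fun n => IsOpen.preimage (continuous_sh n) ?_
  exact ((isOpen_lt (cont_aC 46) continuous_const).inter (isOpen_lt cont_ff continuous_const)).union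
    (((isOpen_lt (cont_aC 30) continuous_const).inter (isOpen_lt cont_ff continuous_const)).union
      ((isOpen_lt continuous_const cont_rr).inter ((isOpen_lt cont_rr continuous_const).inter
        (isOpen_lt cont_gg continuous_const))))

theorem neck (h : Pos) {y : R4} (h1 : rr y ≤ 11) (h2 : gg y ≤ 4) :
    (y ∈ UU ↔ 10 ≤ rr y) ∧ (y ∈ UC ↔ rr y ≤ 10) := h.neck y h1 (n2_le.1 h2).1 (n2_le.1 h2).2

variable {c c' : ℝ} {z w y : R4}

theorem PC_C (h : Pos) (hc : c = 46 ∨ c = 30) (h1 : aC c w ≤ 7) (h2 : ff w ≤ 7) :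
    w ∈ PC ↔ 5 ≤ ff w ∨ (aC c w ≤ 5 ∧ 4 < ff w) := by
  obtain ⟨h3, h4⟩ := n2_le.1 h1
  rw [abs_le] at h4
  have h5 := (h.colU w h3 h2 (by rcases hc with rfl | rfl <;> linarith [h4.1])
    (by rcases hc with rfl | rfl <;> linarith [h4.2])).2
  refine ⟨?_, fun o => ?_⟩
  · rintro (o | ⟨n, ⟨o | o, o'⟩ | o⟩)
    · exact Or.inl (h5.1 o)
    · have k := abs_le.1 (n2_le.1 o.1).2
      rw [sh_two] at k
      obtain rfl : n = 0 := by
        refine int_zero ?_ ?_ <;> rcases hc with rfl | rfl <;> linarith [k.1, k.2, h4.1, h4.2]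
      rw [sh_zero] at o o'
      rcases hc with rfl | rfl
      · exact Or.inr ⟨o.1, o'⟩
      · exfalso; push_cast at k; linarith [k.1, h4.2]
    · have k := abs_le.1 (n2_le.1 o.1).2
      rw [sh_two] at k
      obtain rfl : n = 0 := by
        refine int_zero ?_ ?_ <;> rcases hc with rfl | rfl <;> linarith [k.1, k.2, h4.1, h4.2]
      rw [sh_zero] at o o'
      rcases hc with rfl | rfl
      · exfalso; push_cast at k; linarith [k.2, h4.1]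
      · exact Or.inr ⟨o.1, o'⟩
    · have k := abs_le.1 (n2_le.1 o.2.2).1
      rw [sh_two] at k
      obtain rfl : n = 0 := by
        refine int_zero ?_ ?_ <;> rcases hc with rfl | rfl <;> linarith [k.1, k.2, h4.1, h4.2]
      exfalso
      push_cast at k
      rcases hc with rfl | rfl <;> linarith [k.2, h4.1]
  · by_cases o' : 5 ≤ ff w
    · exact Or.inl (h5.2 o')
    · obtain ⟨k1, k2⟩ := o.resolve_left o'
      have k3 : ff w < 6 := by linarith [not_le.1 o']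
      refine Or.inr (mem_per (Or.inl ⟨?_, k2⟩))
      rcases hc with rfl | rfl
      exacts [Or.inl ⟨k1, k3⟩, Or.inr ⟨k1, k3⟩]

theorem lc_PC (h : Pos) (hi : Iot) : IsLocallyClosed (inv PC) := by
  let S : Set R4 := ({y | aC 46 y ≤ 5} ∪ {y | aC 30 y ≤ 5}) ∩ {y | 4 ≤ ff y} ∩ {y | ff y ≤ 6} ∪
    {y | 9 ≤ rr y} ∩ {y | rr y ≤ 11} ∩ {y | gg y ≤ 1}
  let B : Set R4 := S ∩ ({y | ff y = 4} ∩ {y | 0 ≤ y 2} ∪ {y | rr y = 11} ∩ {y | y 2 ≤ 0})
  have cS : IsClosed S := by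
    refine ((IsClosed.inter (IsClosed.union ?_ ?_) ?_).inter ?_).union
      ((IsClosed.inter ?_ ?_).inter ?_) <;> exact isClosed_le (by fun_prop) (by fun_prop)
  have cB : IsClosed B := cS.inter (((isClosed_eq cont_ff continuous_const).inter
    (isClosed_le (by fun_prop) (by fun_prop))).union ((isClosed_eq cont_rr continuous_const).inter
      (isClosed_le (by fun_prop) (by fun_prop))))
  have hS : ∀ y ∈ S, (∃ c, (c = 46 ∨ c = 30) ∧ aC c y ≤ 5 ∧ 4 ≤ ff y ∧ ff y ≤ 6 ∧ 0 < y 2) ∨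
      (9 ≤ rr y ∧ rr y ≤ 11 ∧ gg y ≤ 1 ∧ y 2 < 0) := by
    rintro y (⟨⟨o | o, k⟩, k'⟩ | ⟨⟨o, k⟩, k'⟩)
    · exact Or.inl ⟨46, Or.inl rfl, o, k, k', by linarith [(abs_le.1 (n2_le.1 o).2).1]⟩
    · exact Or.inl ⟨30, Or.inr rfl, o, k, k', by linarith [(abs_le.1 (n2_le.1 o).2).1]⟩
    · exact Or.inr ⟨o, k, k', by linarith [(abs_le.1 (n2_le.1 k').1).2]⟩
  have bS : ∀ y ∈ S, |y 2| ≤ 72 ∧ 3 ≤ y 0 ∧ gam y ≤ 6 := fun y hy => by
    rcases hS y hy with ⟨c, hc, o, -, k, -⟩ | ⟨-, o, k, -⟩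
    · obtain ⟨a, b⟩ := n2_le.1 o
      obtain ⟨d, e⟩ := n2_le.1 k
      rw [abs_le] at a b
      refine ⟨abs_le.2 ⟨?_, ?_⟩, by linarith [a.1], gam_le (abs_le.2 ⟨by linarith [a.1],
        by linarith [a.2]⟩) (by linarith) (by linarith)⟩ <;>
        rcases hc with rfl | rfl <;> linarith [b.1, b.2]
    · obtain ⟨a, b⟩ := n2_le.1 o
      obtain ⟨d, e⟩ := n2_le.1 k
      rw [abs_le] at d
      exact ⟨abs_le.2 ⟨by linarith [d.1], by linarith [d.2]⟩, by linarith [(abs_le.1 a).1],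
        gam_le (by linarith) (by linarith) (by linarith)⟩
  have key : ∀ y ∈ S, y ∈ PC ↔ y ∉ B := fun y hy => by
    rcases hS y hy with ⟨c, hc, o, k, k', p⟩ | ⟨o, k, k', p⟩
    · rw [PC_C h hc (by linarith) (by linarith)]
      refine ⟨?_, fun b => Or.inr ⟨o, lt_of_le_of_ne k fun e => b ⟨hy, Or.inl ⟨e.symm, p.le⟩⟩⟩⟩
      rintro a ⟨-, ⟨e, -⟩ | ⟨-, e⟩⟩
      · rw [show ff y = 4 from e] at a
        rcases a with a | a <;> norm_num at a
      · exact p.not_ge e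
    · rw [h.PC_K y k (by linarith)]
      refine ⟨?_, fun b => Or.inr ⟨lt_of_le_of_ne k fun e => b ⟨hy, Or.inr ⟨e, p.le⟩⟩, k'⟩⟩
      rintro a ⟨-, ⟨-, e⟩ | ⟨e, -⟩⟩
      · exact p.not_ge e
      · rw [show rr y = 11 from e] at a
        rcases a with a | a <;> norm_num at a
  refine ⟨(Dm (per B))ᶜ, inv (UC ∪ per S), (closed_Dm hi (closed_per cB fun y hy => (bS y hy.1).1)
    fun w ⟨n, hn⟩ => hi.gam_sh n w ▸ (bS _ hn.1).2.2).isOpen_compl, hi.closed _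
    (h.closed_UC.union (closed_per cS fun y hy => (bS y hy).1))
    (fun y hy => Or.inl (mem_UC hi hy)) ?_, Set.ext fun y => ⟨fun hy => ⟨?_, hy.imp_right ?_⟩, ?_⟩⟩
  · rintro y (hy | ⟨n, hn⟩)
    exacts [gam_PC hi (Or.inl hy), hi.gam_sh n y ▸ gam_ne (bS _ hn).2.1]
  · rintro ⟨h0, n, hn⟩
    exact (key _ hn.1).1 ((sh_PC h n _).2 (hy.resolve_left h0)) hn
  · refine Or.imp_right ?_
    rintro ⟨n, ⟨o, k⟩ | o⟩
    · exact ⟨n, Or.inl ⟨⟨o.imp And.left And.left, le_of_lt (show (4 : ℝ) < ff _ from k)⟩,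
        le_of_lt (show ff _ < (6 : ℝ) from o.elim And.right And.right)⟩⟩
    · exact ⟨n, Or.inr ⟨⟨o.1.le, o.2.1.le⟩, o.2.2⟩⟩
  · rintro ⟨h1, h2⟩
    by_cases h0 : gam y = 0
    · exact Or.inl h0
    · rcases h2.resolve_left h0 with o | ⟨n, hn⟩
      · exact Or.inr (Or.inl o)
      · exact Or.inr ((sh_PC h n _).1 ((key _ hn).2 fun b => h1 ⟨h0, n, b⟩))

/-- the points of the tower in the shell -/
theorem shell_UU (hw : w ∈ UU) (h1 : r3 w ≤ 26) (h2 : 23 ≤ w 2) (h3 : w 2 ≤ 53) :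
    w 0 ≤ 43 ∧ ff w ≤ 5 := by
  obtain ⟨⟨-, -, t1, t2⟩, hc⟩ := hw
  obtain ⟨a, b⟩ := max_le_iff.1 h1
  have b' := abs_le.1 (n2_le.1 b).1
  rw [abs_le] at a
  have k1 := hc 0 ⟨3, 65, 3, 29, 19, 57⟩ (by simp [cav])
  have k2 := hc 0 ⟨43, 65, 3, 65, 19, 57⟩ (by simp [cav])
  have k3 := hc 0 ⟨3, 65, 39, 65, 19, 57⟩ (by simp [cav])
  rw [sh_zero] at k1 k2 k3
  refine ⟨not_lt.1 fun o => k2 ?_, n2_le.2 ⟨abs_le.2 ⟨not_lt.1 fun o => k1 ?_,
    not_lt.1 fun o => k3 ?_⟩, abs_le.2 ⟨by linarith, by linarith⟩⟩⟩ <;>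
  · refine ⟨⟨?_, ?_⟩, ⟨?_, ?_⟩, ?_, ?_⟩ <;> push_cast <;> linarith [a.1, a.2, b'.1, b'.2]

/-! ### the shell -/

/-- the closed column -/
def Col (c : ℝ) : Set R4 := {y | aC c y ≤ 6 ∧ ff y ≤ 6}
/-- the closed shell -/
def cS (c : ℝ) : Set R4 :=
  {w | (14 ≤ r3 w ∧ r3 w ≤ 26 ∧ ¬ (w 0 ≤ 34 ∧ ff w < 4)) ∧ |w 2 - c| ≤ 6}
/-- the window -/
def W1 (c : ℝ) : Set R4 := {y | gam y ≠ 0 ∧ iot y ∈ Sh ∧ |y 2 - c| < 6}

theorem Sh_sub (h : w ∈ Sh) (h' : |w 2 - c| < 6) : w ∈ cS c :=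
  ⟨⟨h.1.le, h.2.1.le, fun o => h.2.2 ⟨o.1, o.2.le⟩⟩, h'.le⟩

theorem W1_sub (hi : Iot) : W1 c ⊆ Dm (cS c) := fun y hy =>
  ⟨hy.1, Sh_sub hy.2.1 (hi.two y ▸ hy.2.2)⟩

theorem open_W1 (hi : Iot) : IsOpen (W1 c) := by
  have : IsOpen Sh := (isOpen_lt continuous_const cont_r3).inter
    ((isOpen_lt cont_r3 continuous_const).inter ((isClosed_le (continuous_apply 0) continuous_const).inter
      (isClosed_le cont_ff continuous_const)).isOpen_compl)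
  convert (open_Dm hi this).inter (isOpen_lt (f := fun y : R4 => |y 2 - c|) (by fun_prop)
    (continuous_const (y := 6))) using 1
  exact Set.ext fun _ => and_assoc.symm

theorem cS_gam (h : w ∈ cS c) : gam w ≠ 0 ∧ gam w ≤ 6 := by
  obtain ⟨a, b⟩ := max_le_iff.1 h.1.2.1
  obtain ⟨d, e⟩ := n2_le.1 b
  exact ⟨gam_ne (by linarith [(abs_le.1 a).1]), gam_le (by linarith) (by linarith) (by linarith)⟩

theorem closed_cS : IsClosed (cS c) := by
  have e : cS c = {w | 14 ≤ r3 w} ∩ {w | r3 w ≤ 26} ∩ ({w | 48 ≤ w 0} ∪ {w | 4 ≤ ff w}) ∩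
      {w | |w 2 - c| ≤ 6} := by
    refine Set.ext fun w => and_congr_left fun _ => ⟨fun ⟨a, b, d⟩ => ⟨⟨a, b⟩, ?_⟩,
      fun ⟨⟨a, b⟩, d⟩ => ⟨a, b, fun o => d.elim (fun k => by linarith [o.1, show 48 ≤ w 0 from k])
        o.2.not_ge⟩⟩
    by_cases k : 4 ≤ ff w
    · exact Or.inr k
    · have k1 : 34 < w 0 := not_le.1 fun o => d ⟨o, not_le.1 k⟩
      rcases le_max_iff.1 a with k2 | k2
      · rw [abs_of_pos (by linarith)] at k2
        exact Or.inl (show 48 ≤ w 0 by linarith)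
      · exact absurd (by linarith) k
  rw [e]
  refine ((IsClosed.inter ?_ ?_).inter (IsClosed.union ?_ ?_)).inter ?_ <;>
    exact isClosed_le (by fun_prop) (by fun_prop)

variable (s : Psi)

theorem psi_ff (h0 : |z 0 - 14| ≤ 6) (h4 : 4 ≤ ff z) (h6 : ff z ≤ 6) :
    s.ψ z 0 = z 0 ∧ ff (s.ψ z) = 10 - ff z := by
  rw [s.ψ_ring z h0 h4 h6]
  refine ⟨rfl, ?_⟩
  have h1 : ff z ≠ 0 := by linarith
  refine Eq.trans ?_ ((n2_mul (t := (10 - ff z) / ff z) (div_nonneg (by linarith) (by linarith))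
    (z 1 - 34) (z 3 - 6)).trans (div_mul_cancel₀ _ h1))
  exact congrArg₂ n2 (add_sub_cancel_left _ _) (add_sub_cancel_left _ _)

theorem psi_fix (h0 : |z 0 - 14| ≤ 6) (h5 : ff z = 5) : s.ψ z = z := by
  rw [s.ψ_ring z h0 (by linarith) (by linarith), h5]
  ext j; fin_cases j <;> simp <;> ring

theorem psi_cS (hz : z ∈ Col c) : s.ψ z ∈ cS c := by
  obtain ⟨a, b⟩ := n2_le.1 hz.1
  obtain ⟨k1, k2, k3⟩ := s.ψ_mem z a hz.2
  rw [abs_le] at a
  exact ⟨⟨by linarith [a.2], by linarith [a.1], k3⟩, k2 ▸ b⟩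

theorem chi_Col (hw : w ∈ cS c) : s.χ w ∈ Col c ∧ s.ψ (s.χ w) = w := by
  obtain ⟨⟨a, b, d⟩, e⟩ := hw
  obtain ⟨k1, k2, k3⟩ := s.χ_mem w a b d
  exact ⟨⟨n2_le.2 ⟨abs_le.2 ⟨by linarith, by linarith⟩, k2 ▸ e⟩, k3⟩, s.ψ_χ w a b d⟩

theorem chi_psi (hz : z ∈ Col c) : s.χ (s.ψ z) = z := s.χ_ψ z (n2_le.1 hz.1).1 hz.2

theorem psi_lt (hz : z ∈ Col c) {t : ℝ} (h6 : t < 6) :
    (s.ψ z 0 ≤ 34 ∧ ff (s.ψ z) ≤ t ↔ 10 - t ≤ ff z) ∧
      (s.ψ z 0 ≤ 34 ∧ ff (s.ψ z) < t ↔ 10 - t < ff z) := by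
  have a := (n2_le.1 hz.1).1
  rcases le_total (ff z) 4 with o | o
  · have k := s.ψ_in z a o
    exact ⟨iff_of_false (fun p => k ⟨p.1, by linarith [p.2]⟩) (by linarith),
      iff_of_false (fun p => k ⟨p.1, by linarith [p.2]⟩) (by linarith)⟩
  · obtain ⟨k1, k2⟩ := psi_ff s a o hz.2
    have k3 : z 0 ≤ 34 := by linarith [(abs_le.1 a).2]
    rw [k1, k2, and_iff_right k3, and_iff_right k3]
    exact ⟨sub_le_comm, sub_lt_comm⟩

theorem psi_W1 (hi : Iot) (hz : z ∈ Col c) : iot (s.ψ z) ∈ W1 c ↔ aC c z < 6 ∧ ff z < 6 := by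
  have a := (n2_le.1 hz.1).1
  obtain ⟨k1, k2, -⟩ := s.ψ_mem z a hz.2
  have k3 := (psi_lt s hz (t := 4) (by norm_num)).1
  simp only [W1, Sh, mem_ofPred_eq, hi.iot_iot, hi.two, k1, k2, k3, aC, n2_lt, not_le]
  rw [and_iff_right (gam_iot_ne hi (cS_gam (psi_cS s hz)).1), abs_lt (a := z 0 - 14)]
  exact ⟨fun ⟨⟨p, q, r⟩, t⟩ => ⟨⟨⟨by linarith, by linarith⟩, t⟩, by linarith⟩,
    fun ⟨⟨⟨p, q⟩, t⟩, r⟩ => ⟨⟨by linarith, by linarith, by linarith⟩, t⟩⟩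

theorem cS_two (hc : c = 46 ∨ c = 30) (hw : w ∈ cS c) : 23 ≤ w 2 ∧ w 2 ≤ 53 := by
  have := abs_le.1 hw.2
  constructor <;> rcases hc with rfl | rfl <;> linarith [this.1, this.2]

theorem psi_UC (h : Pos) (hc : c = 46 ∨ c = 30) (hz : z ∈ Col c) : s.ψ z ∈ UC ↔ ff z ≤ 5 := by
  have k := psi_cS s hz
  rw [h.shell _ k.1.1 k.1.2.1 (cS_two hc k).1 (cS_two hc k).2,
    (psi_lt s hz (t := 5) (by norm_num)).2, not_lt]
  norm_num

theorem psi_PC (h : Pos) (hc : c = 46 ∨ c = 30) (hz : z ∈ Col c) :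
    s.ψ z ∈ PC ↔ ff z ≤ 5 ∨ (aC c z ≤ 5 ∧ ff z < 6) := by
  by_cases o : ff z ≤ 5
  · exact iff_of_true (Or.inl ((psi_UC s h hc hz).2 o)) (Or.inl o)
  · have a := (n2_le.1 hz.1).1
    have o' := not_le.1 o
    obtain ⟨k1, k2⟩ := psi_ff s a (by linarith) hz.2
    have k3 : aC c (s.ψ z) = aC c z := by rw [aC, k1, (s.ψ_mem z a hz.2).2.1, aC]
    rw [PC_C h hc (k3 ▸ hz.1.trans (by norm_num)) (by linarith), k2, k3]
    exact or_congr ⟨fun p => by linarith, fun p => by linarith⟩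
      (and_congr_right fun _ => ⟨fun p => by linarith, fun p => by linarith⟩)

/-- the points of the boundary in the shell are fixed -/
theorem chi_fix (h : Pos) (hc : c = 46 ∨ c = 30) (hw : w ∈ cS c) (hZ : w ∈ ZU) : s.χ w = w := by
  obtain ⟨k1, k2⟩ := shell_UU hZ.1.1 hw.1.2.1 (cS_two hc hw).1 (cS_two hc hw).2
  have k3 := (h.shell _ hw.1.1 hw.1.2.1 (cS_two hc hw).1 (cS_two hc hw).2).1 hZ.1.2
  have k4 : 14 ≤ |w 0 - 34| := (le_max_iff.1 hw.1.1).resolve_right (by linarith)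
  have k5 : |w 0 - 34| ≤ 26 := (max_le_iff.1 hw.1.2.1).1
  have k6 : w 0 ≤ 20 := by
    rcases le_abs.1 k4 with o | o <;> linarith
  have k7 : |w 0 - 14| ≤ 6 := abs_le.2 ⟨by linarith [(abs_le.1 k5).1], by linarith⟩
  have k8 : ff w = 5 := le_antisymm k2 (not_lt.1 fun o => k3 ⟨by linarith, o⟩)
  exact (congrArg s.χ (psi_fix s k7 k8).symm).trans (s.χ_ψ w k7 (by linarith))

end Vale.Agent.P260Z.L3.T1
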