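import Vale.Agent.P260Z.L3.TG1A

/-!
# P260, layer 3: the filling by the complement, the windows
-/

noncomputable section

namespace Vale.Agent.P260Z.L3.T1

open Set Topology

/-- a plumbing of two columns -/
structure AB (c c' : ℝ) (t t' : R4 → R4) : Prop where
  hc : c = 46 ∨ c = 30
  hc' : c' = 46 ∨ c' = 30
  cont : Continuous t
  a : ∀ z, aC c' (t z) = ff z
  f : ∀ z, ff (t z) = aC c z
  inv : ∀ z, t' (t z) = z

theorem ab : AB 46 30 thA thB where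
  hc := Or.inl rfl
  hc' := Or.inr rfl
  cont := by unfold thA; fun_prop
  a := fun z => congrArg₂ n2 (show z 1 - 20 - 14 = _ by ring) (show z 3 + 24 - 30 = _ by ring)
  f := fun z => congrArg₂ n2 (show z 0 + 20 - 34 = _ by ring) (show z 2 - 40 - 6 = _ by ring)
  inv := fun z => by ext j; fin_cases j <;> simp [thA, thB]

theorem ba : AB 30 46 thB thA where
  hc := Or.inr rfl
  hc' := Or.inl rfl
  cont := by unfold thB; fun_prop
  a := fun z => congrArg₂ n2 (show z 1 - 20 - 14 = _ by ring) (show z 3 + 40 - 46 = _ by ring)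
  f := fun z => congrArg₂ n2 (show z 0 + 20 - 34 = _ by ring) (show z 2 - 24 - 6 = _ by ring)
  inv := fun z => by ext j; fin_cases j <;> simp [thA, thB]

/-- the transition map of a plumbing -/
def th (s : Psi) (t : R4 → R4) (y : R4) : R4 := iot (s.ψ (t (s.χ (iot y))))

variable {c c' : ℝ} {t t' : R4 → R4} {y y' z : R4} (s : Psi)

theorem cont_E (hi : Iot) : ContinuousOn (fun z => iot (s.ψ z)) (Col c) :=
  hi.cont.comp (s.ψ_cont.mono fun _ hz => ⟨(n2_le.1 hz.1).1, hz.2⟩)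
    fun _ hz => (cS_gam (psi_cS s hz)).1

theorem rep (hi : Iot) (hy : y ∈ Dm (cS c)) : ∃ z ∈ Col c, y = iot (s.ψ z) :=
  ⟨_, (chi_Col s hy.2).1, by rw [(chi_Col s hy.2).2, hi.iot_iot]⟩

theorem th_E (hi : Iot) (hz : z ∈ Col c) : th s t (iot (s.ψ z)) = iot (s.ψ (t z)) := by
  rw [th, hi.iot_iot, chi_psi s hz]

theorem E_PC (h : Pos) (hi : Iot) (hc : c = 46 ∨ c = 30) (hz : z ∈ Col c) :
    iot (s.ψ z) ∈ inv PC ↔ ff z ≤ 5 ∨ (aC c z ≤ 5 ∧ ff z < 6) :=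
  (iot_inv hi (cS_gam (psi_cS s hz)).1).trans (psi_PC s h hc hz)

theorem E_UC (h : Pos) (hi : Iot) (hc : c = 46 ∨ c = 30) (hz : z ∈ Col c) :
    iot (s.ψ z) ∈ inv UC ↔ ff z ≤ 5 :=
  (iot_inv hi (cS_gam (psi_cS s hz)).1).trans (psi_UC s h hc hz)

namespace AB

variable (H : AB c c' t t') (h : Pos) (hi : Iot)
include H

theorem col (hz : z ∈ Col c) : t z ∈ Col c' := ⟨H.a z ▸ hz.2, H.f z ▸ hz.1⟩

include hi

theorem cont_th : ContinuousOn (th s t) (Dm (cS c)) :=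
  (cont_E s hi (c := c')).comp (H.cont.comp_continuousOn ((s.χ_cont.comp
    (hi.cont.mono fun _ hy => hy.1) fun _ hy => hy.2.1))) fun _ hy => H.col (chi_Col s hy.2).1

theorem th_th (hy : y ∈ W1 c) : th s t' (th s t y) = y := by
  obtain ⟨z, hz, rfl⟩ := rep s hi (W1_sub hi hy)
  rw [th_E s hi hz, th_E s hi (H.col hz), H.inv]

include h

theorem maps : MapsTo (th s t) (L3.inv PC ∩ W1 c) (L3.inv PC ∩ W1 c') := by
  rintro y ⟨h1, h2⟩
  obtain ⟨z, hz, rfl⟩ := rep s hi (W1_sub hi h2)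
  rw [E_PC s h hi H.hc hz] at h1
  rw [psi_W1 s hi hz] at h2
  rw [th_E s hi hz, mem_inter_iff, E_PC s h hi H.hc' (H.col hz), psi_W1 s hi (H.col hz), H.a, H.f]
  exact ⟨h1.elim (fun o => Or.inr ⟨o, h2.1⟩) fun o => Or.inl o.1, h2.2, h2.1⟩

theorem sep (hy : y ∈ L3.inv PC) (hy' : y' ∈ L3.inv PC) (hp : (y, y') ∈ closure
    {p : R4 × R4 | p.1 ∈ L3.inv PC ∩ W1 c ∧ p.2 = th s t p.1}) : y ∈ W1 c := by
  obtain ⟨h1, rfl⟩ := graph (closed_Dm hi closed_cS fun _ hw => (cS_gam hw).2) (H.cont_th s hi)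
    (fun _ hy => W1_sub hi hy.2) hp
  obtain ⟨z, hz, rfl⟩ := rep s hi h1
  rw [E_PC s h hi H.hc hz] at hy
  rw [th_E s hi hz, E_PC s h hi H.hc' (H.col hz), H.f] at hy'
  exact (psi_W1 s hi hz).2 ⟨hy'.elim (fun o => by linarith) And.right,
    hy.elim (fun o => by linarith) And.right⟩

theorem cover (h0 : gam y ≠ 0) (h1 : aC c (iot y) ≤ 5) (h2 : 4 < ff (iot y)) (h3 : ff (iot y) < 6) :
    y ∈ W1 c ∧ th s t y ∈ L3.inv UC := by
  obtain ⟨a, b⟩ := n2_le.1 h1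
  have a' := abs_le.1 a
  have e : r3 (iot y) = 34 - iot y 0 := by
    rw [r3, abs_of_neg (by linarith [a'.2]), neg_sub]
    exact max_eq_left (by linarith [a'.2])
  have hW : y ∈ W1 c := ⟨h0, ⟨by linarith [a'.2], by linarith [a'.1], fun o => h2.not_ge o.2⟩,
    hi.two y ▸ b.trans_lt (by norm_num)⟩
  have hw := (W1_sub hi hW).2
  obtain ⟨k1, k2, -⟩ := s.χ_mem _ hw.1.1 hw.1.2.1 hw.1.2.2
  refine ⟨hW, (E_UC s h hi H.hc' (H.col (chi_Col s hw).1)).2 ?_⟩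
  rwa [H.f, aC, k1, k2, e, sub_sub_cancel]

theorem S_eq : {y | y ∈ L3.inv UC ∧ y ∈ W1 c ∧ th s t y ∈ L3.inv UC} =
    (fun z => iot (s.ψ z)) '' {z | aC c z ≤ 5 ∧ ff z ≤ 5} := by
  ext y
  constructor
  · rintro ⟨h1, h2, h3⟩
    obtain ⟨z, hz, rfl⟩ := rep s hi (W1_sub hi h2)
    rw [th_E s hi hz, E_UC s h hi H.hc' (H.col hz), H.f] at h3
    exact ⟨z, ⟨h3, (E_UC s h hi H.hc hz).1 h1⟩, rfl⟩
  · rintro ⟨z, ⟨h1, h2⟩, rfl⟩
    have hz : z ∈ Col c := ⟨by linarith, by linarith⟩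
    refine ⟨(E_UC s h hi H.hc hz).2 h2, (psi_W1 s hi hz).2 ⟨by linarith, by linarith⟩, ?_⟩
    rwa [th_E s hi hz, E_UC s h hi H.hc' (H.col hz), H.f]

omit H hi in
theorem fix (hc : c = 46 ∨ c = 30) (hz : z ∈ Col c) (hZ : z ∈ ZU) : s.ψ z = z := by
  obtain ⟨a, b⟩ := n2_le.1 hz.1
  rw [abs_le] at b
  obtain ⟨k1, k2⟩ := h.colU z (by linarith) (by linarith [hz.2])
    (by rcases hc with rfl | rfl <;> linarith [b.1]) (by rcases hc with rfl | rfl <;> linarith [b.2])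
  exact psi_fix s a (le_antisymm (k1.1 hZ.1.1) (k2.1 hZ.1.2))

theorem edge (hy : y ∈ ZU) (h1 : aC c y < 6 ∧ ff y < 6) (h2 : t y ∈ ZU) :
    iot y ∈ W1 c ∧ th s t (iot y) = iot (t y) := by
  have hz : y ∈ Col c := ⟨h1.1.le, h1.2.le⟩
  have e := fix s h H.hc hz hy
  exact ⟨e ▸ (psi_W1 s hi hz).2 h1, by
    rw [← congrArg iot (fix s h H.hc' (H.col hz) h2), ← th_E s hi hz, e]⟩

theorem edge' (hy : y ∈ Dm ZU) (h1 : y ∈ W1 c) (h2 : th s t y ∈ Dm ZU) :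
    (aC c (iot y) < 6 ∧ ff (iot y) < 6) ∧ t (iot y) = iot (th s t y) := by
  obtain ⟨z, hz, rfl⟩ := rep s hi (W1_sub hi h1)
  rw [th_E s hi hz] at h2 ⊢
  have e1 := chi_fix s h H.hc (psi_cS s hz) (hi.iot_iot (s.ψ z) ▸ hy.2)
  have e2 := chi_fix s h H.hc' (psi_cS s (H.col hz)) (hi.iot_iot (s.ψ (t z)) ▸ h2.2)
  rw [chi_psi s hz] at e1
  rw [chi_psi s (H.col hz)] at e2
  rw [hi.iot_iot, hi.iot_iot, ← e1, ← e2]
  exact ⟨(psi_W1 s hi hz).1 h1, rfl⟩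

end AB

/-! ### the neck -/

theorem gam_rr (h : rr y ≤ 11) (h' : gg y ≤ 4) : gam y ≠ 0 ∧ gam y ≤ 6 := by
  obtain ⟨a, b⟩ := n2_le.1 h
  exact ⟨gam_ne (by linarith [(abs_le.1 a).1]),
    gam_le (by linarith) (by linarith) (by linarith [(n2_le.1 h').2])⟩

theorem gam_toU (h : tH y ≤ 11) (h' : gg y ≤ 4) : gam (toU y) ≠ 0 :=
  (gam_rr (y := toU y) ((rr_toU y).trans_le h) h').1

/-- the pairs of points of the neck -/
theorem neck_iff (h : Pos) (h1 : rr y ≤ 11) (h2 : gg y ≤ 3 / 2) :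
    (y ∈ PC ∧ toH y ∈ PH → y ∈ Wo0 .K) ∧ (y ∈ Wo0 .K → (y ∈ PC ↔ toH y ∈ PH)) := by
  rw [h.PC_K y h1 (by linarith), (h.PH_L (toH y) (h1.trans (by norm_num))).2, tH_toH, gg_toH]
  refine ⟨fun ⟨a, b⟩ => ⟨b.elim (fun o => by linarith [o.1]) And.left,
    a.elim (fun o => by linarith) And.left, b.elim (fun o => by linarith [o.2]) fun o => o.2.2⟩,
    fun ⟨a, b, d⟩ => ⟨fun o => ?_, fun o => o.elim (fun o => Or.inr ⟨b, o.2⟩) fun o => Or.inl o.2.1⟩⟩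
  rcases le_total (rr y) 10 with k | k
  · exact Or.inr ⟨a, k, d⟩
  · exact o.elim (fun o => Or.inr ⟨a, o, d⟩) fun o => Or.inl ⟨k, o.2⟩

theorem toU_W (y : R4) : toU y ∈ Wo0 .K ↔ y ∈ Wo0 .L := by
  simp only [Wo0, mem_ofPred_eq, rr_toU, gg_toU]

theorem ZU_rr (h : Pos) (hy : y ∈ ZU) (h1 : rr y ≤ 11) (h2 : gg y ≤ 4) : rr y = 10 :=
  le_antisymm ((neck h h1 h2).2.1 hy.1.2) ((neck h h1 h2).1.1 hy.1.1)

theorem sepK (h : Pos) (hi : Iot) (hy : y ∈ inv PC) (hy' : y' ∈ PH) (hp : (y, y') ∈ closure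
    {p : R4 × R4 | p.1 ∈ inv PC ∩ Dm (Wo0 .K) ∧ p.2 = toH (iot p.1)}) : y ∈ Dm (Wo0 .K) := by
  obtain ⟨h1, rfl⟩ := graph (D := Dm {w | rr w ≤ 11 ∧ gg w ≤ 3 / 2}) (closed_Dm hi
    ((isClosed_le cont_rr continuous_const).inter (isClosed_le cont_gg continuous_const))
    fun _ hw => (gam_rr hw.1 (hw.2.trans (by norm_num))).2)
    (cont_toH.comp_continuousOn (hi.cont.mono fun _ hy => hy.1))
    (fun _ hy => ⟨hy.2.1, hy.2.2.2.1.le, hy.2.2.2.2.le⟩) hp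
  exact ⟨h1.1, (neck_iff h h1.2.1 h1.2.2).1 ⟨hy.resolve_left h1.1, hy'⟩⟩

theorem sepL (h : Pos) (hi : Iot) (hy : y ∈ PH) (hy' : y' ∈ inv PC) (hp : (y, y') ∈ closure
    {p : R4 × R4 | p.1 ∈ PH ∩ Wo0 .L ∧ p.2 = iot (toU p.1)}) : y ∈ Wo0 .L := by
  obtain ⟨h1, rfl⟩ := graph (D := {w | tH w ≤ 11 ∧ gg w ≤ 3 / 2})
    ((isClosed_le cont_tH continuous_const).inter (isClosed_le cont_gg continuous_const))
    (hi.cont.comp cont_toU.continuousOn fun _ hw => gam_toU hw.1 (hw.2.trans (by norm_num)))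
    (fun _ hy => ⟨hy.2.2.1.le, hy.2.2.2.le⟩) hp
  exact (toU_W y).1 ((neck_iff (y := toU y) h ((rr_toU y).trans_le h1.1) h1.2).1
    ⟨(iot_inv hi (gam_toU h1.1 (h1.2.trans (by norm_num)))).1 hy', (toH_toU y).symm ▸ hy⟩)

/-- the height of a window -/
def ht : Ed → ℝ
  | .A => 46 | .B => 30 | .K => -6 | .L => 0

theorem win_two (hi : Iot) {e : Ed} (he : e.src = true) (hy : y ∈ Wo1 e) :
    gam y ≠ 0 ∧ |y 2 - ht e| < 6 := by
  cases e
  · exact ⟨hy.1, hy.2.2⟩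
  · exact ⟨hy.1, hy.2.2⟩
  · have := (n2_lt.1 hy.2.2.2).1
    rw [hi.two] at this
    exact ⟨hy.1, by rw [ht, sub_neg_eq_add]; linarith⟩
  · cases he

theorem win_disj (hi : Iot) {e e' : Ed} (he : e.src = true) (he' : e'.src = true) {n : ℤ}
    (hy : y ∈ Wo1 e) (hy' : sh n y ∈ Wo1 e') : n = 0 ∧ e' = e := by
  have h1 := abs_lt.1 (win_two hi he hy).2
  have h2 := abs_lt.1 (win_two hi he' hy').2
  rw [sh_two] at h2
  obtain rfl : n = 0 := by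
    refine int_zero ?_ ?_ <;> cases e <;> cases e' <;> simp only [ht] at h1 h2 <;>
      linarith [h1.1, h1.2, h2.1, h2.2]
  refine ⟨rfl, ?_⟩
  cases e <;> cases e' <;> first
    | rfl
    | exact absurd he Bool.false_ne_true
    | exact absurd he' Bool.false_ne_true
    | (exfalso; simp only [ht, Int.cast_zero] at h1 h2; linarith [h1.1, h1.2, h2.1, h2.2])

end Vale.Agent.P260Z.L3.T1
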